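import Vale.Agent.P146.Sup.Pair

/-!
# P146, superconcentration: the assembly

At a fixed small temperature gap `1 / N` every overlap away from zero costs a power of `1 / N` in the
free energy of two copies, which beats the error of the lower bound and the fluctuations.
-/

open MeasureTheory ProbabilityTheory Real Finset
open Vale.Agent.P157.Rsb (IsPath)
open Vale.Agent.P150 (stdPi)

namespace Vale.Agent.P146.Sup

variable {β : ℝ}

/-- The gap at an overlap `v` at least `s`, a power of `s / N`. -/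
theorem exists_gap (h1 : CaseIStmt) (h2 : CaseIIStmt) (hβ : 0 < β) :
    ∃ c, 0 < c ∧ c ≤ 1 ∧ ∀ (k N : ℕ) (q : ℕ → ℝ) (s v : ℝ), 1 ≤ k → IsMinPath β k q → 2 ≤ N →
      0 < s → s ≤ v → v ≤ 1 → ∃ (K : ℕ) (Q : ℕ → ℝ) (lam : ℝ), 1 ≤ K ∧ IsPath K Q ∧ v ≤ Q K ∧ |lam| ≤ 1 ∧
        twoObj K β (1 - 1 / N) v Q lam ≤ 2 * parisiP β k q - c * (s / (2 * N)) ^ 9 := by
  obtain ⟨c₁, hc₁, hI⟩ := h1 β hβ
  obtain ⟨C, hII⟩ := h2 β hβ
  set δ := 1 / (4 * (|C| + 1)) with hδ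
  have hδ0 : 0 < δ := by positivity
  have hδ1 : δ ≤ 1 := by
    rw [hδ, div_le_one (by positivity)]
    linarith [abs_nonneg C]
  refine ⟨min (2 * c₁ * δ ^ 8) 1, lt_min (by positivity) one_pos, min_le_right _ _,
    fun k N q s v hk hq hN hs hsv hv => ?_⟩
  have hN2 : (2 : ℝ) ≤ N := by exact_mod_cast hN
  set l := s / (2 * N) with hl
  have hl0 : 0 < l := by positivity
  have hl1 : l ≤ 1 := by rw [hl, div_le_one (by positivity)]; linarith
  have hlN : 2 * l ≤ 1 / N := by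
    rw [hl, le_div_iff₀ (by positivity), mul_assoc, div_mul_eq_mul_div, mul_div_assoc',
      div_le_one (by positivity)]
    nlinarith
  set ε := (δ * l) ^ 4 with hε
  have hdl : δ * l ≤ 1 := by nlinarith
  have hl9 : min (2 * c₁ * δ ^ 8) 1 * l ^ 9 ≤ 2 * c₁ * δ ^ 8 * l ^ 9 :=
    mul_le_mul_of_nonneg_right (min_le_left _ _) (by positivity)
  by_cases hM : lowMass k q v ≤ ε
  · obtain ⟨K, Q, hK, hQ, hvQ, hb⟩ := hII k N q v ε l hk hq hN (hs.le.trans hsv) hv (by positivity)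
      (pow_le_one₀ (by positivity) hdl) hl0.le hl1 hM
    refine ⟨K, Q, l, hK, hQ, hvQ, by rw [abs_of_pos hl0]; exact hl1, hb.trans ?_⟩
    have hr : ε ^ (1 / 4 : ℝ) = δ * l := by
      rw [hε, ← rpow_natCast (δ * l) 4, ← rpow_mul (by positivity)]
      norm_num
    have hv' : 2 * l ^ 2 ≤ l * v / N := by
      rw [le_div_iff₀ (by positivity)]
      have : 2 * l * N ≤ v := by rw [hl]; field_simp; linarith
      nlinarith
    have hC : C * (l * (δ * l) + ε) ≤ l ^ 2 / 2 := by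
      have e1 : ε ≤ δ * l ^ 2 := by
        rw [hε, mul_pow]
        exact mul_le_mul (pow_le_of_le_one hδ0.le hδ1 (by norm_num))
          (pow_le_pow_of_le_one hl0.le hl1 (by norm_num)) (by positivity) hδ0.le
      have e2 : 4 * (|C| + 1) * δ = 1 := by rw [hδ]; field_simp
      calc C * (l * (δ * l) + ε) ≤ |C| * (l * (δ * l) + ε) :=
            mul_le_mul_of_nonneg_right (le_abs_self C) (by positivity)
        _ ≤ |C| * (2 * (δ * l ^ 2)) := mul_le_mul_of_nonneg_left (by linarith) (abs_nonneg C)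
        _ ≤ _ := by nlinarith [abs_nonneg C, mul_pos hδ0 (pow_pos hl0 2), sq_nonneg l]
    have h9 : min (2 * c₁ * δ ^ 8) 1 * l ^ 9 ≤ l ^ 2 :=
      (mul_le_of_le_one_left (by positivity) (min_le_right _ _)).trans
        (pow_le_pow_of_le_one hl0.le hl1 (by norm_num))
    rw [hr]
    linarith
  · obtain ⟨K, Q, hK, hQ, hvQ, hb⟩ := hI k N q v hk hq.1 hN (hs.le.trans hsv) hv
    refine ⟨K, Q, 0, hK, hQ, hvQ, by simp, hb.trans ?_⟩
    have hM' := pow_le_pow_left₀ (show 0 ≤ ε by positivity) (le_of_not_ge hM) 2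
    have : 2 * c₁ * δ ^ 8 * l ^ 9 ≤ c₁ / N * lowMass k q v ^ 2 := by
      calc 2 * c₁ * δ ^ 8 * l ^ 9 = c₁ * (2 * l) * ε ^ 2 := by rw [hε]; ring
        _ ≤ c₁ * (1 / N) * lowMass k q v ^ 2 :=
            mul_le_mul (mul_le_mul_of_nonneg_left hlN hc₁.le) hM' (by positivity) (by positivity)
        _ = _ := by ring
    linarith

theorem pairMean_sq_le_bins {n : ℕ} {t s w E : ℝ} (β : ℝ) (hn : 1 ≤ n) (hs1 : s ≤ 1) (hs : 0 < s)
    (hw : 0 < w) (hb : ∀ u, s ≤ u → u ≤ 1 → pairMean β n t (near u w) ≤ E) :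
    pairMean β n t (fun r => r ^ 2) ≤ s ^ 2 + 2 * (1 / w + 2) * E := by
  set M := ⌈1 / w⌉₊ + 1
  set u : ℕ → ℝ := fun i => min (s + i * w) 1
  have hnn : ∀ a r, 0 ≤ near a w r := fun a r => by simp only [near]; split_ifs <;> norm_num
  have hpt : ∀ r : ℝ, |r| ≤ 1 → r ^ 2 ≤ s ^ 2 + ∑ i ∈ range M, (near (u i) w r + near (u i) w (-r)) := by
    intro r hr
    have h0 : 0 ≤ ∑ i ∈ range M, (near (u i) w r + near (u i) w (-r)) :=
      sum_nonneg fun i _ => add_nonneg (hnn _ _) (hnn _ _)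
    rcases le_or_gt |r| s with h | h
    · have := pow_le_pow_left₀ (abs_nonneg r) h 2
      rw [sq_abs] at this
      linarith
    set i := ⌊(|r| - s) / w⌋₊
    have hf := Nat.floor_le (show 0 ≤ (|r| - s) / w by have := h.le; positivity)
    have hf' := Nat.lt_floor_add_one ((|r| - s) / w)
    rw [le_div_iff₀ hw] at hf
    rw [div_lt_iff₀ hw] at hf'
    have hiM : i ∈ range M := by
      refine mem_range.2 (Nat.lt_succ_of_le ((Nat.floor_le_ceil _).trans (Nat.ceil_mono ?_)))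
      exact div_le_div_of_nonneg_right (by linarith) hw.le
    have hu : |(|r|) - u i| ≤ w := by
      rw [show u i = s + i * w from min_eq_left (by linarith)]
      exact abs_le.2 ⟨by linarith, by linarith⟩
    have h1 : 1 ≤ near (u i) w r + near (u i) w (-r) := by
      rcases abs_choice r with e | e <;> rw [e] at hu
      · linarith [hnn (u i) (-r), show near (u i) w r = 1 from if_pos hu]
      · linarith [hnn (u i) r, show near (u i) w (-r) = 1 from if_pos hu]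
    have h2 : r ^ 2 ≤ 1 := (sq_le_one_iff_abs_le_one r).2 hr
    have h3 := single_le_sum (f := fun i => near (u i) w r + near (u i) w (-r))
      (fun i _ => add_nonneg (hnn _ _) (hnn _ _)) hiM
    linarith [sq_nonneg s]
  refine (pairMean_mono β t hn hpt).trans ?_
  rw [pairMean_add β t (fun _ => s ^ 2), pairMean_const, pairMean_sum]
  refine add_le_add le_rfl ((sum_le_sum (g := fun _ => 2 * E) fun i _ => ?_).trans ?_)
  · rw [pairMean_add β t (near (u i) w) (fun r => near (u i) w (-r)), pairMean_flip β t (near (u i) w)]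
    linarith [hb (u i) (le_min (by linarith [show (0 : ℝ) ≤ i * w by positivity]) hs1) (min_le_right _ _)]
  · simp only [sum_const, card_range, nsmul_eq_mul]
    have hE : 0 ≤ E := le_trans (integral_nonneg fun g => sum_nonneg fun x _ => sum_nonneg fun y _ =>
      mul_nonneg (mul_nonneg (gibbs_nonneg β _ x) (gibbs_nonneg β _ y)) (hnn _ _)) (hb 1 hs1 le_rfl)
    have hM : (M : ℝ) ≤ 1 / w + 2 := by
      have := Nat.ceil_lt_add_one (show 0 ≤ 1 / w by positivity)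
      simp only [M]; push_cast; linarith
    nlinarith

theorem freeVar_le_linear (β : ℝ) {n : ℕ} (hn : 1 ≤ n) : freeVar n β ≤ 4 * β ^ 2 * n := by
  have h := varStmt β n 1 hn zero_le_one le_rfl
  have h1 : pairMean β n 1 (fun r => r ^ 2) ≤ 1 :=
    (pairMean_mono β 1 hn fun r hr => (sq_le_one_iff_abs_le_one r).2 hr).trans_eq (pairMean_const β 1 1)
  have : 0 ≤ β ^ 2 * (n : ℝ) := by positivity
  nlinarith

theorem pow_rpow_neg {n : ℝ} (hn : 0 < n) (c : ℝ) (j : ℕ) :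
    n * (n ^ (-c)) ^ j = n ^ (1 - j * c) := by
  rw [← rpow_natCast (n ^ (-c)) j, ← rpow_mul hn.le]
  nth_rewrite 1 [← rpow_one n]
  rw [← rpow_add hn]
  congr 1; ring

theorem rate_err_le {n a₀ a c b B C : ℝ} (hn : 1 ≤ n) (ha : a ≤ a₀) (ha1 : a ≤ 1) (hc : 19 * c ≤ a)
    (hb : 0 < b) (hB : 0 ≤ B) (hK : (8 * B + 8 * |C|) / b ≤ n ^ c) :
    2 * B + 2 * |C| * n ^ (1 - a₀) ≤ n * (b * (n ^ (-c)) ^ 18) / 4 := by
  have hn0 : 0 < n := by linarith
  rw [div_le_iff₀ hb] at hK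
  have e1 : n ^ (1 - a₀) ≤ n ^ (1 - a) := rpow_le_rpow_of_exponent_le hn (by linarith)
  have e2 : 1 ≤ n ^ (1 - a) := one_le_rpow hn (by linarith)
  have e3 : n ^ c * n ^ (1 - a) ≤ n * (n ^ (-c)) ^ 18 := by
    rw [pow_rpow_neg hn0, ← rpow_add hn0]
    exact rpow_le_rpow_of_exponent_le hn (by push_cast; linarith)
  calc 2 * B + 2 * |C| * n ^ (1 - a₀) ≤ (8 * B + 8 * |C|) / 4 * n ^ (1 - a) := by
        nlinarith [mul_le_mul_of_nonneg_left e1 (abs_nonneg C), mul_le_mul_of_nonneg_left e2 hB]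
    _ ≤ n ^ c * b / 4 * n ^ (1 - a) := mul_le_mul_of_nonneg_right (by linarith) (by linarith)
    _ ≤ _ := by nlinarith [mul_le_mul_of_nonneg_left e3 hb.le]

theorem bins_total_le {n s b W B : ℝ} (hn : 0 < n) (hs : 0 < s) (hs1 : s ≤ 1) (hb : 0 < b) (hb1 : b ≤ 1)
    (hW : 1 ≤ W) (hB : 0 ≤ B) (h55 : 1 ≤ n * s ^ 55) :
    2 * (1 / (b * s ^ 18 / W) + 2) * (1 / (n * (b * s ^ 18) / 4) + 48 * B * n / (n * (b * s ^ 18) / 4) ^ 2)
      ≤ 2 * (3 * W) * (4 + 768 * B) / b ^ 3 * s := by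
  obtain ⟨G, hG⟩ : ∃ G, G = b * s ^ 18 := ⟨_, rfl⟩
  have hG0 : 0 < G := by rw [hG]; positivity
  have hG1 : G ≤ 1 := by rw [hG]; exact mul_le_one₀ hb1 (by positivity) (pow_le_one₀ hs.le hs1)
  rw [← hG]
  have e1 : 1 / (G / W) + 2 ≤ 3 * W / G := by
    rw [one_div_div, le_div_iff₀ hG0, add_mul, div_mul_cancel₀ _ hG0.ne']
    linarith
  have e2 : 1 / (n * G / 4) + 48 * B * n / (n * G / 4) ^ 2 ≤ (4 + 768 * B) / (n * G ^ 2) := by
    have i1 : 1 / (n * G / 4) ≤ 4 / (n * G ^ 2) := by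
      rw [one_div_div]
      exact div_le_div_of_nonneg_left (by norm_num) (by positivity) (by nlinarith [mul_pos hn hG0])
    have i2 : 48 * B * n / (n * G / 4) ^ 2 = 768 * B / (n * G ^ 2) := by field_simp; ring
    rw [add_div]; linarith
  have e3 : 1 / (n * s ^ 54) ≤ s := by
    rw [div_le_iff₀ (by positivity)]
    linarith [show s * (n * s ^ 54) = n * s ^ 55 by ring]
  calc _ ≤ 2 * (3 * W / G) * ((4 + 768 * B) / (n * G ^ 2)) :=
        mul_le_mul (mul_le_mul_of_nonneg_left e1 two_pos.le) e2 (by positivity) (by positivity)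
    _ = 2 * (3 * W) * (4 + 768 * B) / b ^ 3 * (1 / (n * s ^ 54)) := by rw [hG]; field_simp
    _ ≤ _ := mul_le_mul_of_nonneg_left e3 (by positivity)

theorem temp_gap_spec {s : ℝ} (hs : 0 < s) (hs1 : s ≤ 1) :
    2 ≤ ⌈1 / s⌉₊ + 1 ∧ 1 / ((⌈1 / s⌉₊ + 1 : ℕ) : ℝ) ≤ s ∧
      s ^ 2 / 6 ≤ s / (2 * ((⌈1 / s⌉₊ + 1 : ℕ) : ℝ)) := by
  have h0 : 0 < 1 / s := by positivity
  have h1 : 1 ≤ 1 / s := by rw [le_div_iff₀ hs]; linarith
  have hlo := Nat.le_ceil (1 / s)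
  have hhi := Nat.ceil_lt_add_one h0.le
  refine ⟨by have := Nat.one_le_ceil_iff.2 h0; omega, ?_, ?_⟩
  · push_cast
    rw [div_le_iff₀ (by linarith)]
    nlinarith [mul_div_cancel₀ (1 : ℝ) hs.ne']
  · push_cast
    rw [div_le_div_iff₀ (by norm_num) (by linarith)]
    nlinarith [mul_le_mul_of_nonneg_left (show (⌈1 / s⌉₊ : ℝ) + 1 ≤ 3 * (1 / s) by linarith) hs.le,
      mul_div_cancel₀ (1 : ℝ) hs.ne']

theorem width_cost_le {n w G B l : ℝ} (hn : 0 ≤ n) (hw : 0 ≤ w) (hw1 : w ≤ 1) (hB : 0 ≤ B) (hl : l ≤ 1)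
    (he : 4 * (1 + B) * w = G) : n * l * w + n * B * w ^ 2 / 2 ≤ n * G / 4 := by
  have h2 := mul_le_mul_of_nonneg_left hw1 (mul_nonneg hB hw)
  have h3 := mul_nonneg hB hw
  have h : l * w + B * w ^ 2 / 2 ≤ G / 4 := by linarith [mul_le_mul_of_nonneg_right hl hw]
  linarith [mul_le_mul_of_nonneg_left h hn]

theorem final_le {n B P T s D V : ℝ} (hB : 0 ≤ B) (hn : 0 ≤ n) (hP : P ≤ s + D * s) (hT : T ≤ s)
    (hV : V ≤ 2 * B * n * P + 2 * B * n * T) : V ≤ 2 * B * (2 + D) * (n * s) := by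
  have h : 0 ≤ 2 * B * n := by positivity
  linarith [mul_le_mul_of_nonneg_left hP h, mul_le_mul_of_nonneg_left hT h]

/-- The variance is a power below the volume. -/
theorem super_of (hR : RateStmt) (hG : GuerraStmt) (h1 : CaseIStmt) (h2 : CaseIIStmt) : SuperStmt := by
  intro β hβ
  obtain ⟨a₀, C, ha₀, hrate⟩ := hR β hβ
  obtain ⟨cg, hcg, hcg1, hgap⟩ := exists_gap h1 h2 hβ
  obtain ⟨a, ha⟩ : ∃ a, a = min a₀ 1 := ⟨_, rfl⟩
  have haa : a ≤ a₀ := ha ▸ min_le_left _ _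
  have ha1 : a ≤ 1 := ha ▸ min_le_right _ _
  have ha0 : 0 < a := ha ▸ lt_min ha₀ one_pos
  obtain ⟨c, hc⟩ : ∃ c, c = min (a / 19) (1 / 55 : ℝ) := ⟨_, rfl⟩
  have hc0 : 0 < c := hc ▸ lt_min (by positivity) (by norm_num)
  have hca : 19 * c ≤ a := by linarith [hc ▸ min_le_left (a / 19) (1 / 55 : ℝ)]
  have hc55 : 55 * c ≤ 1 := by linarith [hc ▸ min_le_right (a / 19) (1 / 55 : ℝ)]
  obtain ⟨b, hb⟩ : ∃ b, b = cg / 6 ^ 9 := ⟨_, rfl⟩
  have hb0 : 0 < b := by rw [hb]; positivity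
  have hb1 : b ≤ 1 := by rw [hb]; exact (div_le_self hcg.le (by norm_num)).trans hcg1
  have hlim : Filter.Tendsto (fun n : ℕ => (n : ℝ) ^ c) Filter.atTop Filter.atTop :=
    (tendsto_rpow_atTop hc0).comp tendsto_natCast_atTop_atTop
  obtain ⟨n₀, hn₀⟩ := Filter.eventually_atTop.1 (hlim.eventually_ge_atTop ((8 * β ^ 2 + 8 * |C|) / b))
  refine ⟨c, max (2 * β ^ 2 * (2 + 2 * (3 * (4 * (1 + β ^ 2))) * (4 + 768 * β ^ 2) / b ^ 3))
    (4 * β ^ 2 * (n₀ : ℝ) ^ c), hc0, fun n hn => ?_⟩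
  have hn1 : (1 : ℝ) ≤ n := by exact_mod_cast hn
  have hn0 : (0 : ℝ) < n := by linarith
  have hpow : 0 < (n : ℝ) ^ (1 - c) := rpow_pos_of_pos hn0 _
  rcases lt_or_ge n n₀ with hsmall | hbig
  · refine (freeVar_le_linear β hn).trans (le_trans ?_ (mul_le_mul_of_nonneg_right (le_max_right _ _) hpow.le))
    have e : (n : ℝ) = (n : ℝ) ^ c * (n : ℝ) ^ (1 - c) := by rw [← rpow_add hn0]; simp
    nth_rewrite 1 [e]
    rw [← mul_assoc]
    refine mul_le_mul_of_nonneg_right (mul_le_mul_of_nonneg_left ?_ (by positivity)) hpow.le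
    exact rpow_le_rpow hn0.le (by exact_mod_cast hsmall.le) hc0.le
  refine le_trans ?_ (mul_le_mul_of_nonneg_right (le_max_left _ _) hpow.le)
  have hn' : (n : ℝ) * (n : ℝ) ^ (-c) = (n : ℝ) ^ (1 - c) := by
    simpa using pow_rpow_neg hn0 c 1
  have h55 : (1 : ℝ) ≤ n * ((n : ℝ) ^ (-c)) ^ 55 := by
    rw [pow_rpow_neg hn0]
    exact one_le_rpow hn1 (by push_cast; linarith)
  have herr := rate_err_le (C := C) hn1 haa ha1 hca hb0 (sq_nonneg β) (hn₀ n hbig)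
  obtain ⟨s, hs⟩ : ∃ s, s = (n : ℝ) ^ (-c) := ⟨_, rfl⟩
  have hs0 : 0 < s := hs ▸ rpow_pos_of_pos hn0 _
  have hs1 : s ≤ 1 := hs ▸ rpow_le_one_of_one_le_of_nonpos hn1 (by linarith)
  rw [← hs] at hn' h55 herr
  obtain ⟨hN2, hNinv, hNgap⟩ := temp_gap_spec hs0 hs1
  obtain ⟨N, hN⟩ : ∃ N, N = ⌈1 / s⌉₊ + 1 := ⟨_, rfl⟩
  rw [← hN] at hN2 hNinv hNgap
  have ht0 : (0 : ℝ) ≤ 1 - 1 / N := by linarith
  have ht1 : 1 - 1 / (N : ℝ) ≤ 1 := by linarith [show (0 : ℝ) ≤ 1 / N by positivity]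
  obtain ⟨G, hG'⟩ : ∃ G, G = b * s ^ 18 := ⟨_, rfl⟩
  have hG0 : 0 < G := by rw [hG']; positivity
  have hG1 : G ≤ 1 := by rw [hG']; exact mul_le_one₀ hb1 (by positivity) (pow_le_one₀ hs0.le hs1)
  have hgl : G ≤ cg * (s / (2 * N)) ^ 9 := by
    rw [hG', hb, show cg / 6 ^ 9 * s ^ 18 = cg * (s ^ 2 / 6) ^ 9 by ring]
    exact mul_le_mul_of_nonneg_left (pow_le_pow_left₀ (by positivity) hNgap 9) hcg.le
  obtain ⟨k, q, hk, hq, hlow⟩ := hrate n hn
  obtain ⟨w, hw⟩ : ∃ w, w = G / (4 * (1 + β ^ 2)) := ⟨_, rfl⟩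
  have hw0 : 0 < w := by rw [hw]; positivity
  have hw1 : w ≤ 1 := by rw [hw, div_le_one (by positivity)]; linarith [sq_nonneg β]
  have hwide : ∀ lam : ℝ, |lam| ≤ 1 → (n : ℝ) * |lam| * w + n * β ^ 2 * w ^ 2 / 2 ≤ n * G / 4 :=
    fun lam hlam => width_cost_le hn0.le hw0.le hw1 (sq_nonneg β) hlam (by rw [hw]; field_simp)
  have hbins : ∀ u, s ≤ u → u ≤ 1 → pairMean β n (1 - 1 / N) (near u w)
      ≤ 1 / ((n : ℝ) * G / 4) + 48 * β ^ 2 * n / ((n : ℝ) * G / 4) ^ 2 := by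
    intro u hu hu1
    refine bin_weight_le hn ht0 ht1 (by positivity) ?_
    by_cases hne : (bin n u w).Nonempty
    · obtain ⟨K, Q, lam, hK, hQ, huQ, hlam, hobj⟩ := hgap k N q s u hk hq hN2 hs0 hu hu1
      have hg := hG β n K (1 - 1 / N) u w lam Q hn hK hQ (hs0.le.trans hu) hu1 huQ ht0 ht1 hw0.le hne
      have e1 : (n : ℝ) * twoObj K β (1 - 1 / N) u Q lam ≤ n * (2 * parisiP β k q - G) :=
        mul_le_mul_of_nonneg_left (by linarith) hn0.le
      have e3 : C * (n : ℝ) ^ (1 - a₀) ≤ |C| * (n : ℝ) ^ (1 - a₀) :=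
        mul_le_mul_of_nonneg_right (le_abs_self C) (rpow_nonneg hn0.le _)
      rw [← hG'] at herr
      left
      linarith [hwide lam hlam]
    · exact Or.inr hne
  have hpm := pairMean_sq_le_bins β hn hs1 hs0 hw0 hbins
  have hvar := varStmt β n (1 - 1 / N) hn ht0 ht1
  have hE := bins_total_le (W := 4 * (1 + β ^ 2)) hn0 hs0 hs1 hb0 hb1 (by linarith [sq_nonneg β])
    (sq_nonneg β) h55
  rw [← hG', ← hw] at hE
  have hs2 : s ^ 2 ≤ s := pow_le_of_le_one hs0.le hs1 two_ne_zero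
  rw [← hn']
  refine final_le (sq_nonneg β) hn0.le (hpm.trans (add_le_add hs2 hE)) hNinv ?_
  simpa using hvar

end Vale.Agent.P146.Sup
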