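import Vale.Agent.P146.Sup.Step2

/-!
# P146, superconcentration: a deficit survives the outer levels

If `f ≤ g - κ ψ²` then one step lowers `g` by `κ exp (-C a) (P ψ)²`: the density of a tilt with a
Lipschitz potential and its inverse have means whose product is at most `exp (C a)`.
-/

open MeasureTheory ProbabilityTheory Real Finset
open Vale.Agent.P157.Rsb (stdG gaussSize lineSize Size)
open Vale.Agent.P157.Cube2 (γ₁ hT Pot Bd den tE num)

namespace Vale.Agent.P146.Sup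

section

variable {Ω : Type} [MeasurableSpace Ω] {ν : Measure Ω} [IsProbabilityMeasure ν]

/-- Jensen for the exponential. -/
theorem log_int_exp_ge {u v : Ω → ℝ} (hu : Integrable (fun z => exp (u z)) ν)
    (huv : Integrable (fun z => exp (u z + v z)) ν) (hv : Integrable (fun z => v z * exp (u z)) ν) :
    log (∫ z, exp (u z) ∂ν) + (∫ z, v z * exp (u z) ∂ν) / (∫ z, exp (u z) ∂ν)
      ≤ log (∫ z, exp (u z + v z) ∂ν) := by
  have hD : 0 < ∫ z, exp (u z) ∂ν := integral_exp_pos hu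
  set D := ∫ z, exp (u z) ∂ν
  set c := (∫ z, v z * exp (u z) ∂ν) / D with hc
  rw [← log_exp c, ← log_mul hD.ne' (exp_pos _).ne']
  refine log_le_log (by positivity) ?_
  calc D * exp c = ∫ z, exp c * exp (u z) + exp c * (v z * exp (u z) - c * exp (u z)) ∂ν := by
        rw [integral_add (hu.const_mul _) ((hv.sub' (hu.const_mul c)).const_mul _), integral_const_mul,
          integral_const_mul, integral_sub hv (hu.const_mul _), integral_const_mul,
          show (∫ z, v z * exp (u z) ∂ν) = c * D by rw [hc, div_mul_cancel₀ _ hD.ne']]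
        ring
    _ ≤ _ := by
        refine integral_mono ((hu.const_mul _).add ((hv.sub' (hu.const_mul c)).const_mul _)) huv fun z => ?_
        have h1 := mul_le_mul_of_nonneg_left (add_one_le_exp (v z - c)) (exp_pos c).le
        rw [← exp_add, add_sub_cancel] at h1
        have h2 := mul_le_mul_of_nonneg_left h1 (exp_pos (u z)).le
        rw [← exp_add] at h2
        linarith

/-- Cauchy-Schwarz against a tilt. -/
theorem tilt_ge {u ψ : Ω → ℝ} (hψ0 : Integrable ψ ν) (hu : Integrable (fun z => exp (u z)) ν)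
    (hn : Integrable (fun z => exp (-u z)) ν) (hψ : Integrable (fun z => ψ z ^ 2 * exp (u z)) ν) :
    (∫ z, ψ z ∂ν) ^ 2 / ((∫ z, exp (u z) ∂ν) * ∫ z, exp (-u z) ∂ν)
      ≤ (∫ z, ψ z ^ 2 * exp (u z) ∂ν) / ∫ z, exp (u z) ∂ν := by
  have hD := integral_exp_pos hu
  have hN := integral_exp_pos hn
  set A := ∫ z, ψ z ^ 2 * exp (u z) ∂ν
  set N := ∫ z, exp (-u z) ∂ν
  set I := ∫ z, ψ z ∂ν
  rw [mul_comm, ← div_div, div_le_div_iff_of_pos_right hD, div_le_iff₀ hN]
  set l := I / N with hl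
  have h : 2 * l * I ≤ A + l ^ 2 * N := by
    rw [← integral_const_mul, ← integral_const_mul, ← integral_add hψ (hn.const_mul _)]
    refine integral_mono (hψ0.const_mul _) (hψ.add (hn.const_mul _)) fun z => ?_
    have h1 : 0 ≤ (ψ z * exp (u z / 2) - l * exp (-u z / 2)) ^ 2 := sq_nonneg _
    rw [sub_sq, mul_pow, mul_pow, ← exp_nat_mul, ← exp_nat_mul] at h1
    have e : exp (u z / 2) * exp (-u z / 2) = 1 := by rw [← exp_add, neg_div, add_neg_cancel, exp_zero]
    push_cast at h1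
    rw [show 2 * (u z / 2) = u z by ring, show 2 * (-u z / 2) = -u z by ring] at h1
    simp only [Pi.add_apply]
    linear_combination h1 - 2 * ψ z * l * e
  have e1 : 2 * l * I = 2 * (I ^ 2 / N) := by rw [hl]; ring
  have e2 : l ^ 2 * N = I ^ 2 / N := by rw [hl]; field_simp
  rw [e1, e2] at h
  have := (div_le_iff₀ hN).1 (show I ^ 2 / N ≤ A by linarith)
  linarith

theorem cosh_le_quad (x : ℝ) : cosh x ≤ 1 + x ^ 2 * exp |x| := by
  rcases le_or_gt |x| 1 with h | h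
  · have h1 := abs_exp_sub_one_sub_id_le h
    have h2 := abs_exp_sub_one_sub_id_le (x := -x) (by rwa [abs_neg])
    rw [neg_sq] at h2
    rw [cosh_eq]
    have h3 : x ^ 2 ≤ x ^ 2 * exp |x| := le_mul_of_one_le_right (sq_nonneg x) (one_le_exp (abs_nonneg x))
    linarith [le_abs_self (exp x - 1 - x), le_abs_self (exp (-x) - 1 - -x)]
  · have h1 : 1 ≤ x ^ 2 := by rw [← sq_abs]; exact one_le_pow₀ h.le
    have h2 : exp x ≤ exp |x| := exp_le_exp.2 (le_abs_self x)
    have h3 : exp (-x) ≤ exp |x| := exp_le_exp.2 (neg_le_abs x)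
    rw [cosh_eq]
    nlinarith [mul_le_mul_of_nonneg_right h1 (exp_pos |x|).le]

/-- The constant of the symmetrisation. -/
noncomputable def symC (w : Size ν) (c₀ : ℝ) : ℝ := 2 * (∫ z, exp ((c₀ + 2) * w.w z) ∂ν) ^ 2

theorem symC_nonneg (w : Size ν) (c₀ : ℝ) : 0 ≤ symC w c₀ := by unfold symC; positivity

/-- The tilt of a Lipschitz potential and its inverse. -/
theorem exp_prod_le (w : Size ν) {u : Ω → ℝ} (hum : Measurable u) {c c₀ : ℝ} (hc : 0 ≤ c) (hcc : c ≤ c₀)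
    (hu : Integrable (fun z => exp (u z)) ν) (hn : Integrable (fun z => exp (-u z)) ν)
    (h : ∀ z z', |u z - u z'| ≤ c * (w.w z + w.w z')) :
    (∫ z, exp (u z) ∂ν) * (∫ z, exp (-u z) ∂ν) ≤ exp (symC w c₀ * c ^ 2) := by
  set Δ : Ω × Ω → ℝ := fun p => u p.1 - u p.2 with hΔ
  have i1 : Integrable (fun p : Ω × Ω => exp (Δ p)) (ν.prod ν) := by
    simpa [hΔ, sub_eq_add_neg, exp_add] using hu.mul_prod hn
  have i2 : Integrable (fun p : Ω × Ω => exp (-Δ p)) (ν.prod ν) := by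
    simpa [hΔ, neg_sub, sub_eq_neg_add, exp_add] using hn.mul_prod hu
  have e1 : (∫ z, exp (u z) ∂ν) * (∫ z, exp (-u z) ∂ν) = ∫ p, exp (Δ p) ∂ν.prod ν := by
    rw [← integral_prod_mul]; simp [hΔ, sub_eq_add_neg, exp_add]
  have e2 : (∫ z, exp (u z) ∂ν) * (∫ z, exp (-u z) ∂ν) = ∫ p, exp (-Δ p) ∂ν.prod ν := by
    rw [mul_comm, ← integral_prod_mul]; simp [hΔ, neg_sub, sub_eq_neg_add, exp_add]
  have ib : Integrable (fun p : Ω × Ω =>
      exp ((c₀ + 2) * w.w p.1) * exp ((c₀ + 2) * w.w p.2)) (ν.prod ν) :=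
    (w.int (c₀ + 2)).mul_prod (w.int (c₀ + 2))
  have e3 : (∫ z, exp (u z) ∂ν) * (∫ z, exp (-u z) ∂ν) = ∫ p, cosh (Δ p) ∂ν.prod ν := by
    simp only [cosh_eq, integral_div]
    rw [integral_add i1 i2, ← e1, ← e2]; ring
  rw [e3]
  have hbd : ∀ p : Ω × Ω, cosh (Δ p)
      ≤ 1 + c ^ 2 * 2 * (exp ((c₀ + 2) * w.w p.1) * exp ((c₀ + 2) * w.w p.2)) := fun p => by
    set s := w.w p.1 + w.w p.2 with hs
    have hs0 : 0 ≤ s := add_nonneg (w.nonneg _) (w.nonneg _)
    refine (cosh_le_quad _).trans (add_le_add le_rfl ?_)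
    rw [← exp_add, ← mul_add, ← hs]
    have h1 : Δ p ^ 2 ≤ c ^ 2 * s ^ 2 := by
      rw [← sq_abs, ← mul_pow]; exact pow_le_pow_left₀ (abs_nonneg _) (h _ _) 2
    have h2 : s ^ 2 ≤ 2 * exp s := by
      linarith [quadratic_le_exp_of_nonneg hs0]
    have h3 : exp |Δ p| ≤ exp (c₀ * s) :=
      exp_le_exp.2 ((h _ _).trans (mul_le_mul_of_nonneg_right hcc hs0))
    calc Δ p ^ 2 * exp |Δ p| ≤ c ^ 2 * (2 * exp s) * exp (c₀ * s) :=
          mul_le_mul (h1.trans (mul_le_mul_of_nonneg_left h2 (sq_nonneg c))) h3 (exp_pos _).le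
            (by positivity)
      _ = c ^ 2 * 2 * exp (s + c₀ * s) := by rw [exp_add s (c₀ * s)]; ring
      _ ≤ _ := mul_le_mul_of_nonneg_left (exp_le_exp.2 (by linarith)) (by positivity)
  refine (integral_mono ((i1.add i2).div_const 2 |>.congr (ae_of_all _ fun p => by simp [cosh_eq]))
    ((integrable_const 1).add (ib.const_mul _)) hbd).trans ?_
  rw [integral_add' (integrable_const 1) (ib.const_mul _), integral_const_mul,
    integral_prod_mul (f := fun z => exp ((c₀ + 2) * w.w z)) (g := fun z => exp ((c₀ + 2) * w.w z)),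
    integral_const, probReal_univ, one_smul]
  unfold symC
  refine le_trans (le_of_eq ?_) (add_one_le_exp _)
  ring

end

/-- The rate of loss per unit of variance. -/
noncomputable def gapC (A : ℝ) : ℝ := 16 * symC (gaussSize (Fin 3)) (4 * (A + 1)) + 16 * symC lineSize (4 * (A + 1))

theorem gapC_nonneg (A : ℝ) : 0 ≤ gapC A := by
  unfold gapC; linarith [symC_nonneg (gaussSize (Fin 3)) (4 * (A + 1)), symC_nonneg lineSize (4 * (A + 1))]

variable {m t a A : ℝ}

theorem sqrt_le_add_one (ha : a ≤ A) (hA : 0 ≤ A) : √a ≤ A + 1 :=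
  sqrt_le_iff.2 ⟨by linarith, by nlinarith⟩

/-- One step keeps a deficit. -/
theorem gap (hm : 0 < m) (hm1 : m ≤ 1) (h1 : t ∈ Set.Icc (0 : ℝ) 1) (ha : 0 ≤ a) (hA : a ≤ A)
    {f g : ℝ × ℝ → ℝ} (hf : Lip2 f) (hg : Lip2 g) {ψ : ℝ × ℝ → ℝ} (hψ : Continuous ψ) {B : ℝ}
    (hB : ∀ y, |ψ y| ≤ B) {κ : ℝ} (hκ : 0 ≤ κ) (h : ∀ y, f y ≤ g y - κ * ψ y ^ 2) (x : ℝ × ℝ) :
    T2 m t a f x ≤ T2 m t a g x - κ * exp (-gapC A * a) * P2 t a ψ x ^ 2 := by
  set u : (Fin 3 → ℝ) → ℝ := fun z => m * f (sh t a x z)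
  set v : (Fin 3 → ℝ) → ℝ := fun z => m * (κ * ψ (sh t a x z) ^ 2)
  have hA0 : 0 ≤ A := ha.trans hA
  have hvb : ∀ z, |v z| ≤ m * (κ * B ^ 2) := fun z => by
    simp only [v, abs_mul, abs_of_pos hm, abs_of_nonneg hκ, abs_pow]
    exact mul_le_mul_of_nonneg_left (mul_le_mul_of_nonneg_left (pow_le_pow_left₀ (abs_nonneg _) (hB _) 2) hκ) hm.le
  have hvm : Continuous v := by have := continuous_sh (t := t) (a := a) x; fun_prop
  have hu := hf.int_exp (a := a) h1 m x
  have hn : Integrable (fun z => exp (-u z)) G3 := by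
    simpa [u, neg_mul] using hf.int_exp (a := a) h1 (-m) x
  have hum : Continuous u := by have := continuous_sh (t := t) (a := a) x; have := hf.cont; fun_prop
  have huv : Integrable (fun z => exp (u z + v z)) G3 :=
    (hu.const_mul (exp (m * (κ * B ^ 2)))).mono' (by fun_prop : Continuous fun z => exp (u z + v z)).aestronglyMeasurable
      (ae_of_all _ fun z => by
        rw [Real.norm_eq_abs, abs_exp, add_comm, exp_add]
        exact mul_le_mul_of_nonneg_right (exp_le_exp.2 (le_of_abs_le (hvb z))) (exp_pos _).le)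
  have hv : Integrable (fun z => v z * exp (u z)) G3 :=
    hu.bdd_mul hvm.aestronglyMeasurable (ae_of_all _ fun z => (Real.norm_eq_abs _).trans_le (hvb z))
  have j := log_int_exp_ge hu huv hv
  have hψ2 : Integrable (fun z => ψ (sh t a x z) ^ 2 * exp (u z)) G3 :=
    hu.bdd_mul ((hψ.comp (continuous_sh x)).pow 2).aestronglyMeasurable
      (ae_of_all _ fun z => by
        rw [Real.norm_eq_abs, abs_pow]; exact pow_le_pow_left₀ (abs_nonneg _) (hB _) 2)
  have k := tilt_ge (int_bdd (t := t) (a := a) hψ hB x) hu hn hψ2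
  have hprod : (∫ z, exp (u z) ∂G3) * (∫ z, exp (-u z) ∂G3) ≤ exp (gapC A * a) := by
    refine (exp_prod_le (gaussSize (Fin 3)) hum.measurable (c := 2 * √a) (c₀ := 4 * (A + 1))
      (by positivity) (by linarith [sqrt_le_add_one hA hA0]) hu hn fun z z' => ?_).trans
      (exp_le_exp.2 ?_)
    · have a1 := hf.sh_le (a := a) h1 x z
      have a2 := hf.sh_le (a := a) h1 x z'
      simp only [u, ← mul_sub, abs_mul, abs_of_pos hm, gaussSize]
      refine (mul_le_of_le_one_left (abs_nonneg _) hm1).trans ((abs_sub_le _ (f x) _).trans ?_)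
      rw [abs_sub_comm (f x), mul_add]
      exact add_le_add a1 a2
    · rw [mul_pow, sq_sqrt ha, gapC]
      nlinarith [mul_nonneg (symC_nonneg (gaussSize (Fin 3)) (4 * (A + 1))) ha,
        mul_nonneg (symC_nonneg lineSize (4 * (A + 1))) ha]
  have hD := hf.den_pos (a := a) h1 m x
  have hN := integral_exp_pos hn
  have e1 : P2 t a ψ x ^ 2 * exp (-gapC A * a) ≤ (∫ z, ψ (sh t a x z) ^ 2 * exp (u z) ∂G3) / ∫ z, exp (u z) ∂G3 := by
    refine le_trans ?_ k
    rw [neg_mul, exp_neg, ← div_eq_mul_inv]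
    exact div_le_div_of_nonneg_left (sq_nonneg _) (mul_pos hD hN) hprod
  have e2 : (∫ z, v z * exp (u z) ∂G3) = m * κ * ∫ z, ψ (sh t a x z) ^ 2 * exp (u z) ∂G3 := by
    rw [← integral_const_mul]; exact integral_congr_ae (ae_of_all _ fun z => by simp only [v]; ring)
  rw [e2, mul_div_assoc] at j
  have e3 : ∫ z, exp (u z + v z) ∂G3 ≤ ∫ z, exp (m * g (sh t a x z)) ∂G3 :=
    integral_mono huv (hg.int_exp h1 m x) fun z => exp_le_exp.2 (by
      have := mul_le_mul_of_nonneg_left (h (sh t a x z)) hm.le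
      simp only [u, v]; linarith)
  have e4 := log_le_log (integral_exp_pos huv) e3
  have e5 := mul_le_mul_of_nonneg_left e1 (mul_nonneg hm.le hκ)
  simp only [T2]
  rw [show log (∫ z, exp (m * g (sh t a x z)) ∂G3) / m - κ * exp (-gapC A * a) * P2 t a ψ x ^ 2
    = (log (∫ z, exp (m * g (sh t a x z)) ∂G3) - m * κ * (P2 t a ψ x ^ 2 * exp (-gapC A * a))) / m by
      field_simp]
  refine div_le_div_of_nonneg_right ?_ hm.le
  simp only [u] at j e4 e5 ⊢
  linarith

/-- The tilted average of one copy dominates the square of a plain average. -/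
theorem tE_ge_sq (hm : 0 < m) (hm1 : m ≤ 1) (ha : 0 ≤ a) (hA : a ≤ A) {f : ℝ → ℝ} (hf : Pot f)
    {ψ : ℝ → ℝ} (hψ : Continuous ψ) {B : ℝ} (hB : ∀ y, |ψ y| ≤ B) (h : ℝ) :
    (∫ y, ψ (h + √a * y) ∂γ₁) ^ 2 * exp (-gapC A * a) ≤ tE m a f (fun y => ψ y ^ 2) h := by
  have hA0 : 0 ≤ A := ha.trans hA
  have hu := P157.Cube2.int_wt (m := m) (a := a) hf h
  have hn : Integrable (fun y => exp (-(m * f (h + √a * y)))) γ₁ := by
    simpa [neg_mul] using P157.Cube2.int_wt (m := -m) (a := a) hf h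
  have hb2 : ∀ y, |ψ y ^ 2| ≤ B ^ 2 := fun y => by
    rw [abs_pow]; exact pow_le_pow_left₀ (abs_nonneg _) (hB _) 2
  have i0 : Integrable (fun y => ψ (h + √a * y)) γ₁ :=
    (integrable_const B).mono' (Continuous.aestronglyMeasurable (by fun_prop)) (ae_of_all _ fun _ => hB _)
  refine le_trans ?_ (tilt_ge i0 hu hn (P157.Cube2.int_num (φ := fun y => ψ y ^ 2) hf (hψ.pow 2) hb2 h))
  rw [neg_mul, exp_neg, ← div_eq_mul_inv]
  refine div_le_div_of_nonneg_left (sq_nonneg _) (mul_pos (integral_exp_pos hu) (integral_exp_pos hn)) ?_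
  have := hf.diff.continuous
  refine (exp_prod_le lineSize (by fun_prop : Continuous fun y => m * f (h + √a * y)).measurable
    (c := √a) (c₀ := 4 * (A + 1)) (sqrt_nonneg a) (by linarith [sqrt_le_add_one hA hA0]) hu hn
    fun y y' => ?_).trans (exp_le_exp.2 ?_)
  · simp only [← mul_sub, abs_mul, abs_of_pos hm, lineSize]
    refine (mul_le_of_le_one_left (abs_nonneg _) hm1).trans ((hf.growth _ _).trans ?_)
    rw [show h + √a * y - (h + √a * y') = √a * (y - y') by ring, abs_mul, abs_of_nonneg (sqrt_nonneg a)]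
    exact mul_le_mul_of_nonneg_left (abs_sub _ _) (sqrt_nonneg a)
  · rw [sq_sqrt ha, gapC]
    nlinarith [mul_nonneg (symC_nonneg (gaussSize (Fin 3)) (4 * (A + 1))) ha,
      mul_nonneg (symC_nonneg lineSize (4 * (A + 1))) ha]

/-! ### Nested steps -/

/-- The composition of the steps `1, …, n`, the first one outermost. -/
noncomputable def nestT (t : ℝ) (m a : ℕ → ℝ) : ℕ → (ℝ × ℝ → ℝ) → ℝ × ℝ → ℝ
  | 0, G => G
  | n + 1, G => nestT t m a n (T2 (m (n + 1)) t (a (n + 1)) G)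

variable {M D : ℕ → ℝ}

theorem nestT_mono (h1 : t ∈ Set.Icc (0 : ℝ) 1) {n : ℕ} (hM : ∀ i, 1 ≤ i → i ≤ n → 0 < M i)
    {G G' : ℝ × ℝ → ℝ} (hG : Lip2 G) (hG' : Lip2 G') (h : ∀ y, G y ≤ G' y) :
    ∀ x, nestT t M D n G x ≤ nestT t M D n G' x := by
  induction n generalizing G G' with
  | zero => exact h
  | succ n ih =>
    have hp := hM (n + 1) (by omega) le_rfl
    exact ih (fun i a b => hM i a (by omega)) (T2_lip hp h1 hG) (T2_lip hp h1 hG') (T2_mono hp h1 hG hG' h)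

theorem nestT_add_const (h1 : t ∈ Set.Icc (0 : ℝ) 1) {n : ℕ} (hM : ∀ i, 1 ≤ i → i ≤ n → 0 < M i)
    {G : ℝ × ℝ → ℝ} (hG : Lip2 G) (c : ℝ) (x : ℝ × ℝ) :
    nestT t M D n (fun y => G y + c) x = nestT t M D n G x + c := by
  induction n generalizing G with
  | zero => rfl
  | succ n ih =>
    have hp := hM (n + 1) (by omega) le_rfl
    simp only [nestT]
    rw [funext (T2_add_const hp.ne' h1 hG c), ih (fun i a b => hM i a (by omega)) (T2_lip hp h1 hG)]

/-- Nested steps keep a deficit. -/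
theorem nestT_gap (h1 : t ∈ Set.Icc (0 : ℝ) 1) {n : ℕ}
    (hM : ∀ i, 1 ≤ i → i ≤ n → 0 < M i ∧ M i ≤ 1 ∧ 0 ≤ D i ∧ D i ≤ A)
    {f g : ℝ × ℝ → ℝ} (hf : Lip2 f) (hg : Lip2 g) {ψ : ℝ × ℝ → ℝ} (hψ : Continuous ψ) {B : ℝ}
    (hB : ∀ y, |ψ y| ≤ B) {κ : ℝ} (hκ : 0 ≤ κ) (h : ∀ y, f y ≤ g y - κ * ψ y ^ 2) (x : ℝ × ℝ) :
    nestT t M D n f x ≤ nestT t M D n g x
      - κ * exp (-gapC A * ∑ i ∈ Icc 1 n, D i) * P2 t (∑ i ∈ Icc 1 n, D i) ψ x ^ 2 := by
  induction n generalizing f g ψ κ with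
  | zero => simpa [nestT, P2, sh_zero] using h x
  | succ n ih =>
    obtain ⟨p1, p2, p3, p4⟩ := hM (n + 1) (by omega) le_rfl
    have hM' : ∀ i, 1 ≤ i → i ≤ n → 0 < M i ∧ M i ≤ 1 ∧ 0 ≤ D i ∧ D i ≤ A := fun i a b => hM i a (by omega)
    simp only [nestT]
    refine (ih hM' (T2_lip p1 h1 hf) (T2_lip p1 h1 hg) (P2_cont hψ hB) (P2_bdd hB)
      (mul_nonneg hκ (exp_pos _).le) (gap p1 p2 h1 p3 p4 hf hg hψ hB hκ h)).trans (le_of_eq ?_)
    have hS : 0 ≤ ∑ i ∈ Icc 1 n, D i := sum_nonneg fun i hi => (hM' i (mem_Icc.1 hi).1 (mem_Icc.1 hi).2).2.2.1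
    rw [sum_Icc_succ_top (by omega : 1 ≤ n + 1), P2_P2 hS p3 hψ hB, mul_add (-gapC A), exp_add]
    ring

end Vale.Agent.P146.Sup
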