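import Vale.Agent.P146.Sup.Defs
import Vale.Agent.P146.Sup.Gap
import Vale.Agent.P157.Cube2.Product

/-!
# P146, superconcentration: the recursion of the one-site system of two copies

`twoY` is the value of `twoSys` as a function of the two local fields.  At `λ = 0` the top splits.
-/

open MeasureTheory ProbabilityTheory Real Finset
open Vale.Agent.P157.Rsb (stdG val lev mass put linZ IsPath)
open Vale.Agent.P157.Cube2 (hT Pot sgn)
open Vale.Agent.P157 (coin cubeLaw)
open Vale.Agent.P150 (spin)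

namespace Vale.Agent.P146.Sup

/-- The value of the two spins in given fields. -/
noncomputable def top2 (lam : ℝ) (x : ℝ × ℝ) : ℝ :=
  log (∫ s, exp (spin s.1 * x.1 + spin s.2 * x.2 + lam * (spin s.1 * spin s.2)) ∂coin.prod coin)

/-- The correlation of the increments of one level. -/
noncomputable def corrLev (t v : ℝ) (Q : ℕ → ℝ) (j : ℕ) : ℝ :=
  t * (min (Q j) v - min (Q (j - 1)) v) / (Q j - Q (j - 1))

/-- The variance of the increments of one level. -/
noncomputable def varLev (β : ℝ) (Q : ℕ → ℝ) (j : ℕ) : ℝ := β ^ 2 * (Q j - Q (j - 1))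

/-- The recursion after `d` integrated levels. -/
noncomputable def twoN (K : ℕ) (β t v : ℝ) (Q : ℕ → ℝ) (lam : ℝ) : ℕ → ℝ × ℝ → ℝ
  | 0 => top2 lam
  | d + 1 => T2 (lev K (K - d)) (corrLev t v Q (K - d)) (varLev β Q (K - d)) (twoN K β t v Q lam d)

/-- The recursion at level `j`. -/
noncomputable def twoY (K : ℕ) (β t v : ℝ) (Q : ℕ → ℝ) (lam : ℝ) (j : ℕ) : ℝ × ℝ → ℝ :=
  twoN K β t v Q lam (K - j)

variable {K : ℕ} {β t v lam : ℝ} {Q : ℕ → ℝ}

theorem twoY_top : twoY K β t v Q lam K = top2 lam := by simp [twoY, twoN]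

theorem twoY_step {j : ℕ} (hj : 1 ≤ j) (hjK : j ≤ K) :
    twoY K β t v Q lam (j - 1) = T2 (lev K j) (corrLev t v Q j) (varLev β Q j) (twoY K β t v Q lam j) := by
  simp only [twoY, show K - (j - 1) = (K - j) + 1 by omega, twoN, show K - (K - j) = j by omega]

theorem abs_spin (b : Bool) : |spin b| = 1 := by cases b <;> simp [spin]

theorem int_coin2 (u : Bool × Bool → ℝ) : Integrable u (coin.prod coin) := .of_finite

theorem lip2_top2 (lam : ℝ) : Lip2 (top2 lam) := by
  suffices h : ∀ x y : ℝ × ℝ, top2 lam x ≤ top2 lam y + (|x.1 - y.1| + |x.2 - y.2|) by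
    intro x y
    have h' := h y x
    rw [abs_sub_comm y.1, abs_sub_comm y.2] at h'
    rw [abs_le]; constructor <;> linarith [h x y]
  intro x y
  set d := |x.1 - y.1| + |x.2 - y.2|
  have hp : ∀ z : ℝ × ℝ, 0 < ∫ s, exp (spin s.1 * z.1 + spin s.2 * z.2 + lam * (spin s.1 * spin s.2)) ∂coin.prod coin :=
    fun z => integral_exp_pos (int_coin2 _)
  refine (log_le_log (hp x) (integral_mono (int_coin2 _) (int_coin2 fun s =>
    exp (spin s.1 * y.1 + spin s.2 * y.2 + lam * (spin s.1 * spin s.2)) * exp d) fun s => ?_)).trans (le_of_eq ?_)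
  · rw [← exp_add]
    refine exp_le_exp.2 ?_
    have h1 : spin s.1 * (x.1 - y.1) ≤ |x.1 - y.1| := (le_abs_self _).trans (by rw [abs_mul, abs_spin, one_mul])
    have h2 : spin s.2 * (x.2 - y.2) ≤ |x.2 - y.2| := (le_abs_self _).trans (by rw [abs_mul, abs_spin, one_mul])
    simp only [d]; linarith
  · rw [integral_mul_const, log_mul (hp y).ne' (exp_pos _).ne', log_exp]; rfl

theorem top2_zero (x : ℝ × ℝ) : top2 0 x = log (cosh x.1) + log (cosh x.2) := by
  simp only [top2, zero_mul, add_zero, exp_add]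
  rw [integral_prod_mul (f := fun s => exp (spin s * x.1)) (g := fun s => exp (spin s * x.2)),
    show (fun s => exp (spin s * x.1)) = fun s => exp (sgn s * x.1) from rfl,
    show (fun s => exp (spin s * x.2)) = fun s => exp (sgn s * x.2) from rfl,
    P157.Cube2.integral_exp_sgn, P157.Cube2.integral_exp_sgn, log_mul (cosh_pos _).ne' (cosh_pos _).ne']

theorem path_le (hQ : IsPath K Q) {i j : ℕ} (hij : i ≤ j) (hjK : j ≤ K) : Q i ≤ Q j :=
  P157.Cube2.isVar_le ⟨hQ.1, hQ.2.1⟩ hij hjK

theorem incr_facts (hQ : IsPath K Q) (h1 : t ∈ Set.Icc (0 : ℝ) 1) {j : ℕ} (hjK : j ≤ K) :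
    0 ≤ t * (min (Q j) v - min (Q (j - 1)) v) ∧
      t * (min (Q j) v - min (Q (j - 1)) v) ≤ Q j - Q (j - 1) ∧
      corrLev t v Q j ∈ Set.Icc (0 : ℝ) 1 := by
  have h := path_le hQ (Nat.sub_le j 1) hjK
  have a0 : 0 ≤ min (Q j) v - min (Q (j - 1)) v := sub_nonneg.2 (min_le_min_right _ h)
  have a1 : min (Q j) v - min (Q (j - 1)) v ≤ Q j - Q (j - 1) := by
    rcases le_total (Q (j - 1)) v with hv | hv
    · rw [min_eq_left hv]; linarith [min_le_left (Q j) v]
    · rw [min_eq_right hv, min_eq_right (hv.trans h)]; linarith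
  have a2 : t * (min (Q j) v - min (Q (j - 1)) v) ≤ Q j - Q (j - 1) :=
    (mul_le_of_le_one_left a0 h1.2).trans a1
  exact ⟨mul_nonneg h1.1 a0, a2, div_nonneg (mul_nonneg h1.1 a0) (by linarith), div_le_one_of_le₀ a2 (by linarith)⟩

theorem lip2_twoY (hQ : IsPath K Q) (h1 : t ∈ Set.Icc (0 : ℝ) 1) {j : ℕ} (hj : j ≤ K) :
    Lip2 (twoY K β t v Q lam j) := by
  induction hd : K - j generalizing j with
  | zero => rw [show j = K by omega, twoY_top]; exact lip2_top2 lam
  | succ d ih =>
    have h := ih (j := j + 1) (by omega) (by omega)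
    rw [show twoY K β t v Q lam j = twoY K β t v Q lam (j + 1 - 1) from rfl, twoY_step (by omega) (by omega)]
    exact T2_lip (by unfold lev; positivity) (incr_facts hQ h1 (show j + 1 ≤ K by omega)).2.2 h

/-- The field of the two copies from one level. -/
noncomputable def lvlField (β t v : ℝ) (Q : ℕ → ℝ) (j : ℕ) (y : Fin 3 → ℝ) : ℝ × ℝ :=
  (β * √(t * (min (Q j) v - min (Q (j - 1)) v)) * y 0
      + β * √(Q j - Q (j - 1) - t * (min (Q j) v - min (Q (j - 1)) v)) * y 1,
    β * √(t * (min (Q j) v - min (Q (j - 1)) v)) * y 0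
      + β * √(Q j - Q (j - 1) - t * (min (Q j) v - min (Q (j - 1)) v)) * y 2)

theorem sh_lvl (hβ : 0 ≤ β) (hQ : IsPath K Q) (h1 : t ∈ Set.Icc (0 : ℝ) 1) {j : ℕ} (hjK : j ≤ K)
    (x : ℝ × ℝ) (y : Fin 3 → ℝ) :
    sh (corrLev t v Q j) (varLev β Q j) x y = x + lvlField β t v Q j y := by
  obtain ⟨f0, f1, -⟩ := incr_facts (v := v) hQ h1 hjK
  have hD : 0 ≤ Q j - Q (j - 1) := f0.trans f1
  have e0 : √(varLev β Q j) * √(corrLev t v Q j) = β * √(t * (min (Q j) v - min (Q (j - 1)) v)) := by
    rw [varLev, sqrt_mul (sq_nonneg β), sqrt_sq hβ, mul_assoc, ← sqrt_mul hD, corrLev]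
    rcases eq_or_ne (Q j - Q (j - 1)) 0 with h | h
    · rw [h, zero_mul, show t * (min (Q j) v - min (Q (j - 1)) v) = 0 by linarith]
    · rw [mul_div_cancel₀ _ h]
  have e1 : √(varLev β Q j) * √(1 - corrLev t v Q j)
      = β * √(Q j - Q (j - 1) - t * (min (Q j) v - min (Q (j - 1)) v)) := by
    rw [varLev, sqrt_mul (sq_nonneg β), sqrt_sq hβ, mul_assoc, ← sqrt_mul hD, corrLev, mul_sub, mul_one]
    rcases eq_or_ne (Q j - Q (j - 1)) 0 with h | h
    · rw [h, zero_mul, sub_zero, zero_sub, show t * (min (Q j) v - min (Q (j - 1)) v) = 0 by linarith, neg_zero]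
    · rw [mul_div_cancel₀ _ h]
  simp only [sh, cfst, csnd, lvlField, mul_add, ← mul_assoc, e0, e1]
  rfl

/-- The value of `twoSys` is the recursion. -/
theorem twoSys_val (hβ : 0 ≤ β) (hQ : IsPath K Q) (h1 : t ∈ Set.Icc (0 : ℝ) 1) (lam : ℝ) :
    gval (twoSys K β t v Q lam) (coin.prod coin)
      = twoY K β t v Q lam 0 (0, 0) + β ^ 2 * (1 - Q K) := by
  set acc : ℕ → (Fin K → Fin 3 → ℝ) → ℝ × ℝ := fun j z =>
    ∑ l : Fin K, if (l : ℕ) < j then lvlField β t v Q (l + 1) (z l) else 0 with hacc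
  suffices H : ∀ g : Fin 0 → ℝ, ∀ j ≤ K, ∀ z, val G3 (coin.prod coin) ((twoSys K β t v Q lam).ham g) j z
      = twoY K β t v Q lam j (acc j z) + β ^ 2 * (1 - Q K) by
    have e : ∀ g : Fin 0 → ℝ, val G3 (coin.prod coin) ((twoSys K β t v Q lam).ham g) 0 (fun _ _ => 0)
        = twoY K β t v Q lam 0 (0, 0) + β ^ 2 * (1 - Q K) := fun g => by
      rw [H g 0 (Nat.zero_le K)]; simp [hacc, Prod.zero_eq_mk]
    simp [gval, e]
  intro g j hj
  induction hd : K - j generalizing j with
  | zero =>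
    intro z
    rw [show j = K by omega, P157.Rsb.val_top, twoY_top, top2]
    have hp : 0 < ∫ s, exp (spin s.1 * (acc K z).1 + spin s.2 * (acc K z).2
        + lam * (spin s.1 * spin s.2)) ∂coin.prod coin := integral_exp_pos (int_coin2 _)
    rw [← log_exp (β ^ 2 * (1 - Q K)), ← log_mul hp.ne' (exp_pos _).ne', ← integral_mul_const]
    congr 1
    refine integral_congr_ae (ae_of_all _ fun s => ?_)
    beta_reduce
    rw [← exp_add]
    congr 1
    simp only [GSys.ham, twoSys, linZ, hacc, Finset.univ_eq_empty, sum_empty, add_zero, Fin.is_lt, if_true,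
      Prod.fst_sum, Prod.snd_sum, lvlField, Fin.sum_univ_three, Matrix.cons_val_zero, Matrix.cons_val_one,
      Matrix.cons_val, Nat.add_sub_cancel, mul_sum]
    rw [← sum_add_distrib]
    have : ∀ A B : ℝ, A + (B + lam * (spin s.1 * spin s.2)) = A + lam * (spin s.1 * spin s.2) + B :=
      fun A B => by ring
    rw [this]
    congr 2
    exact sum_congr rfl fun l _ => by ring
  | succ d ih =>
    intro z
    have hjK : j + 1 ≤ K := by omega
    have h := ih (j + 1) hjK (by omega)
    have ha : ∀ y, acc (j + 1) (put z j y) = acc j z + lvlField β t v Q (j + 1) y := fun y => by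
      simp only [hacc]
      have e : ∀ l : Fin K, (if (l : ℕ) < j + 1 then lvlField β t v Q (l + 1) (put z j y l) else 0)
          = (if (l : ℕ) < j then lvlField β t v Q (l + 1) (z l) else 0)
            + if l = (⟨j, by omega⟩ : Fin K) then lvlField β t v Q (j + 1) y else 0 := fun l => by
        by_cases h1 : (l : ℕ) = j
        · rw [if_pos (by omega), if_neg (by omega), if_pos (Fin.ext h1), zero_add]
          simp [put, h1]
        · rw [if_neg (c := l = _) (fun e => h1 (congrArg Fin.val e)), add_zero]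
          simp only [put, h1, if_false]
          by_cases h2 : (l : ℕ) < j
          · rw [if_pos h2, if_pos (by omega)]
          · rw [if_neg h2, if_neg (by omega)]
      simp only [e, sum_add_distrib, sum_ite_eq', mem_univ, if_true]
    have hs := P157.Rsb.val_step (γ := G3) (μ := coin.prod coin) (j := j + 1) (by omega) hjK z
      ((twoSys K β t v Q lam).ham g)
    simp only [Nat.add_sub_cancel] at hs
    rw [hs]
    simp only [h, ha]
    have hst := twoY_step (β := β) (t := t) (v := v) (Q := Q) (lam := lam) (show 1 ≤ j + 1 by omega) hjK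
    simp only [Nat.add_sub_cancel] at hst
    rw [hst, T2]
    simp only [sh_lvl hβ hQ h1 hjK]
    have hL := lip2_twoY (β := β) (v := v) (lam := lam) hQ h1 hjK
    have hi : Integrable (fun y => exp (lev K (j + 1) *
        twoY K β t v Q lam (j + 1) (acc j z + lvlField β t v Q (j + 1) y))) G3 := by
      simpa only [sh_lvl hβ hQ h1 hjK] using hL.int_exp (a := varLev β Q (j + 1))
        (incr_facts (v := v) hQ h1 hjK).2.2 (lev K (j + 1)) (acc j z)
    simp only [mul_add, exp_add, integral_mul_const]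
    rw [log_mul (integral_exp_pos hi).ne' (exp_pos _).ne', log_exp, add_div,
      mul_div_cancel_left₀ _ (P157.Cube2.levK_ne (by omega))]

end Vale.Agent.P146.Sup
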