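import Vale.Agent.P146.Sup.Expand

/-!
# P146, superconcentration: correlated copies lose the squared mass of the parameter

For a chain of steps `F (i - 1) = hT (m i) (a i) (F i)` the two copies with parameters `m i / (1 + t)`
are below twice the single chain by a multiple of `(1 - t) (∑ m i a i)²`.
-/

open MeasureTheory ProbabilityTheory Real Finset Filter Topology
open Vale.Agent.P157.Rsb (stdG gaussSize)
open Vale.Agent.P157.Cube2 (γ₁ hT Pot Bd den tE)

namespace Vale.Agent.P146.Sup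

theorem hT_zero' {m : ℝ} (hm : m ≠ 0) (f : ℝ → ℝ) : hT m 0 f = f := by
  funext h
  simp [hT, den, log_exp, hm]

/-- The curvature of a potential survives a step. -/
theorem curv_step {m a A κ C : ℝ} (hm : 0 < m) (hm1 : m ≤ 1) (ha : 0 ≤ a) (hA : a ≤ A) (hκ : 0 ≤ κ)
    {f : ℝ → ℝ} (hf : Pot f) (hC : Bd 2 C (deriv f))
    (h : ∀ x, κ / cosh x ^ 2 ≤ deriv (deriv f) x) (x : ℝ) :
    κ * exp (-(gapC A + 1) * a) / cosh x ^ 2 ≤ deriv (deriv (hT m a f)) x := by
  rw [P157.Cube2.deriv_hT hf hm.ne', P157.Cube2.deriv_tE hf hC.down]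
  set ψ : ℝ → ℝ := fun y => (cosh y)⁻¹ with hψ
  have hψc : Continuous ψ := continuous_cosh.inv₀ fun y => (cosh_pos y).ne'
  have hψb : ∀ y, |ψ y| ≤ 1 := fun y => by
    simp only [hψ, abs_inv, abs_of_pos (cosh_pos y)]; exact inv_le_one_of_one_le₀ (one_le_cosh y)
  have hb : Bd 0 (κ * 1) fun y => κ * ψ y ^ 2 :=
    ⟨(hψc.pow 2).const_mul κ, fun y => by
      rw [abs_mul, abs_of_nonneg hκ, abs_pow]
      exact mul_le_mul_of_nonneg_left (pow_le_one₀ (abs_nonneg _) (hψb y)) hκ⟩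
  have h1 : tE m a f (fun y => κ * ψ y ^ 2) x ≤ tE m a f (deriv (deriv f)) x :=
    P157.Cube2.tE_mono hf hb hC.2.2 (fun y => by
      have := h y
      simp only [hψ, inv_pow]
      rwa [← div_eq_mul_inv]) x
  rw [P157.Cube2.tE_const_mul] at h1
  have h2 := tE_ge_sq hm hm1 ha hA hf hψc hψb x
  have h3 : exp (-a / 2) / cosh x ≤ ∫ y, ψ (x + √a * y) ∂γ₁ := by
    set l := exp (-a / 2) / cosh x with hl
    have i1 : Integrable (fun y => ψ (x + √a * y)) γ₁ := (integrable_const (1 : ℝ)).mono'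
      (hψc.comp (by fun_prop)).aestronglyMeasurable (ae_of_all _ fun _ => hψb _)
    have i2 : Integrable (fun y => cosh (x + √a * y)) γ₁ := by
      simp only [cosh_eq, exp_add, neg_add, ← neg_mul]
      exact (((integrable_exp_mul_gaussianReal _).const_mul _).add
        ((integrable_exp_mul_gaussianReal _).const_mul _)).div_const 2
    have e : ∫ y, cosh (x + √a * y) ∂γ₁ = cosh x * exp (a / 2) := by
      simp only [cosh_eq, exp_add, neg_add, ← neg_mul, integral_div]
      rw [integral_add ((integrable_exp_mul_gaussianReal _).const_mul _)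
        ((integrable_exp_mul_gaussianReal _).const_mul _), integral_const_mul, integral_const_mul,
        P157.Cube2.integral_exp_mul, P157.Cube2.integral_exp_mul, neg_sq, sq_sqrt ha]
      ring
    have hp : ∀ y, 2 * l - l ^ 2 * cosh (x + √a * y) ≤ ψ (x + √a * y) := fun y => by
      have hc := cosh_pos (x + √a * y)
      simp only [hψ]
      rw [inv_eq_one_div, le_div_iff₀ hc]
      nlinarith [sq_nonneg (l * cosh (x + √a * y) - 1)]
    refine le_trans (le_of_eq ?_) (integral_mono ((integrable_const _).sub (i2.const_mul _)) i1 hp)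
    simp only [Pi.sub_apply]
    rw [integral_sub (integrable_const _) (i2.const_mul _), integral_const, probReal_univ, one_smul,
      integral_const_mul, e, hl]
    have : exp (-a / 2) * exp (a / 2) = 1 := by rw [← exp_add, neg_div, neg_add_cancel, exp_zero]
    have hc := (cosh_pos x).ne'
    field_simp
    simp only [neg_div] at this ⊢
    linear_combination this
  have h4 : κ * exp (-(gapC A + 1) * a) / cosh x ^ 2 ≤ κ * tE m a f (fun y => ψ y ^ 2) x := by
    rw [mul_div_assoc]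
    refine mul_le_mul_of_nonneg_left (le_trans (le_of_eq ?_) ((mul_le_mul_of_nonneg_right
      (pow_le_pow_left₀ (div_nonneg (exp_pos _).le (cosh_pos x).le) h3 2) (exp_pos _).le).trans h2)) hκ
    rw [div_pow, ← exp_nat_mul, div_mul_eq_mul_div, ← exp_add]
    congr 2
    push_cast; ring
  have h5 := P157.Cube2.tC_self_nonneg (m := m) (a := a) hf hC x
  have := mul_nonneg hm.le h5
  linarith

/-- The weight of the difference of two copies. -/
noncomputable def psi0 (x : ℝ × ℝ) : ℝ := |x.1 - x.2| / (cosh x.1 ^ 2 * cosh x.2 ^ 2)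

theorem continuous_psi0 : Continuous psi0 :=
  (continuous_fst.sub continuous_snd).abs.div
    (((continuous_cosh.comp continuous_fst).pow 2).mul ((continuous_cosh.comp continuous_snd).pow 2))
    fun x => by positivity

theorem abs_le_cosh_sq (x : ℝ) : |x| ≤ cosh x ^ 2 := by
  refine le_trans ?_ (le_self_pow₀ (one_le_cosh x) two_ne_zero)
  rw [← cosh_abs, cosh_eq]
  nlinarith [quadratic_le_exp_of_nonneg (abs_nonneg x), exp_pos (-|x|), sq_nonneg (|x| - 1)]

theorem psi0_bdd (x : ℝ × ℝ) : |psi0 x| ≤ 2 := by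
  have h1 : 1 ≤ cosh x.1 ^ 2 := one_le_pow₀ (one_le_cosh _)
  have h2 : 1 ≤ cosh x.2 ^ 2 := one_le_pow₀ (one_le_cosh _)
  rw [abs_of_nonneg (by unfold psi0; positivity), psi0, div_le_iff₀ (by positivity)]
  refine (abs_sub _ _).trans ?_
  nlinarith [abs_le_cosh_sq x.1, abs_le_cosh_sq x.2,
    mul_le_mul_of_nonneg_left h2 (show 0 ≤ cosh x.1 ^ 2 by positivity),
    mul_le_mul_of_nonneg_right h1 (show 0 ≤ cosh x.2 ^ 2 by positivity)]

theorem curv_diff {F : ℝ → ℝ} {C κ : ℝ} (hκ : 0 ≤ κ) (hC : Bd 2 C (deriv F))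
    (h : ∀ x, κ / cosh x ^ 2 ≤ deriv (deriv F) x) (x : ℝ × ℝ) :
    κ * psi0 x ≤ |deriv F x.1 - deriv F x.2| := by
  have key : ∀ p q : ℝ, p ≤ q → κ * (q - p) / (cosh p ^ 2 * cosh q ^ 2) ≤ deriv F q - deriv F p := by
    intro p q hpq
    have hd : ∀ y ∈ Set.Icc p q, κ / (cosh p ^ 2 * cosh q ^ 2) ≤ deriv (deriv F) y := fun y hy => by
      refine le_trans (div_le_div_of_nonneg_left hκ (by positivity) ?_) (h y)
      have h1 : 1 ≤ cosh p ^ 2 := one_le_pow₀ (one_le_cosh _)
      have h2 : 1 ≤ cosh q ^ 2 := one_le_pow₀ (one_le_cosh _)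
      rcases le_total |q| |p| with hh | hh
      · refine le_trans ?_ (le_mul_of_one_le_right (by positivity) h2)
        refine pow_le_pow_left₀ (cosh_pos y).le (cosh_le_cosh.2 ?_) 2
        rcases abs_choice y with e | e <;> rw [e] <;>
          linarith [le_abs_self q, neg_le_abs p, hy.1, hy.2]
      · refine le_trans ?_ (le_mul_of_one_le_left (by positivity) h1)
        refine pow_le_pow_left₀ (cosh_pos y).le (cosh_le_cosh.2 ?_) 2
        rcases abs_choice y with e | e <;> rw [e] <;>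
          linarith [le_abs_self q, neg_le_abs p, hy.1, hy.2]
    have := Convex.mul_sub_le_image_sub_of_le_deriv (f := deriv F) (convex_Icc p q) hC.cont.continuousOn
      (hC.1.differentiableOn) (fun y hy => hd y (interior_subset hy)) p ⟨le_rfl, hpq⟩ q ⟨hpq, le_rfl⟩ hpq
    rwa [div_mul_eq_mul_div] at this
  rw [psi0, ← mul_div_assoc]
  rcases le_total x.1 x.2 with hh | hh
  · rw [abs_of_nonpos (by linarith : x.1 - x.2 ≤ 0), neg_sub, abs_sub_comm]
    exact (key _ _ hh).trans (le_abs_self _)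
  · rw [abs_of_nonneg (by linarith : 0 ≤ x.1 - x.2), mul_comm (cosh x.1 ^ 2)]
    exact (key _ _ hh).trans (le_abs_self _)

/-- The constant in the lower bound of the plain average. -/
noncomputable def diffC (A : ℝ) : ℝ := ∫ z, |z 1 - z 2| * exp (-(4 * (A + 1)) * ∑ i, |z i|) ∂G3

theorem diffC_pos {A : ℝ} (hA : 0 ≤ A) : 0 < diffC A := by
  have hi : Integrable (fun z : Fin 3 → ℝ => |z 1 - z 2| * exp (-(4 * (A + 1)) * ∑ i, |z i|)) G3 :=
    stdG_int (by fun_prop) ⟨1, fun z => by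
      rw [one_mul, abs_mul, abs_abs, abs_exp, two_mul, exp_add]
      have hs : (0 : ℝ) ≤ ∑ i, |z i| := sum_nonneg fun i _ => abs_nonneg _
      refine mul_le_mul ?_ (exp_le_exp.2 (by nlinarith)) (exp_pos _).le (exp_pos _).le
      refine (abs_sub _ _).trans ?_
      rw [Fin.sum_univ_three]
      linarith [add_one_le_exp (|z 0| + |z 1| + |z 2|), abs_nonneg (z 0)]⟩
  refine lt_of_le_of_ne (integral_nonneg fun z => by positivity) fun h => ?_
  have h0 := (integral_eq_zero_iff_of_nonneg (fun z => by positivity) hi).1 h.symm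
  have h2 : ∫ z, (z 1 - z 2) ^ 2 ∂G3 = (2 : ℝ) := by
    have e : ∀ z : Fin 3 → ℝ, (z 1 - z 2) ^ 2 = z 1 * z 1 - 2 * (z 1 * z 2) + z 2 * z 2 := fun z => by ring
    simp only [e]
    rw [integral_add ((int_coord2 1 1).sub' ((int_coord2 1 2).const_mul 2)) (int_coord2 2 2),
      integral_sub (int_coord2 1 1) ((int_coord2 1 2).const_mul 2), integral_const_mul,
      (coord_moments 1 1).2, (coord_moments 1 2).2, (coord_moments 2 2).2, if_pos rfl, if_neg (by decide),
      if_pos rfl]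
    norm_num
  have h3 : ∫ z, (z 1 - z 2) ^ 2 ∂G3 = (0 : ℝ) := by
    refine integral_eq_zero_of_ae (h0.mono fun z hz => ?_)
    simp only [Pi.zero_apply, mul_eq_zero, (exp_pos _).ne', or_false, abs_eq_zero] at hz
    simp [hz]
  linarith

theorem P2_psi0_ge {A s t : ℝ} (hs : 0 ≤ s) (hsA : s ≤ A) (h1 : t ∈ Set.Icc (0 : ℝ) 1) :
    diffC A * (√(1 - t) * √s) ≤ P2 t s psi0 (0, 0) := by
  rw [diffC, ← integral_mul_const]
  refine integral_mono ?_ (int_bdd continuous_psi0 psi0_bdd _) fun z => ?_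
  · exact (stdG_int (by fun_prop) ⟨1, fun z => by
      rw [one_mul, abs_mul, abs_abs, abs_exp, two_mul, exp_add]
      have h0 : (0 : ℝ) ≤ ∑ i, |z i| := sum_nonneg fun i _ => abs_nonneg _
      refine mul_le_mul ?_ (exp_le_exp.2 (by nlinarith)) (exp_pos _).le (exp_pos _).le
      refine (abs_sub _ _).trans ?_
      rw [Fin.sum_univ_three]
      linarith [add_one_le_exp (|z 0| + |z 1| + |z 2|), abs_nonneg (z 0)]⟩).mul_const _
  · simp only [psi0, sh, zero_add]
    have e : √s * cfst t z - √s * csnd t z = √s * √(1 - t) * (z 1 - z 2) := by simp only [cfst, csnd]; ring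
    rw [e, abs_mul, abs_of_nonneg (by positivity : 0 ≤ √s * √(1 - t)), neg_mul, exp_neg,
      show |z 1 - z 2| * (exp (4 * (A + 1) * ∑ i, |z i|))⁻¹ * (√(1 - t) * √s)
        = √s * √(1 - t) * |z 1 - z 2| / exp (4 * (A + 1) * ∑ i, |z i|) by rw [div_eq_mul_inv]; ring]
    refine div_le_div_of_nonneg_left (by positivity) (by positivity) ?_
    have hc : ∀ x, cosh x ≤ exp |x| := fun x => by
      rw [← cosh_abs, cosh_eq]
      linarith [exp_le_exp.2 (show -|x| ≤ |x| by linarith [abs_nonneg x])]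
    refine (mul_le_mul (pow_le_pow_left₀ (cosh_pos _).le (hc _) 2) (pow_le_pow_left₀ (cosh_pos _).le (hc _) 2)
      (by positivity) (by positivity)).trans ?_
    rw [← exp_nat_mul, ← exp_nat_mul, ← exp_add, exp_le_exp, abs_mul, abs_mul, abs_of_nonneg (sqrt_nonneg s)]
    push_cast
    have hA0 := hs.trans hsA
    have hs1 := sqrt_le_add_one hsA hA0
    have h0 : (0 : ℝ) ≤ ∑ i, |z i| := sum_nonneg fun i _ => abs_nonneg _
    nlinarith [mul_le_mul_of_nonneg_left (abs_cfst_le h1 z) (sqrt_nonneg s),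
      mul_le_mul_of_nonneg_left (abs_csnd_le h1 z) (sqrt_nonneg s), mul_le_mul_of_nonneg_right hs1 h0]

/-- The rate of the deficit. -/
noncomputable def defC (A κ : ℝ) : ℝ :=
  (κ * exp (-(gapC A + 1) * A)) ^ 2 / 12 * exp (-gapC A * A) * diffC A ^ 2

theorem defC_pos {A κ : ℝ} (hA : 0 ≤ A) (hκ : 0 < κ) : 0 < defC A κ := by
  have := diffC_pos hA
  unfold defC; positivity

/-- The deficit of one level under the outer ones. -/
theorem level_drop {A κ t m a C : ℝ} (hA : 0 ≤ A) (hκ : 0 ≤ κ) (ht : t ∈ Set.Icc (1 / 2 : ℝ) 1)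
    (hm : 0 < m) (hm1 : m ≤ 1) (ha : 0 ≤ a) {F : ℝ → ℝ} (hF : Pot F) (hC : Bd 2 C (deriv F))
    (hU : ∀ x, κ / cosh x ^ 2 ≤ deriv (deriv F) x) {n : ℕ} {M D : ℕ → ℝ}
    (hM : ∀ i, 1 ≤ i → i ≤ n → 0 < M i ∧ M i ≤ 1 ∧ 0 ≤ D i) (hS : (∑ i ∈ Icc 1 n, D i) + a ≤ A) :
    nestT t M D n (T2 (m / (1 + t)) t a (dbl F)) (0, 0)
      ≤ nestT t M D n (dbl (hT m a F)) (0, 0)
        - defC A κ * (1 - t) * (m * (((∑ i ∈ Icc 1 n, D i) + a) ^ 2 - (∑ i ∈ Icc 1 n, D i) ^ 2)) := by
  set S := ∑ i ∈ Icc 1 n, D i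
  have h1 : t ∈ Set.Icc (0 : ℝ) 1 := ⟨by linarith [ht.1], ht.2⟩
  have hS0 : 0 ≤ S := sum_nonneg fun i hi => (hM i (mem_Icc.1 hi).1 (mem_Icc.1 hi).2).2.2
  have hD : ∀ i, 1 ≤ i → i ≤ n → 0 < M i ∧ M i ≤ 1 ∧ 0 ≤ D i ∧ D i ≤ A := fun i i1 i2 => by
    obtain ⟨p, q, r⟩ := hM i i1 i2
    refine ⟨p, q, r, le_trans ?_ ((le_add_of_nonneg_right ha).trans hS)⟩
    exact single_le_sum (f := D) (fun j hj => (hM j (mem_Icc.1 hj).1 (mem_Icc.1 hj).2).2.2) (mem_Icc.2 ⟨i1, i2⟩)
  have hMp : ∀ i, 1 ≤ i → i ≤ n → 0 < M i := fun i a b => (hM i a b).1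
  have htp : 0 < 1 + t := by linarith [h1.1]
  set m' := m / (1 + t)
  have hm' : 0 < m' := div_pos hm htp
  have hm'1 : m' ≤ 1 := (div_le_one htp).2 (by linarith [h1.1])
  obtain ⟨D₂, hD₂⟩ := P157.Cube2.bd_tE 2 C
  obtain ⟨K, hK0, hK⟩ := step_deficit m t D₂ hm hm1 h1
  set c := defC A κ * (1 - t)
  have main : ∀ R : ℕ, a + 1 ≤ R → nestT t M D n (T2 m' t a (dbl F)) (0, 0)
      ≤ nestT t M D n (dbl (hT m a F)) (0, 0) - c * (m * ((S + a) ^ 2 - S ^ 2))
        + (c * m * a ^ 2 / R + K * a * √(a / R)) := by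
    intro R hR
    have hRp : (0 : ℝ) < R := by linarith
    set h := a / R with hh
    have hh0 : 0 ≤ h := by positivity
    have hh1 : h ≤ 1 := (div_le_one hRp).2 (by linarith)
    have hRh : (R : ℝ) * h = a := by rw [hh]; field_simp
    set Fr : ℕ → ℝ → ℝ := fun r => hT m (((R : ℝ) - r) * h) F
    set W : ℕ → ℝ := fun r => nestT t M D n (T2 m' t (r * h) (dbl (Fr r))) (0, 0)
    have hstep : ∀ r < R, W (r + 1) ≤ W r + (K * √h ^ 3 - c * (m * (2 * h * (S + r * h)))) := by
      intro r hr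
      have hr' : (r : ℝ) + 1 ≤ R := by exact_mod_cast hr
      have hb0 : 0 ≤ ((R : ℝ) - (r + 1 : ℕ)) * h := mul_nonneg (by push_cast; linarith) hh0
      have hbA : ((R : ℝ) - (r + 1 : ℕ)) * h ≤ A := by
        push_cast
        nlinarith [mul_nonneg (show (0 : ℝ) ≤ r + 1 by positivity) hh0]
      have hrh : 0 ≤ (r : ℝ) * h := by positivity
      have hrA : (r : ℝ) * h ≤ a := by rw [← hRh]; exact mul_le_mul_of_nonneg_right (by linarith) hh0
      have hp : Pot (Fr (r + 1)) := pot_hT hF hm.ne'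
      have hbd : Bd 2 D₂ (deriv (Fr (r + 1))) := by
        rw [P157.Cube2.deriv_hT hF hm.ne']
        exact hD₂ _ _ _ _ (by rw [abs_of_pos hm]; exact hm1) hF hC hC
      set κ' := κ * exp (-(gapC A + 1) * A)
      have hκ' : 0 ≤ κ' := by positivity
      have hcur : ∀ x, κ' / cosh x ^ 2 ≤ deriv (deriv (Fr (r + 1))) x := fun x => by
        refine le_trans (div_le_div_of_nonneg_right (mul_le_mul_of_nonneg_left (exp_le_exp.2 ?_) hκ)
          (by positivity)) (curv_step hm hm1 hb0 hbA hκ hF hC hU x)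
        nlinarith [gapC_nonneg A]
      have hsemi : hT m h (Fr (r + 1)) = Fr r := funext fun x => by
        rw [hT_hT hm hh0 hb0 hF]
        simp only [Fr]; push_cast; ring_nf
      have hpr : Pot (Fr r) := pot_hT hF hm.ne'
      have hone : ∀ y, T2 m' t h (dbl (Fr (r + 1))) y
          ≤ (dbl (Fr r) y + K * √h ^ 3) - h * m / 6 * κ' ^ 2 * psi0 y ^ 2 := fun y => by
        have s1 := hK _ hp hbd h hh0 hh1 y
        rw [hsemi] at s1
        have s2 : κ' ^ 2 * psi0 y ^ 2 ≤ (deriv (Fr (r + 1)) y.1 - deriv (Fr (r + 1)) y.2) ^ 2 := by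
          rw [← mul_pow, ← sq_abs (deriv (Fr (r + 1)) y.1 - _)]
          exact pow_le_pow_left₀ (mul_nonneg hκ' (by unfold psi0; positivity)) (curv_diff hκ' hbd hcur y) 2
        have s3 : h * m / 6 ≤ h * (m * t / (2 * (1 + t))) := by
          rw [mul_div_assoc]
          refine mul_le_mul_of_nonneg_left ?_ hh0
          rw [div_le_div_iff₀ (by norm_num) (by positivity)]
          nlinarith [ht.1]
        have s4 := mul_le_mul s3 s2 (by positivity) (le_trans (by positivity) s3)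
        linarith
      have hL1 : Lip2 (T2 m' t h (dbl (Fr (r + 1)))) := T2_lip hm' h1 (lip2_dbl hp)
      have hL2 : Lip2 fun y => dbl (Fr r) y + K * √h ^ 3 := (lip2_dbl hpr).add_const _
      have g1 := gap hm' hm'1 h1 hrh (hrA.trans (by linarith)) hL1 hL2 continuous_psi0 psi0_bdd
        (by positivity) hone (A := A)
      simp only [T2_add_const hm'.ne' h1 (lip2_dbl hpr)] at g1
      have g2 := nestT_gap (A := A) (M := M) (D := D) h1 hD (T2_lip hm' h1 hL1)
        ((T2_lip hm' h1 (lip2_dbl hpr)).add_const (K * √h ^ 3)) (P2_cont continuous_psi0 psi0_bdd)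
        (P2_bdd psi0_bdd) (by positivity) g1 (0, 0)
      rw [nestT_add_const h1 hMp (T2_lip hm' h1 (lip2_dbl hpr)),
        P2_P2 hS0 hrh continuous_psi0 psi0_bdd] at g2
      have eW : W (r + 1) = nestT t M D n (T2 m' t (r * h) (T2 m' t h (dbl (Fr (r + 1))))) (0, 0) := by
        simp only [W]
        rw [funext fun y => T2_T2 hm' hrh hh0 h1 (lip2_dbl hp) y]
        push_cast; ring_nf
      rw [eW]
      refine g2.trans ?_
      have hsA : S + r * h ≤ A := by linarith
      have p1 := pow_le_pow_left₀ (mul_nonneg (diffC_pos hA).le (by positivity))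
        (P2_psi0_ge (by linarith) hsA h1) 2
      rw [mul_pow, mul_pow, sq_sqrt (show 0 ≤ 1 - t by linarith [h1.2]), sq_sqrt (by linarith : 0 ≤ S + r * h)] at p1
      have p2 : exp (-gapC A * A) ≤ exp (-gapC A * (r * h)) * exp (-gapC A * S) := by
        rw [← exp_add]; exact exp_le_exp.2 (by nlinarith [gapC_nonneg A])
      have p3 := mul_le_mul p2 p1 (mul_nonneg (sq_nonneg _) (mul_nonneg (by linarith [h1.2]) (by linarith)))
        (by positivity)
      have p4 := mul_le_mul_of_nonneg_left p3 (show 0 ≤ h * m / 6 * κ' ^ 2 by positivity)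
      have e : c * (m * (2 * h * (S + r * h)))
          = h * m / 6 * κ' ^ 2 * (exp (-gapC A * A) * (diffC A ^ 2 * ((1 - t) * (S + r * h)))) := by
        simp only [c, defC, κ']; ring
      rw [e]
      linarith
    have hsum : ∀ r ≤ R, W r ≤ W 0 + (r * (K * √h ^ 3) - c * (m * ((S + r * h) ^ 2 - S ^ 2 - r * h ^ 2))) := by
      intro r
      induction r with
      | zero => intro _; simp
      | succ r ih =>
        intro hr
        refine (hstep r (by omega)).trans (le_trans (add_le_add (ih (by omega)) le_rfl) (le_of_eq ?_))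
        push_cast; ring
    have hend := hsum R le_rfl
    have eR : W R = nestT t M D n (T2 m' t a (dbl F)) (0, 0) := by
      simp only [W, Fr, hRh, sub_self, zero_mul, hT_zero' hm.ne']
    have e0 : W 0 = nestT t M D n (dbl (hT m a F)) (0, 0) := by
      simp only [W, Fr, Nat.cast_zero, zero_mul, sub_zero, hRh, T2_zero hm'.ne']
    rw [eR, e0, hRh] at hend
    refine hend.trans (le_of_eq ?_)
    have e1 : (R : ℝ) * (K * √h ^ 3) = K * a * √(a / R) := by
      rw [pow_succ, sq_sqrt hh0, ← hh, ← hRh]; ring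
    have e2 : (R : ℝ) * h ^ 2 = a ^ 2 / R := by rw [hh]; field_simp
    rw [e1, e2]; ring
  have hlim : Tendsto (fun R : ℕ => nestT t M D n (dbl (hT m a F)) (0, 0) - c * (m * ((S + a) ^ 2 - S ^ 2))
      + (c * m * a ^ 2 / R + K * a * √(a / R))) atTop
      (𝓝 (nestT t M D n (dbl (hT m a F)) (0, 0) - c * (m * ((S + a) ^ 2 - S ^ 2)))) := by
    have t1 : Tendsto (fun R : ℕ => c * m * a ^ 2 / (R : ℝ)) atTop (𝓝 0) :=
      tendsto_const_nhds.div_atTop tendsto_natCast_atTop_atTop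
    have t2 : Tendsto (fun R : ℕ => K * a * √(a / (R : ℝ))) atTop (𝓝 0) := by
      have := ((continuous_sqrt.tendsto 0).comp (tendsto_const_nhds.div_atTop (a := a)
        (tendsto_natCast_atTop_atTop (R := ℝ)))).const_mul (K * a)
      simpa using this
    simpa using (t1.add t2).const_add _
  exact ge_of_tendsto hlim ((eventually_ge_atTop ⌈a + 1⌉₊).mono fun R hR => main R (Nat.ceil_le.1 hR))

/-- A chain loses the squared mass of its parameter. -/
theorem chain_deficit {A κ t : ℝ} (hA : 0 ≤ A) (hκ : 0 ≤ κ) (ht : t ∈ Set.Icc (1 / 2 : ℝ) 1) {n : ℕ}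
    {m a : ℕ → ℝ} {F : ℕ → ℝ → ℝ}
    (hchain : ∀ i, 1 ≤ i → i ≤ n → 0 < m i ∧ m i ≤ 1 ∧ 0 ≤ a i ∧ F (i - 1) = hT (m i) (a i) (F i))
    (hS : ∑ i ∈ Icc 1 n, a i ≤ A)
    (hF : ∀ i ≤ n, Pot (F i) ∧ (∃ C, Bd 2 C (deriv (F i))) ∧ ∀ x, κ / cosh x ^ 2 ≤ deriv (deriv (F i)) x) :
    nestT t (fun i => m i / (1 + t)) a n (dbl (F n)) (0, 0)
      ≤ 2 * F 0 0 - defC A κ * (1 - t) * (∑ i ∈ Icc 1 n, m i * a i) ^ 2 := by
  induction n with
  | zero => simp [nestT, dbl, two_mul]
  | succ n ih =>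
    obtain ⟨hm, hm1, ha, he⟩ := hchain (n + 1) (by omega) le_rfl
    obtain ⟨hp, ⟨C, hC⟩, hU⟩ := hF (n + 1) le_rfl
    rw [sum_Icc_succ_top (by omega : 1 ≤ n + 1)] at hS ⊢
    have htp : 0 < 1 + t := by linarith [ht.1]
    have hlow := level_drop (M := fun i => m i / (1 + t)) (D := a) hA hκ ht hm hm1 ha hp hC hU (n := n)
      (fun i i1 i2 => by
        obtain ⟨p1, p2, p3, -⟩ := hchain i i1 (by omega)
        exact ⟨div_pos p1 htp, (div_le_one htp).2 (by linarith [ht.1]), p3⟩) hS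
    have hrec := ih (fun i i1 i2 => hchain i i1 (by omega)) (le_trans (le_add_of_nonneg_right ha) hS)
      (fun i hi => hF i (by omega))
    simp only [Nat.add_sub_cancel] at he
    rw [← he] at hlow
    simp only [nestT]
    set S := ∑ i ∈ Icc 1 n, a i
    set M := ∑ i ∈ Icc 1 n, m i * a i
    have hMS : M ≤ S := sum_le_sum fun i hi => by
      obtain ⟨-, p2, p3, -⟩ := hchain i (mem_Icc.1 hi).1 (by have := (mem_Icc.1 hi).2; omega)
      exact mul_le_of_le_one_left p3 p2
    have hsq : (M + m (n + 1) * a (n + 1)) ^ 2 - M ^ 2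
        ≤ m (n + 1) * ((S + a (n + 1)) ^ 2 - S ^ 2) := by
      nlinarith [mul_le_mul_of_nonneg_left hMS (mul_nonneg hm.le ha),
        mul_le_mul_of_nonneg_left hm1 (mul_nonneg hm.le (sq_nonneg (a (n + 1))))]
    have hc : 0 ≤ defC A κ * (1 - t) := by
      have := diffC_pos hA
      have : 0 ≤ 1 - t := by linarith [ht.2]
      unfold defC; positivity
    nlinarith [mul_le_mul_of_nonneg_left hsq hc]

end Vale.Agent.P146.Sup
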