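import Vale.Agent.P146.Sup.Pins
import Vale.Agent.P146.Sup.Chain
import Vale.Agent.P146.Sup.Deficit
import Vale.Agent.P157.Cube2.Refine

/-!
# P146, superconcentration: a positive integral of the parameter gives a deficit

On the grid `K + 1 = (k + 1) (2N - 1)` the parameter `m / (1 + t)`, `t = 1 - 1/N`, sits at the indices
`l N` and the parameter `m` at the indices `l (2N - 1)`.
-/

open MeasureTheory ProbabilityTheory Real Finset
open Vale.Agent.P157.Rsb (lev mass IsPath refinePath top_div)
open Vale.Agent.P157.Cube2 (hT Pot Bd spinF spinU spinG spinN IsVar)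
open Vale.Agent.P157 (coin)

namespace Vale.Agent.P146.Sup

variable {k : ℕ}

theorem spinF_congr {r r' : ℕ → ℝ} {j : ℕ} (hjk : j ≤ k)
    (h : ∀ i, j < i → i ≤ k → r i - r (i - 1) = r' i - r' (i - 1)) : spinF k r j = spinF k r' j := by
  induction hd : k - j generalizing j with
  | zero => rw [show j = k by omega, P157.Cube2.spinF_top, P157.Cube2.spinF_top]
  | succ d ih =>
    have e1 := P157.Cube2.spinF_step (r := r) (show 1 ≤ j + 1 by omega) (show j + 1 ≤ k by omega)
    have e2 := P157.Cube2.spinF_step (r := r') (show 1 ≤ j + 1 by omega) (show j + 1 ≤ k by omega)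
    have e3 := h (j + 1) (by omega) (by omega)
    simp only [Nat.add_sub_cancel] at e1 e2 e3
    rw [e1, e2, e3, ih (by omega) (fun i a b => h i (by omega) b) (by omega)]

theorem spinF_flat {r : ℕ → ℝ} {j : ℕ} (hjk : j ≤ k) (h : ∀ i, 1 ≤ i → i ≤ j → r i = r (i - 1)) :
    spinF k r 0 = spinF k r j := by
  induction j with
  | zero => rfl
  | succ j ih =>
    rw [ih (by omega) (fun i a b => h i a (by omega))]
    have e := P157.Cube2.spinF_step (r := r) (show 1 ≤ j + 1 by omega) hjk
    have e' := h (j + 1) (by omega) le_rfl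
    simp only [Nat.add_sub_cancel] at e e'
    rw [e, e', sub_self, hT_zero' (P157.Cube2.levK_ne (by omega))]

theorem hT_add_const {m a : ℝ} (hm : m ≠ 0) {f : ℝ → ℝ} (hf : Pot f) (c x : ℝ) :
    hT m a (fun y => f y + c) x = hT m a f x + c := by
  have h := P157.Cube2.den_pos (m := m) (a := a) hf x
  simp only [hT, P157.Cube2.den, mul_add, exp_add, integral_mul_const] at h ⊢
  rw [log_mul h.ne' (exp_pos _).ne', log_exp, add_div, mul_div_cancel_left₀ _ hm]

theorem hT_logcosh {a : ℝ} (ha : 0 ≤ a) (x : ℝ) :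
    hT 1 a (fun h => log (cosh h)) x = log (cosh x) + a / 2 := by
  have e : P157.Cube2.den 1 a (fun h => log (cosh h)) x = cosh x * exp (a / 2) := by
    simp only [P157.Cube2.den, one_mul, exp_log (cosh_pos _)]
    simp only [cosh_eq, exp_add, neg_add, ← neg_mul, integral_div]
    rw [integral_add ((integrable_exp_mul_gaussianReal _).const_mul _)
      ((integrable_exp_mul_gaussianReal _).const_mul _), integral_const_mul, integral_const_mul,
      P157.Cube2.integral_exp_mul, P157.Cube2.integral_exp_mul, neg_sq, sq_sqrt ha]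
    ring
  rw [hT, e, div_one, log_mul (cosh_pos x).ne' (exp_pos _).ne', log_exp]

/-- The curvature of the recursion of one spin. -/
theorem spinF_curv {r : ℕ → ℝ} {A : ℝ} (hr : ∀ i, 1 ≤ i → i ≤ k → r (i - 1) ≤ r i)
    (hA : ∀ i, i ≤ k → r k - r i ≤ A) {j : ℕ} (hjk : j ≤ k) (x : ℝ) :
    exp (-(gapC A + 1) * (r k - r j)) / cosh x ^ 2 ≤ deriv (deriv (spinF k r j)) x := by
  refine P157.Cube2.spinF_induction (k := k)
    (P := fun j => ∀ x, exp (-(gapC A + 1) * (r k - r j)) / cosh x ^ 2 ≤ deriv (deriv (spinF k r j)) x)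
    ?_ ?_ hjk x
  · intro x
    rw [sub_self, mul_zero, exp_zero, P157.Cube2.spinF_top, P157.Cube2.deriv_logcosh,
      (P157.Cube2.hasDerivAt_tanh' x).deriv, tanh_eq_sinh_div_cosh, div_pow, div_le_iff₀ (by positivity), sub_mul,
      div_mul_cancel₀ _ (pow_pos (cosh_pos x) 2).ne']
    linarith [cosh_sq x]
  · intro j hj1 hjk ih x
    obtain ⟨C, hC⟩ := P157.Cube2.bd2_u (r := r) hjk
    have hm1 : lev k j ≤ 1 := (le_abs_self _).trans (P157.Cube2.levK_abs hjk)
    have hm0 : 0 < lev k j := lt_of_le_of_ne (P157.Cube2.levK_nonneg j) (P157.Cube2.levK_ne hj1).symm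
    have h0 := sub_nonneg.2 (hr j hj1 hjk)
    have hle : r j - r (j - 1) ≤ A := by
      have h1 := hA (j - 1) (by omega)
      have h2 : r j ≤ r k := by
        refine Nat.le_induction (P := fun i _ => i ≤ k → r j ≤ r i) (fun _ => le_rfl)
          (fun i _ h hik => (h (by omega)).trans ?_) k hjk le_rfl
        simpa using hr (i + 1) (by omega) hik
      linarith
    rw [P157.Cube2.spinF_step hj1 hjk]
    refine le_trans (le_of_eq ?_) (curv_step hm0 hm1 h0 hle (exp_pos _).le (P157.Cube2.pot_spinF hjk) hC ih x)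
    rw [← exp_add]; ring_nf

/-- The path of the levels cut at `v`, with the last level at `v`. -/
noncomputable def cut (k : ℕ) (q : ℕ → ℝ) (v : ℝ) (l : ℕ) : ℝ := if l ≤ k then min (q l) v else v

/-- The potentials of the chain. -/
noncomputable def fam (β : ℝ) (k : ℕ) (q : ℕ → ℝ) (v : ℝ) (l : ℕ) (x : ℝ) : ℝ :=
  spinF k (scale β fun i => max (q i) (cut k q v l)) 0 x
    + β ^ 2 / 2 * (max (q k) v - max (q k) (cut k q v l))

/-- The first level at which the path has reached `v`. -/
noncomputable def crossIdx (k : ℕ) (q : ℕ → ℝ) (v : ℝ) : ℕ := by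
  classical exact if h : ∃ l, l ≤ k ∧ v ≤ q l then Nat.find h else k + 1

theorem crossIdx_spec (k : ℕ) (q : ℕ → ℝ) (v : ℝ) :
    crossIdx k q v ≤ k + 1 ∧ (∀ l < crossIdx k q v, l ≤ k ∧ q l < v) ∧
      (crossIdx k q v ≤ k → v ≤ q (crossIdx k q v)) := by
  classical
  unfold crossIdx
  split_ifs with h
  · refine ⟨(Nat.find_spec h).1.trans k.le_succ, fun l hl => ?_, fun _ => (Nat.find_spec h).2⟩
    have h1 : l ≤ k := (hl.le).trans (Nat.find_spec h).1
    exact ⟨h1, not_le.1 fun h2 => Nat.find_min h hl ⟨h1, h2⟩⟩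
  · exact ⟨le_rfl, fun l hl => ⟨by omega, not_le.1 fun h2 => h ⟨l, by omega, h2⟩⟩, fun h1 => by omega⟩

variable {β v : ℝ} {q : ℕ → ℝ}

theorem pth_le (hq : IsPath k q) {i j : ℕ} (hij : i ≤ j) (hjk : j ≤ k) : q i ≤ q j :=
  P157.Cube2.isVar_le ⟨hq.1, hq.2.1⟩ hij hjk

theorem scale_max_incr (hq : IsPath k q) (c : ℝ) {i : ℕ} (hik : i ≤ k) :
    scale β (fun i => max (q i) c) (i - 1) ≤ scale β (fun i => max (q i) c) i :=
  mul_le_mul_of_nonneg_left (max_le_max (pth_le hq (Nat.sub_le i 1) hik) le_rfl) (sq_nonneg β)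

/-- Cutting inside one increment of the path. -/
theorem spinF_cut (hq : IsPath k q) {i : ℕ} (hi : 1 ≤ i) (hik : i ≤ k) {c : ℝ} (hc : q (i - 1) ≤ c)
    (hc' : c ≤ q i) :
    spinF k (scale β fun j => max (q j) c) 0
      = hT (lev k i) (β ^ 2 * (q i - c)) (spinF k (scale β q) i) := by
  rw [spinF_flat (j := i - 1) (by omega) fun l h1 h2 => ?_, P157.Cube2.spinF_step hi hik,
    spinF_congr (r' := scale β q) hik fun l h1 h2 => ?_]
  · simp only [scale, max_eq_left hc', max_eq_right hc, ← mul_sub]
  · simp only [scale]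
    rw [max_eq_left (hc'.trans (pth_le hq h1.le h2)),
      max_eq_left (hc'.trans (pth_le hq (by omega) (by omega)))]
  · simp only [scale]
    rw [max_eq_right ((pth_le hq h2 (by omega)).trans hc),
      max_eq_right ((pth_le hq (show l - 1 ≤ i - 1 by omega) (by omega)).trans hc)]

theorem spinF_const {r : ℕ → ℝ} (h : ∀ i, 1 ≤ i → i ≤ k → r i = r (i - 1)) :
    spinF k r 0 = fun x => log (cosh x) :=
  (spinF_flat le_rfl h).trans P157.Cube2.spinF_top

/-- The steps of the chain. -/
theorem fam_step (hq : IsPath k q) {i : ℕ} (hi : 1 ≤ i) (hic : i ≤ crossIdx k q v) :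
    0 ≤ cut k q v i - cut k q v (i - 1) ∧
      fam β k q v (i - 1) = hT (lev k i) (β ^ 2 * (cut k q v i - cut k q v (i - 1))) (fam β k q v i) := by
  obtain ⟨h1, h2, -⟩ := crossIdx_spec k q v
  obtain ⟨hk1, hlt⟩ := h2 (i - 1) (by omega)
  have e1 : cut k q v (i - 1) = q (i - 1) := by rw [cut, if_pos hk1, min_eq_left hlt.le]
  rcases Nat.lt_or_ge k i with hik | hik
  · obtain rfl : i = k + 1 := by omega
    simp only [Nat.add_sub_cancel] at e1 hlt hk1 ⊢
    have e2 : cut k q v (k + 1) = v := by rw [cut, if_neg (by omega)]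
    rw [e1, e2]
    refine ⟨by linarith, funext fun x => ?_⟩
    have hk' : ∀ c, q k ≤ c → ∀ j, 1 ≤ j → j ≤ k →
        scale β (fun i => max (q i) c) j = scale β (fun i => max (q i) c) (j - 1) := fun c hc j _ hj => by
      simp only [scale]
      rw [max_eq_right ((pth_le hq hj le_rfl).trans hc),
        max_eq_right ((pth_le hq (show j - 1 ≤ k by omega) le_rfl).trans hc)]
    have e3 : fam β k q v (k + 1) = fun x => log (cosh x) := by
      funext y; simp only [fam, e2, sub_self, mul_zero, add_zero, spinF_const (hk' v hlt.le)]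
    rw [P157.Cube2.levK_top, e3, hT_logcosh (mul_nonneg (sq_nonneg β) (by linarith))]
    simp only [fam, e1, spinF_const (hk' (q k) le_rfl), max_self, max_eq_right hlt.le]
    ring
  · have hqi := pth_le hq (show i - 1 ≤ i by omega) hik
    have e2 : cut k q v i = min (q i) v := by rw [cut, if_pos hik]
    have c1 : q (i - 1) ≤ min (q i) v := le_min hqi hlt.le
    rw [e1, e2]
    refine ⟨by linarith, funext fun x => ?_⟩
    have hk : ∀ c, c ≤ q i → max (q k) c = q k := fun c hc => max_eq_left (hc.trans (pth_le hq hik le_rfl))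
    have hm := P157.Cube2.levK_ne (k := k) hi
    have hpot := P157.Cube2.pot_spinF (r := scale β q) hik
    have e3 : fam β k q v i = fun y =>
        hT (lev k i) (β ^ 2 * (q i - min (q i) v)) (spinF k (scale β q) i) y + β ^ 2 / 2 * (max (q k) v - q k) := by
      funext y
      simp only [fam, e2, hk _ (min_le_left _ _), spinF_cut hq hi hik c1 (min_le_left _ _)]
    rw [e3, hT_add_const hm (pot_hT hpot hm),
      hT_hT (lt_of_le_of_ne (P157.Cube2.levK_nonneg i) hm.symm) (mul_nonneg (sq_nonneg β) (by linarith))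
        (mul_nonneg (sq_nonneg β) (sub_nonneg.2 (min_le_left _ _))) hpot]
    simp only [fam, e1, hk _ hqi, spinF_cut hq hi hik le_rfl hqi]
    ring_nf

theorem fam_props (hq : IsPath k q) (hv : 0 ≤ v) (hv1 : v ≤ 1) (l : ℕ) :
    Pot (fam β k q v l) ∧ (∃ C, Bd 2 C (deriv (fam β k q v l))) ∧
      ∀ x, exp (-(gapC (β ^ 2) + 1) * β ^ 2) / cosh x ^ 2 ≤ deriv (deriv (fam β k q v l)) x := by
  set c := cut k q v l
  set r := scale β fun i => max (q i) c
  have hc : 0 ≤ c ∧ c ≤ 1 := by
    simp only [c, cut]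
    split_ifs with h
    · exact ⟨le_min (P157.Cube2.isPath_mem hq h).1 hv, (min_le_right _ _).trans hv1⟩
    · exact ⟨hv, hv1⟩
  have hd : deriv (fam β k q v l) = deriv (spinF k r 0) := funext fun x => by
    exact deriv_add_const _
  have hp : Pot (spinF k r 0) := P157.Cube2.pot_spinF (Nat.zero_le k)
  refine ⟨⟨hp.diff.add_const _, hd ▸ hp.dcont, fun x => hd ▸ hp.dle x⟩, ?_, fun x => ?_⟩
  · obtain ⟨C, hC⟩ := P157.Cube2.bd2_u (r := r) (Nat.zero_le k)
    exact ⟨C, hd ▸ hC⟩
  · rw [hd]
    have hA : ∀ i, i ≤ k → r k - r i ≤ β ^ 2 := fun i hi => by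
      simp only [r, scale, ← mul_sub]
      refine mul_le_of_le_one_right (sq_nonneg β) ?_
      linarith [max_le hq.2.2 hc.2, (P157.Cube2.isPath_mem hq hi).1, le_max_left (q i) c]
    refine le_trans (div_le_div_of_nonneg_right (exp_le_exp.2 ?_) (by positivity))
      (spinF_curv (fun i _ h => scale_max_incr hq c h) hA (Nat.zero_le k) x)
    nlinarith [hA 0 (Nat.zero_le k), gapC_nonneg (β ^ 2)]

theorem spinF_refine0 {r K : ℕ} (hK : K + 1 = (r + 1) * (k + 1)) (ρ : ℕ → ℝ) :
    spinF K (refinePath r ρ) 0 = spinF k ρ 0 := by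
  simp [spinF, P157.Cube2.spinN_refine hK ρ K le_rfl]

/-- The path on the fine grid. -/
noncomputable def fine (k N : ℕ) (q : ℕ → ℝ) (v : ℝ) (j : ℕ) : ℝ :=
  if j < crossIdx k q v * N then q (j / N) else max (q (j / (2 * N - 1))) v

/-- A positive parameter below `v` gives a deficit. -/
theorem caseI : CaseIStmt := by
  intro β hβ
  set A := β ^ 2 with hA
  set κ := exp (-(gapC A + 1) * A)
  refine ⟨defC A κ * β ^ 4, mul_pos (defC_pos (sq_nonneg β) (exp_pos _)) (by positivity),
    fun k N q v hk hq hN hv hv1 => ?_⟩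
  obtain ⟨hl0, hlt, hge⟩ := crossIdx_spec k q v
  set l0 := crossIdx k q v with hl0def
  set R := 2 * N - 1 with hR
  set K := (k + 1) * R - 1 with hKdef
  have hK : K + 1 = (2 * N - 2 + 1) * (k + 1) := by
    rw [show 2 * N - 2 + 1 = R by omega, mul_comm R]
    have : 0 < (k + 1) * R := Nat.mul_pos (by omega) (by omega)
    omega
  have hRN : (k + 1) * R = (k + 1) * N + (k + 1) * (N - 1) := by
    rw [← Nat.mul_add, hR]; congr 1; omega
  have hl0K : l0 * N ≤ K := by
    have h1 : l0 * N ≤ (k + 1) * N := Nat.mul_le_mul_right N hl0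
    have h2 : 1 ≤ (k + 1) * (N - 1) := Nat.mul_pos (by omega) (by omega)
    omega
  have hqB : ∀ j, j ≤ l0 * N → q (j / R) ≤ v := fun j hj => by
    rcases Nat.eq_zero_or_pos l0 with h | h
    · obtain rfl : j = 0 := by rw [h] at hj; omega
      simpa [hq.1] using hv
    · refine (hlt _ ?_).2.le
      rw [Nat.div_lt_iff_lt_mul (by omega)]
      exact hj.trans_lt (Nat.mul_lt_mul_of_pos_left (by omega) h)
  have hdivk : ∀ j ≤ K, j / R ≤ k := fun j hj => by
    rw [← top_div hK, show 2 * N - 2 + 1 = R by omega]; exact Nat.div_le_div_right hj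
  set Q := fine k N q v with hQdef
  have hQ_lo : ∀ j, j < l0 * N → Q j = q (j / N) ∧ q (j / N) < v ∧ j / N ≤ k := fun j hj => by
    have h := hlt (j / N) ((Nat.div_lt_iff_lt_mul (by omega)).2 hj)
    exact ⟨by simp only [hQdef, fine, ← hl0def, if_pos hj], h.2, h.1⟩
  have hQ_hi : ∀ j, l0 * N ≤ j → Q j = max (q (j / R)) v := fun j hj => by
    simp only [hQdef, fine, ← hl0def, if_neg (show ¬j < l0 * N by omega), hR]
  have hQpath : IsPath K Q := by
    refine ⟨?_, fun j hj => ?_, ?_⟩
    · rcases Nat.eq_zero_or_pos (l0 * N) with h | h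
      · rw [hQ_hi 0 (by omega), Nat.zero_div, hq.1, max_eq_left]
        have h0 : l0 = 0 := (Nat.mul_eq_zero.1 h).resolve_right (by omega)
        have := hge (by omega)
        rwa [h0, hq.1] at this
      · rw [(hQ_lo 0 h).1, Nat.zero_div, hq.1]
    · rcases Nat.lt_or_ge j (l0 * N) with h | h
      · obtain ⟨e, hv', hjk⟩ := hQ_lo j h
        rw [e]
        rcases Nat.lt_or_ge (j + 1) (l0 * N) with h' | h'
        · rw [(hQ_lo _ h').1]
          exact pth_le hq (Nat.div_le_div_right j.le_succ) (hQ_lo _ h').2.2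
        · rw [hQ_hi _ h']; exact hv'.le.trans (le_max_right _ _)
      · rw [hQ_hi j h, hQ_hi (j + 1) (by omega)]
        exact max_le_max (pth_le hq (Nat.div_le_div_right j.le_succ) (hdivk _ hj)) le_rfl
    · rw [hQ_hi K hl0K]
      exact max_le (P157.Cube2.isPath_mem hq (hdivk K le_rfl)).2 hv1
  have hQK : Q K = max (q k) v := by
    rw [hQ_hi K hl0K, ← show 2 * N - 2 + 1 = R by omega, top_div hK]
  have hKsum : K + 1 = (k + 1) * N + (k + 1) * (N - 1) := by
    rw [hK, show 2 * N - 2 + 1 = R by omega, mul_comm R]; exact hRN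
  have hK1 : 1 ≤ K := by
    have : 2 ≤ (k + 1) * N := le_trans hN (Nat.le_mul_of_pos_left N (by omega))
    omega
  refine ⟨K, Q, hK1, hQpath, hQK ▸ le_max_right _ _, ?_⟩
  set t : ℝ := 1 - 1 / N
  have hN2 : (2 : ℝ) ≤ N := by exact_mod_cast hN
  have hNp : (0 : ℝ) < N := by linarith
  have hN0 : 1 / (N : ℝ) ≤ 1 / 2 := by rw [div_le_div_iff₀ hNp two_pos]; linarith
  have ht : t ∈ Set.Icc (1 / 2 : ℝ) 1 := ⟨by linarith, by linarith [show (0 : ℝ) ≤ 1 / N by positivity]⟩
  have h1 : t ∈ Set.Icc (0 : ℝ) 1 := ⟨by linarith [ht.1], ht.2⟩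
  -- above `v`: the copies are independent
  set ρ := scale β fun i => max (q i) v
  set G := spinF K (refinePath (2 * N - 2) ρ)
  have habove : ∀ j, l0 * N ≤ j → j ≤ K → twoY K β t v Q 0 j = dbl (G j) := by
    intro j hj hjK
    induction hd : K - j generalizing j with
    | zero =>
      funext x
      rw [show j = K by omega, twoY_top, top2_zero]
      simp [G, dbl, P157.Cube2.spinF_top]
    | succ d ih =>
      have h := twoY_step (β := β) (t := t) (v := v) (Q := Q) (lam := 0) (show 1 ≤ j + 1 by omega)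
        (show j + 1 ≤ K by omega)
      have hG := P157.Cube2.spinF_step (k := K) (r := refinePath (2 * N - 2) ρ) (show 1 ≤ j + 1 by omega)
        (show j + 1 ≤ K by omega)
      simp only [Nat.add_sub_cancel] at h hG
      have ec : corrLev t v Q (j + 1) = 0 := by
        rw [corrLev, Nat.add_sub_cancel, hQ_hi j hj, hQ_hi (j + 1) (by omega),
          min_eq_right (le_max_right _ _), min_eq_right (le_max_right _ _), sub_self, mul_zero, zero_div]
      have ev : varLev β Q (j + 1) = refinePath (2 * N - 2) ρ (j + 1) - refinePath (2 * N - 2) ρ j := by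
        simp only [varLev, Nat.add_sub_cancel, hQ_hi j hj, hQ_hi (j + 1) (show l0 * N ≤ j + 1 by omega),
          refinePath, show 2 * N - 2 + 1 = R by omega, ρ, scale]
        ring
      rw [h, ec, ev, ih (j + 1) (by omega) (by omega) (by omega)]
      funext x
      have hp : Pot (G (j + 1)) := P157.Cube2.pot_spinF (by omega)
      exact (T2_indep hp hp x).trans (by simp only [dbl, G, hG])
  have htop : twoY K β t v Q 0 (l0 * N) = dbl (fam β k q v l0) := by
    rw [habove _ le_rfl hl0K]
    congr 1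
    funext x
    have hflat : ∀ i, 1 ≤ i → i ≤ l0 * N →
        refinePath (2 * N - 2) ρ i = refinePath (2 * N - 2) ρ (i - 1) := fun i _ hi => by
      simp only [refinePath, show 2 * N - 2 + 1 = R by omega, ρ, scale]
      rw [max_eq_right (hqB i hi), max_eq_right (hqB (i - 1) (by omega))]
    have ecut : cut k q v l0 = v := by
      unfold cut
      split_ifs with h
      · exact min_eq_right (hge h)
      · rfl
    simp only [G, fam, ecut, sub_self, mul_zero, add_zero, ← spinF_flat hl0K hflat, spinF_refine0 hK]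
    rfl
  -- below `v`: the steps sit at the multiples of `N`
  set m : ℕ → ℝ := fun i => lev k i
  set a : ℕ → ℝ := fun i => β ^ 2 * (cut k q v i - cut k q v (i - 1))
  have hbelow : ∀ l, l ≤ l0 → twoY K β t v Q 0 0 (0, 0)
      = nestT t (fun i => m i / (1 + t)) a l (twoY K β t v Q 0 (l * N)) (0, 0) := by
    intro l hl
    induction l with
    | zero => simp [nestT]
    | succ l ih =>
      rw [ih (by omega), nestT]
      congr 1
      obtain ⟨hlk, hqv⟩ := hlt l (by omega)
      have hlN : (l + 1) * N ≤ l0 * N := Nat.mul_le_mul_right N hl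
      have hsucc : (l + 1) * N = l * N + N := by ring
      have hblock : ∀ i, i ≤ N - 1 → twoY K β t v Q 0 (l * N) = twoY K β t v Q 0 (l * N + i) := by
        intro i hi
        induction i with
        | zero => rfl
        | succ i ihi =>
          rw [ihi (by omega)]
          have hst := twoY_step (β := β) (t := t) (v := v) (Q := Q) (lam := 0)
            (show 1 ≤ l * N + i + 1 by omega) (show l * N + i + 1 ≤ K by omega)
          simp only [Nat.add_sub_cancel] at hst
          have e : ∀ p, p ≤ N - 1 → Q (l * N + p) = q l := fun p hp => by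
            rw [(hQ_lo (l * N + p) (by omega)).1]
            congr 1
            rw [Nat.mul_comm, Nat.mul_add_div (by omega), Nat.div_eq_of_lt (by omega), add_zero]
          have e0 : varLev β Q (l * N + i + 1) = 0 := by
            rw [varLev, Nat.add_sub_cancel, add_assoc, e _ (by omega), e _ (by omega), sub_self, mul_zero]
          rw [hst, e0, T2_zero (P157.Cube2.levK_ne (by omega)), add_assoc]
      rw [hblock (N - 1) le_rfl, show l * N + (N - 1) = (l + 1) * N - 1 by omega,
        twoY_step (show 1 ≤ (l + 1) * N by omega) (hlN.trans hl0K)]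
      have hQ1 : Q ((l + 1) * N - 1) = cut k q v l := by
        rw [(hQ_lo ((l + 1) * N - 1) (by omega)).1, show (l + 1) * N - 1 = N * l + (N - 1) by
          rw [Nat.mul_comm N l]; omega, Nat.mul_add_div (by omega), Nat.div_eq_of_lt (by omega), add_zero,
          cut, if_pos hlk, min_eq_left hqv.le]
      have hQ2 : Q ((l + 1) * N) = cut k q v (l + 1) ∧ cut k q v (l + 1) ≤ v := by
        rcases Nat.lt_or_ge (l + 1) l0 with h | h
        · have hlk' := hlt _ h
          rw [(hQ_lo _ (Nat.mul_lt_mul_of_pos_right h (by omega))).1, Nat.mul_div_cancel _ (by omega), cut,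
            if_pos hlk'.1, min_eq_left hlk'.2.le]
          exact ⟨rfl, hlk'.2.le⟩
        · obtain rfl' : l + 1 = l0 := by omega
          rw [hQ_hi _ (Nat.mul_le_mul_right N h), max_eq_right (hqB _ hlN)]
          unfold cut
          split_ifs with hk'
          · rw [min_eq_right]
            · exact ⟨rfl, le_rfl⟩
            · rw [rfl']; exact hge (by omega)
          · exact ⟨rfl, le_rfl⟩
      have hcl : cut k q v l = q l := by rw [cut, if_pos hlk, min_eq_left hqv.le]
      have hlev : lev K ((l + 1) * N) = m (l + 1) / (1 + t) := by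
        have hKr : (K : ℝ) + 1 = (2 * N - 1) * (k + 1) := by
          have : ((K + 1 : ℕ) : ℝ) = (((2 * N - 1) * (k + 1) : ℕ) : ℝ) := by
            rw [hK, show 2 * N - 2 + 1 = 2 * N - 1 by omega]
          push_cast [Nat.cast_sub (show 1 ≤ 2 * N by omega)] at this
          exact this
        have h2 : (0 : ℝ) < 2 * N - 1 := by linarith
        simp only [m, lev, hKr, t]
        push_cast
        field_simp
        ring
      rw [hlev]
      rcases eq_or_ne (cut k q v (l + 1) - cut k q v l) 0 with h0 | h0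
      · have hm0 : m (l + 1) / (1 + t) ≠ 0 :=
          div_ne_zero (P157.Cube2.levK_ne (by omega)) (by linarith [h1.1])
        simp only [varLev, a, Nat.add_sub_cancel, hQ1, hQ2.1, h0, mul_zero, T2_zero hm0]
      · have ec : corrLev t v Q ((l + 1) * N) = t := by
          rw [corrLev, hQ1, hQ2.1, min_eq_left hQ2.2, min_eq_left (hcl ▸ hqv.le), mul_div_assoc, div_self h0,
            mul_one]
        rw [ec]
        simp only [varLev, a, Nat.add_sub_cancel, hQ1, hQ2.1]
  -- the deficit
  have hchain : ∀ i, 1 ≤ i → i ≤ l0 → 0 < m i ∧ m i ≤ 1 ∧ 0 ≤ a i ∧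
      fam β k q v (i - 1) = hT (m i) (a i) (fam β k q v i) := fun i hi hi0 => by
    obtain ⟨e1, e2⟩ := fam_step (β := β) hq hi hi0
    refine ⟨lt_of_le_of_ne (P157.Cube2.levK_nonneg i) (P157.Cube2.levK_ne hi).symm, ?_,
      mul_nonneg (sq_nonneg β) e1, e2⟩
    simp only [m, lev]
    rw [div_le_one (by positivity)]
    exact_mod_cast hi0.trans hl0
  have hcut0 : cut k q v 0 = 0 := by simp [cut, hq.1, hv]
  have hcutv : cut k q v l0 = v := by
    unfold cut; split_ifs with h
    · exact min_eq_right (hge h)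
    · rfl
  have hsuma : ∑ i ∈ Icc 1 l0, a i = A * v := by
    simp only [a, ← mul_sum, P157.Cube2.sum_incr, hcutv, hcut0, sub_zero, hA]
  have hdef := chain_deficit (A := A) (κ := κ) (F := fam β k q v) (sq_nonneg β) (exp_pos _).le ht hchain
    (hsuma.le.trans (mul_le_of_le_one_right (sq_nonneg β) hv1)) (fun i _ => fam_props hq hv hv1 i)
  rw [← htop, ← hbelow l0 le_rfl] at hdef
  have hlow : ∑ i ∈ Icc 1 l0, m i * a i = A * lowMass k q v := by
    set g : ℕ → ℝ := fun i => lev k i * (cut k q v i - cut k q v (i - 1))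
    have hz : ∀ i ∈ Icc 1 (k + 1), i ∉ Icc 1 l0 → g i = 0 := fun i hi hi' => by
      rw [mem_Icc] at hi hi'
      have hv' : ∀ p, l0 ≤ p → cut k q v p = v := fun p hp => by
        unfold cut; split_ifs with h
        · exact min_eq_right ((hge (by omega)).trans (pth_le hq hp h))
        · rfl
      simp only [g, hv' i (by omega), hv' (i - 1) (by omega), sub_self, mul_zero]
    have e1 : ∑ i ∈ Icc 1 l0, g i = ∑ i ∈ Icc 1 (k + 1), g i :=
      sum_subset (Finset.Icc_subset_Icc le_rfl hl0) hz
    have e2 : ∑ i ∈ Icc 1 (k + 1), g i = lowMass k q v := by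
      rw [sum_Icc_succ_top (by omega), lowMass]
      congr 1
      · refine sum_congr rfl fun i hi => ?_
        have := mem_Icc.1 hi
        simp only [g, cut, if_pos this.2, if_pos (show i - 1 ≤ k by omega)]
      · simp only [g, Nat.add_sub_cancel, cut, if_neg (show ¬k + 1 ≤ k by omega), if_pos (le_refl k),
          P157.Cube2.levK_top, one_mul]
        rcases le_total v (q k) with h | h
        · rw [min_eq_right h, sub_self, max_eq_right (by linarith)]
        · rw [min_eq_left h, max_eq_left (by linarith)]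
    rw [← e2, ← e1, mul_sum]
    exact sum_congr rfl fun i _ => by simp only [g, m, a, hA]; ring
  rw [hlow, show (1 : ℝ) - t = 1 / N by simp only [t]; ring] at hdef
  have hfam0 : fam β k q v 0 0 = spinF k (scale β q) 0 0 + β ^ 2 / 2 * (max (q k) v - q k) := by
    simp only [fam, hcut0]
    rw [max_eq_left (P157.Cube2.isPath_mem hq le_rfl).1, spinF_congr (r' := scale β q) (Nat.zero_le k)]
    intro i _ hi
    simp only [scale]
    rw [max_eq_left (P157.Cube2.isPath_mem hq hi).1,
      max_eq_left (P157.Cube2.isPath_mem hq (show i - 1 ≤ k by omega)).1]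
  -- the penalty
  have hpen : mass K * ∑ j ∈ Icc 1 K, (Q j ^ 2 + t * min (Q j) v ^ 2)
      = t * v ^ 2 + mass k * ∑ l ∈ Icc 1 k, q l ^ 2 := by
    have eA : ∀ j, j ≤ K → min (Q j) v = if j < (k + 1) * N then min (q (j / N)) v else v := by
      intro j hj
      rcases Nat.lt_or_ge j (l0 * N) with h | h
      · have := hQ_lo j h
        rw [this.1, if_pos (h.trans_le (Nat.mul_le_mul_right N hl0))]
      · rw [hQ_hi j h, min_eq_right (le_max_right _ _)]
        split_ifs with h'
        · have hjN : j / N ≤ k := Nat.lt_succ_iff.1 ((Nat.div_lt_iff_lt_mul (by omega)).2 h')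
          have h3 : l0 ≤ j / N := (Nat.le_div_iff_mul_le (by omega)).2 h
          exact (min_eq_right ((hge (h3.trans hjN)).trans (pth_le hq h3 hjN))).symm
        · rfl
    have eQ : ∀ j, j ≤ K → Q j ^ 2 = max (q (j / R)) v ^ 2 - v ^ 2 + min (Q j) v ^ 2 := fun j hj => by
      rcases Nat.lt_or_ge j (l0 * N) with h | h
      · rw [max_eq_right (hqB j h.le), (hQ_lo j h).1, min_eq_left (hQ_lo j h).2.1.le]; ring
      · rw [hQ_hi j h, min_eq_right (le_max_right _ _)]; ring
    rw [P157.Cube2.sum_Icc_one (by simp [hQpath.1, hv]), P157.Cube2.sum_Icc_one (by simp [hq.1])]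
    have e3 : ∑ j ∈ range (K + 1), (Q j ^ 2 + t * min (Q j) v ^ 2)
        = (2 * N - 1) * ∑ p ∈ range (k + 1), max (q p) v ^ 2 - (K + 1) * v ^ 2
          + (1 + t) * (N * ∑ p ∈ range (k + 1), min (q p) v ^ 2 + ((k : ℝ) + 1) * ((N : ℝ) - 1) * v ^ 2) := by
      rw [sum_congr rfl fun j hj => show Q j ^ 2 + t * min (Q j) v ^ 2 = max (q (j / R)) v ^ 2 - v ^ 2
          + (1 + t) * (if j < (k + 1) * N then min (q (j / N)) v else v) ^ 2 by
        have hj' : j ≤ K := by have := mem_range.1 hj; omega
        rw [eQ j hj', eA j hj']; ring]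
      rw [sum_add_distrib, sum_sub_distrib, ← mul_sum, sum_const, card_range, nsmul_eq_mul]
      congr 1
      · congr 1
        · rw [show K + 1 = (2 * N - 2 + 1) * (k + 1) from hK, P157.Cube2.sum_blocks, mul_sum]
          refine sum_congr rfl fun p _ => ?_
          rw [sum_congr rfl fun i hi => show max (q (((2 * N - 2 + 1) * p + i) / R)) v ^ 2 = max (q p) v ^ 2 by
            rw [← show 2 * N - 2 + 1 = R by omega, Nat.mul_add_div (by omega),
              Nat.div_eq_of_lt (mem_range.1 hi), add_zero], sum_const, card_range, nsmul_eq_mul]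
          push_cast [Nat.cast_sub (show 2 ≤ 2 * N by omega)]
          ring
        · push_cast; ring
      · congr 1
        rw [hKsum, sum_range_add]
        congr 1
        · rw [show (k + 1) * N = (N - 1 + 1) * (k + 1) by rw [Nat.sub_add_cancel (by omega)]; ring,
            P157.Cube2.sum_blocks, mul_sum]
          refine sum_congr rfl fun p hp => ?_
          rw [sum_congr rfl fun i hi => show (if (N - 1 + 1) * p + i < (N - 1 + 1) * (k + 1)
              then min (q (((N - 1 + 1) * p + i) / N)) v else v) ^ 2 = min (q p) v ^ 2 by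
            have hi' := mem_range.1 hi
            have hp' := mem_range.1 hp
            rw [if_pos (lt_of_lt_of_le (Nat.add_lt_add_left hi' _)
              (by rw [← Nat.mul_succ]; exact Nat.mul_le_mul_left _ hp')), Nat.sub_add_cancel (by omega),
              Nat.mul_add_div (by omega), Nat.div_eq_of_lt (by omega), add_zero], sum_const, card_range,
            nsmul_eq_mul, Nat.sub_add_cancel (by omega)]
        · rw [sum_congr rfl fun i _ => by rw [if_neg (by omega)], sum_const, card_range, nsmul_eq_mul]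
          push_cast [Nat.cast_sub (show 1 ≤ N by omega)]
          ring
    have e4 : ∑ p ∈ range (k + 1), q p ^ 2
        = ∑ p ∈ range (k + 1), max (q p) v ^ 2 + ∑ p ∈ range (k + 1), min (q p) v ^ 2 - ((k : ℝ) + 1) * v ^ 2 := by
      have : ∀ p, q p ^ 2 = max (q p) v ^ 2 + min (q p) v ^ 2 - v ^ 2 := fun p => by
        rcases le_total (q p) v with h | h
        · rw [max_eq_right h, min_eq_left h]; ring
        · rw [max_eq_left h, min_eq_right h]; ring
      simp only [this, sum_sub_distrib, sum_add_distrib, sum_const, card_range, nsmul_eq_mul]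
      push_cast; ring
    have hKr : (K : ℝ) + 1 = (2 * N - 1) * (k + 1) := by
      have : ((K + 1 : ℕ) : ℝ) = (((2 * N - 1) * (k + 1) : ℕ) : ℝ) := by
        rw [hK, show 2 * N - 2 + 1 = 2 * N - 1 by omega]
      push_cast [Nat.cast_sub (show 1 ≤ 2 * N by omega)] at this
      exact this
    rw [e3, e4]
    simp only [mass, hKr, t]
    have h2 : (2 * (N : ℝ) - 1) ≠ 0 := by linarith
    field_simp
    ring
  rw [twoObj, twoSys_val hβ.le hQpath h1, hpen, hQK]
  simp only [parisiP, spinG, scale]
  rw [hfam0] at hdef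
  have e5 : defC A κ * β ^ 4 / N * lowMass k q v ^ 2 = defC A κ * (1 / N) * (A * lowMass k q v) ^ 2 := by
    rw [hA]; ring
  rw [e5]
  linarith

end Vale.Agent.P146.Sup
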