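import Vale.Agent.P146.Sup.GBase

/-!
# P146, superconcentration: the one-site terms replaced by their kernels
-/

open MeasureTheory ProbabilityTheory Real Finset
open Vale.Agent.P157.Rsb (stdG lowKer mass mass_pos lev IsPath FieldIdx)
open Vale.Agent.P157 (cubeLaw coin)
open Vale.Agent.P150 (Edge spin)

namespace Vale.Agent.P146.Sup

section

variable {E ι X : Type} [Fintype E] [Fintype ι] [Fintype X] [MeasurableSpace X]
  [MeasurableSingletonClass X] {k : ℕ} {μ : Measure X} [IsProbabilityMeasure μ]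

/-- A bound on the bracket bounds the change of the mean value. -/
theorem gval_diff_le (hI : InterpStmt) (C P₀ P₁ : GSys E ι X k) (hO : Orth C P₀ P₁) {L : ℝ}
    (hb : ∀ θ, |bracket μ C P₀ P₁ θ| ≤ L) :
    |gval (C.path P₀ P₁ (π / 2)) μ - gval (C.path P₀ P₁ 0) μ| ≤ L := by
  have hd := hI E ι X μ k C P₀ P₁ hO
  have hpi := pi_pos
  have key : ∀ s : ℝ, |s| ≤ 1 →
      AntitoneOn (fun θ => s * gval (C.path P₀ P₁ θ) μ - L * sin θ ^ 2) (Set.Icc 0 (π / 2)) := by
    intro s hs
    have h : ∀ θ, HasDerivAt (fun θ => s * gval (C.path P₀ P₁ θ) μ - L * sin θ ^ 2)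
        (2 * sin θ * cos θ * (s * bracket μ C P₀ P₁ θ - L)) θ := fun θ => by
      refine (((hd θ).const_mul s).fun_sub (((hasDerivAt_sin θ).pow 2).const_mul L)).congr_deriv ?_
      push_cast; ring
    refine antitoneOn_of_hasDerivWithinAt_nonpos (convex_Icc 0 (π / 2))
      (fun θ _ => (h θ).continuousAt.continuousWithinAt) (fun θ _ => (h θ).hasDerivWithinAt)
      fun θ hθ => ?_
    rw [interior_Icc] at hθ
    have h1 := sin_nonneg_of_nonneg_of_le_pi hθ.1.le (by linarith [hθ.2])
    have h2 := cos_nonneg_of_mem_Icc (x := θ) ⟨by linarith [hθ.1], hθ.2.le⟩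
    refine mul_nonpos_of_nonneg_of_nonpos (by positivity) (sub_nonpos.2 ?_)
    refine (le_abs_self _).trans ((abs_mul _ _).le.trans ?_)
    exact (mul_le_mul hs (hb θ) (abs_nonneg _) zero_le_one).trans_eq (one_mul L)
  have hm0 : (0 : ℝ) ∈ Set.Icc 0 (π / 2) := Set.left_mem_Icc.2 (by positivity)
  have hm1 : π / 2 ∈ Set.Icc 0 (π / 2) := Set.right_mem_Icc.2 (by positivity)
  have e1 := key 1 (by simp) hm0 hm1 (by positivity)
  have e2 := key (-1) (by simp) hm0 hm1 (by positivity)
  simp only [one_mul, neg_one_mul, sin_zero, sin_pi_div_two, one_pow, ne_eq, OfNat.ofNat_ne_zero,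
    not_false_eq_true, zero_pow, mul_zero, mul_one, sub_zero] at e1 e2
  rw [abs_le]
  constructor <;> linarith

end

variable {β : ℝ} {m k : ℕ}

theorem spin_mul_self (b : Bool) : spin b * spin b = 1 := by cases b <;> simp [spin]

theorem spin_abs (b : Bool) : |spin b| = 1 := by cases b <;> simp [spin]

theorem abs_ov_le (x y : CavX m) : |ov x y| ≤ 1 := by
  unfold ov
  rw [abs_div, Nat.abs_cast]
  refine div_le_one_of_le₀ ((abs_sum_le_sum_abs _ _).trans (le_of_eq ?_)) (Nat.cast_nonneg m)
  simp [abs_mul, spin_abs]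

theorem ov_self (hm : 1 ≤ m) (x : CavX m) : ov x x = 1 := by
  have : (m : ℝ) ≠ 0 := by exact_mod_cast (by omega : m ≠ 0)
  simp [ov, spin_mul_self, this]

theorem sum_edge_sq (m : ℕ) (c : Fin m → ℝ) :
    2 * ∑ e : Edge m, c e.1.1 * c e.1.2 = (∑ i, c i) ^ 2 - ∑ i, c i ^ 2 := by
  have h1 : ∑ e : Edge m, c e.1.1 * c e.1.2
      = ∑ p : Fin m × Fin m, if p.1 < p.2 then c p.1 * c p.2 else 0 := by
    rw [← sum_filter]
    exact (Finset.sum_subtype _ (fun p => by simp) fun p : Fin m × Fin m => c p.1 * c p.2).symm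
  have h2 : ∀ i j : Fin m, c i * c j = (if i < j then c i * c j else 0)
      + (if j < i then c j * c i else 0) + (if i = j then c i ^ 2 else 0) := fun i j => by
    rcases lt_trichotomy i j with h | h | h
    · simp [h, h.not_gt, h.ne]
    · subst h; simp; ring
    · simp [h, h.not_gt, h.ne']; ring
  rw [h1, Fintype.sum_prod_type, sq, sum_mul_sum]
  conv_rhs => enter [1, 2, i, 2, j]; rw [h2 i j]
  simp only [sum_add_distrib, sum_ite_eq, mem_univ, if_true]
  rw [sum_comm (f := fun i j => if j < i then c j * c i else 0)]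
  ring

theorem kern_randPart_true (j : ℕ) (x y : CavX m) :
    kern (randPart β m k true) j x y = β ^ 2 * (m / ((m : ℝ) + 1)) * (spin x.2 * spin y.2) * ov x y := by
  have hs : √((m : ℝ) + 1) * √((m : ℝ) + 1) = (m : ℝ) + 1 := mul_self_sqrt (by positivity)
  have h : lowKer (randPart β m k true).B (randPart β m k true).B j x y = 0 := by
    simp [lowKer, randPart]
  rw [kern, h, add_zero, Fintype.sum_sum_type, Fintype.sum_sum_type]
  simp only [randPart, Sum.elim_inl, Sum.elim_inr, if_true, mul_zero, sum_const_zero, zero_add,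
    add_zero, ov]
  rcases Nat.eq_zero_or_pos m with rfl | hm
  · simp
  have hm0 : (m : ℝ) ≠ 0 := by exact_mod_cast hm.ne'
  rw [sum_div, mul_sum]
  refine sum_congr rfl fun i _ => ?_
  field_simp
  rw [sq_sqrt (by positivity)]

theorem kern_randPart_false (hm : 1 ≤ m) (j : ℕ) (x y : CavX m) :
    kern (randPart β m k false) j x y
      = β ^ 2 / 2 * (m / ((m : ℝ) + 1)) * ov x y ^ 2 - β ^ 2 / (2 * ((m : ℝ) + 1)) := by
  have h : lowKer (randPart β m k false).B (randPart β m k false).B j x y = 0 := by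
    simp [lowKer, randPart]
  rw [kern, h, add_zero, Fintype.sum_sum_type, Fintype.sum_sum_type]
  simp only [randPart, Sum.elim_inl, Sum.elim_inr, Bool.false_eq_true, if_false, mul_zero,
    sum_const_zero, zero_add]
  have hm0 : (m : ℝ) ≠ 0 := by exact_mod_cast (by omega : m ≠ 0)
  have hS : ∑ i, spin (x.1 i) * spin (y.1 i) = m * ov x y := by
    rw [ov, mul_div_cancel₀ _ hm0]
  have h1 : ∀ i, (spin (x.1 i) * spin (y.1 i)) ^ 2 = 1 := fun i => by
    rw [mul_pow, sq, sq, spin_mul_self, spin_mul_self, one_mul]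
  have hQ : ∑ i, (spin (x.1 i) * spin (y.1 i)) ^ 2 = (m : ℝ) := by simp [h1]
  have h2 := sum_edge_sq m fun i => spin (x.1 i) * spin (y.1 i)
  rw [hS, hQ] at h2
  have e : ∀ e : Edge m,
      β / √((m : ℝ) + 1) * (spin (x.1 e.1.1) * spin (x.1 e.1.2)) / √m *
        (β / √((m : ℝ) + 1) * (spin (y.1 e.1.1) * spin (y.1 e.1.2)) / √m)
      = β ^ 2 / (((m : ℝ) + 1) * m) *
        ((spin (x.1 e.1.1) * spin (y.1 e.1.1)) * (spin (x.1 e.1.2) * spin (y.1 e.1.2))) := fun e => by
    have a1 : √((m : ℝ) + 1) ^ 2 = (m : ℝ) + 1 := sq_sqrt (by positivity)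
    have a2 : √(m : ℝ) ^ 2 = m := sq_sqrt (Nat.cast_nonneg m)
    have : √(m : ℝ) ≠ 0 := sqrt_ne_zero'.2 (by exact_mod_cast hm)
    field_simp
    rw [a1, a2]
    ring
  simp only [e, ← mul_sum]
  field_simp at h2 ⊢
  linear_combination β ^ 2 * h2

theorem sum_incr_low {x : ℕ → ℝ} (h0 : x 0 = 0) {j : ℕ} (hj : j ≤ k) :
    ∑ a : Fin k, (if (a : ℕ) < j then x (a + 1) - x a else 0) = x j := by
  rw [Fin.sum_univ_eq_sum_range (fun a => if a < j then x (a + 1) - x a else 0), ← sum_filter,
    show (range k).filter (· < j) = range j by ext a; simp; omega, sum_range_sub, h0, sub_zero]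

theorem path_step_nonneg {r : ℕ → ℝ} (hr : IsPath k r) (a : Fin k) :
    0 ≤ r (a + 1) - r a ∧ 0 ≤ r (a + 1) ^ 2 - r a ^ 2 := by
  have h1 := hr.2.1 a a.2
  have h0 : ∀ i, i ≤ k → 0 ≤ r i := fun i hi => by
    induction i with
    | zero => rw [hr.1]
    | succ i ih => exact (ih (by omega)).trans (hr.2.1 i (by omega))
  exact ⟨sub_nonneg.2 h1, sub_nonneg.2 (pow_le_pow_left₀ (h0 a a.2.le) h1 2)⟩

theorem kern_detPart_true {r : ℕ → ℝ} (hr : IsPath k r) {j : ℕ} (hj : j ≤ k) (x y : CavX m) :
    kern (detPart β m k true r) j x y = β ^ 2 * (spin x.2 * spin y.2) * r j := by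
  rw [kern, ← sum_incr_low (k := k) hr.1 hj, mul_sum]
  simp only [detPart, mul_zero, sum_const_zero, zero_add, lowKer, Fintype.sum_sum_type, Sum.elim_inl,
    Sum.elim_inr, if_true, Fintype.univ_ofSubsingleton, sum_singleton]
  refine sum_congr rfl fun a _ => ?_
  split_ifs
  · linear_combination β ^ 2 * (spin x.2 * spin y.2) * mul_self_sqrt (path_step_nonneg hr a).1
  · simp

theorem kern_detPart_false {r : ℕ → ℝ} (hr : IsPath k r) {j : ℕ} (hj : j ≤ k) (x y : CavX m) :
    kern (detPart β m k false r) j x y = β ^ 2 / 2 * r j ^ 2 := by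
  rw [kern, ← sum_incr_low (k := k) (x := fun l => r l ^ 2) (by simp [hr.1]) hj, mul_sum]
  simp only [detPart, mul_zero, sum_const_zero, zero_add, lowKer, Fintype.sum_sum_type, Sum.elim_inl,
    Sum.elim_inr, Bool.false_eq_true, if_false, Fintype.univ_ofSubsingleton, sum_singleton]
  refine sum_congr rfl fun a _ => ?_
  split_ifs
  · rw [div_mul_eq_mul_div, div_mul_div_comm, mul_mul_mul_comm,
      mul_self_sqrt (show (0 : ℝ) ≤ 2 by norm_num), mul_self_sqrt (path_step_nonneg hr a).2]
    ring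
  · simp

theorem orth_cav (β : ℝ) (m k : ℕ) (σ : ℕ → ℝ) (side : Bool) (r : ℕ → ℝ) :
    Orth (baseSys β m k σ) (randPart β m k side) (detPart β m k side r) := by
  refine ⟨fun e x y => ?_, fun a i x y => ?_⟩
  · rcases e with e | e | e <;> simp [baseSys, randPart, detPart]
  · rcases i with i | i <;> simp [baseSys, randPart, detPart]

instance cavLaw_isProb (m : ℕ) : IsProbabilityMeasure (cavLaw m) := by
  unfold cavLaw; infer_instance

/-- The random one-site terms may be replaced by their kernels. -/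
theorem cavity_of (hI : InterpStmt) : CavityStmt := by
  intro β m k σ r side e hm hr he
  refine gval_diff_le hI _ _ _ (orth_cav β m k σ side r) fun θ => ?_
  set M : ℝ := β ^ 2 / ((m : ℝ) + 1) with hM
  set S := (baseSys β m k σ).path (randPart β m k side) (detPart β m k side r) θ
  have hm1 : (0 : ℝ) < (m : ℝ) + 1 := by positivity
  have hrk : ∀ j, j ≤ k → |r j| ≤ 1 := fun j hj => by
    have h := Vale.Agent.P157.Cube2.isPath_mem hr hj
    rw [abs_le]; constructor <;> linarith [h.1, h.2]
  have hdiag : ∀ x : CavX m,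
      |(kern (detPart β m k side r) k x x - kern (randPart β m k side) k x x) / 2
        + (detPart β m k side r).H x - (randPart β m k side).H x| ≤ M / 2 := fun x => by
    have hM2 : M / 2 = β ^ 2 / (2 * ((m : ℝ) + 1)) := by rw [hM, div_div]; ring_nf
    cases side
    · rw [kern_detPart_false hr le_rfl, kern_randPart_false hm, ov_self hm]
      simp only [detPart, randPart, Bool.false_eq_true, if_false]
      rw [show (β ^ 2 / 2 * r k ^ 2 - (β ^ 2 / 2 * (m / ((m : ℝ) + 1)) * 1 ^ 2
          - β ^ 2 / (2 * ((m : ℝ) + 1)))) / 2 + β ^ 2 / 4 * (1 - r k ^ 2) - 0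
          = β ^ 2 / (2 * ((m : ℝ) + 1)) by field_simp; ring, hM2, abs_of_nonneg (by positivity)]
    · rw [kern_detPart_true hr le_rfl, kern_randPart_true, ov_self hm, spin_mul_self]
      simp only [detPart, randPart, if_true]
      rw [show (β ^ 2 * 1 * r k - β ^ 2 * (m / ((m : ℝ) + 1)) * 1 * 1) / 2
          + β ^ 2 / 2 * (1 - r k) - 0 = β ^ 2 / (2 * ((m : ℝ) + 1)) by field_simp; ring, hM2,
        abs_of_nonneg (by positivity)]
  have hpair : ∀ j ∈ Icc 0 k, ∀ x y : CavX m,
      |kern (detPart β m k side r) j x y - kern (randPart β m k side) j x y|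
        ≤ β ^ 2 * |ov x y - r j| + M := fun j hj x y => by
    obtain ⟨-, hjk⟩ := mem_Icc.1 hj
    have ho := abs_ov_le x y
    have hr1 := hrk j hjk
    cases side
    · rw [kern_detPart_false hr hjk, kern_randPart_false hm,
        show β ^ 2 / 2 * r j ^ 2 - (β ^ 2 / 2 * (m / ((m : ℝ) + 1)) * ov x y ^ 2
          - β ^ 2 / (2 * ((m : ℝ) + 1))) = β ^ 2 * (-(ov x y - r j)) * ((ov x y + r j) / 2)
            + M * ((ov x y ^ 2 + 1) / 2) by rw [hM]; field_simp; ring]
      refine (abs_add_le _ _).trans (add_le_add ?_ ?_)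
      · rw [abs_mul, abs_mul, abs_neg, abs_of_nonneg (sq_nonneg β)]
        refine mul_le_of_le_one_right (by positivity) ?_
        rw [abs_div, abs_two, div_le_one two_pos]
        linarith [abs_add_le (ov x y) (r j)]
      · rw [abs_mul, abs_of_nonneg (by positivity : 0 ≤ M)]
        refine mul_le_of_le_one_right (by positivity) ?_
        rw [abs_of_nonneg (by positivity), div_le_one two_pos]
        nlinarith [sq_le_one_iff_abs_le_one _ |>.2 ho]
    · rw [kern_detPart_true hr hjk, kern_randPart_true,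
        show β ^ 2 * (spin x.2 * spin y.2) * r j
          - β ^ 2 * (m / ((m : ℝ) + 1)) * (spin x.2 * spin y.2) * ov x y
          = (spin x.2 * spin y.2) * (β ^ 2 * (-(ov x y - r j)) + M * ov x y) by
            rw [hM]; field_simp; ring, abs_mul, abs_mul (spin x.2), spin_abs, spin_abs, one_mul,
        one_mul]
      refine (abs_add_le _ _).trans (add_le_add ?_ ?_)
      · rw [abs_mul, abs_neg, abs_of_nonneg (sq_nonneg β)]
      · rw [abs_mul, abs_of_nonneg (by positivity : 0 ≤ M)]
        exact mul_le_of_le_one_right (by positivity) ho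
  have h1 : |gcnd S (cavLaw m) (fun x => (kern (detPart β m k side r) k x x
      - kern (randPart β m k side) k x x) / 2
        + (detPart β m k side r).H x - (randPart β m k side).H x)| ≤ M / 2 :=
    gcnd_abs_le S hdiag
  have h2 : |mass k / 2 * ∑ j ∈ Icc 0 k, gpair S (cavLaw m) j
      fun x y => kern (detPart β m k side r) j x y - kern (randPart β m k side) j x y|
      ≤ β ^ 2 * e / 2 + M / 2 := by
    rw [abs_mul, abs_of_nonneg (by have := mass_pos (k := k); positivity)]
    calc mass k / 2 * |∑ j ∈ Icc 0 k, gpair S (cavLaw m) j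
          fun x y => kern (detPart β m k side r) j x y - kern (randPart β m k side) j x y|
        ≤ mass k / 2 * ∑ j ∈ Icc 0 k,
            (β ^ 2 * gpair S (cavLaw m) j (fun x y => |ov x y - r j|) + M) :=
          mul_le_mul_of_nonneg_left ((abs_sum_le_sum_abs _ _).trans
            (sum_le_sum fun j hj => gpair_abs_le S j (hpair j hj)))
            (by have := mass_pos (k := k); positivity)
      _ = β ^ 2 * cavErr β m k σ side r θ / 2 + M / 2 := by
          rw [sum_add_distrib, ← mul_sum, sum_const, Nat.card_Icc, nsmul_eq_mul, cavErr]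
          simp only [cavSys, S, mass]
          push_cast
          field_simp
      _ ≤ _ := by linarith [mul_le_mul_of_nonneg_left (he θ) (sq_nonneg β)]
  have h3 : M ≤ β ^ 2 / m := by
    rw [hM]
    exact div_le_div_of_nonneg_left (sq_nonneg β) (by exact_mod_cast hm) (by linarith)
  have he0 : 0 ≤ e := le_trans (mul_nonneg (mass_pos (k := k)).le (sum_nonneg fun j _ =>
    ((gpair_affine S j 0 0 fun _ _ => (0 : ℝ)).trans (by simp)).ge.trans
      (gpair_mono S j fun x y => by simp))) (he θ)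
  have h4 : 0 ≤ β ^ 2 * e := by positivity
  rw [bracket]
  refine (abs_sub _ _).trans ?_
  linarith

end Vale.Agent.P146.Sup
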