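import Vale.Agent.P146.Sup.Maps
import Vale.Agent.P146.Sup.Cavity
import Vale.Agent.P157.Cube2.Product

/-!
# P146, superconcentration: with deterministic kernels the recursion splits
-/

open MeasureTheory ProbabilityTheory Real Finset
open Vale.Agent.P157.Rsb
open Vale.Agent.P157 (cubeLaw coin)
open Vale.Agent.P157.Cube2 (spinsH accV accV_put accV_zero spins_val spinF spinG SpinLaw sgn)
open Vale.Agent.P150 (Edge spin stdPi)

namespace Vale.Agent.P146.Sup

/-- Summation by parts against the levels. -/
theorem sum_lev_parts (x : ℕ → ℝ) (h0 : x 0 = 0) (k j : ℕ) :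
    ∑ i ∈ range j, lev k (i + 1) * (x (i + 1) - x i)
      = lev k (j + 1) * x j - mass k * ∑ l ∈ Icc 1 j, x l := by
  induction j with
  | zero => simp [h0]
  | succ j ih =>
    rw [sum_range_succ, ih, sum_Icc_succ_top (by omega), lev_succ (j + 1)]
    ring

/-- The recursion of a linear Hamiltonian without spins. -/
theorem val_linear {k : ℕ} {X : Type} [MeasurableSpace X] (μ : Measure X) [IsProbabilityMeasure μ]
    (b : ℕ → ℝ) (C : ℝ) {j : ℕ} (hj : j ≤ k) :
    ∀ z : Fin k → Unit → ℝ,
      val (stdG Unit) μ (fun z _ => ∑ l : Fin k, b (l + 1) * z l () + C) j z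
        = accV (n := 1) (fun l (y : Unit → ℝ) _ => b l * y ()) j z 0
          + (C + ∑ i ∈ Ico j k, lev k (i + 1) * (b (i + 1) ^ 2 / 2)) := by
  refine Vale.Agent.P157.Cube2.spinF_induction (P := fun j => ∀ z : Fin k → Unit → ℝ,
      val (stdG Unit) μ (fun z _ => ∑ l : Fin k, b (l + 1) * z l () + C) j z
        = accV (n := 1) (fun l (y : Unit → ℝ) _ => b l * y ()) j z 0
          + (C + ∑ i ∈ Ico j k, lev k (i + 1) * (b (i + 1) ^ 2 / 2))) ?_ ?_ hj
  · intro z
    rw [val_top]
    simp only [integral_const, probReal_univ, one_smul, log_exp, Ico_self, sum_empty, add_zero]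
    congr 1
    exact sum_congr rfl fun a _ => by rw [if_pos a.2]
  · intro j hj1 hjk ih z
    rw [val_step hj1 hjk]
    simp only [ih, accV_put z hj1 hjk]
    set M := lev k j
    set A := accV (n := 1) (fun l (y : Unit → ℝ) _ => b l * y ()) (j - 1) z 0
    set T := C + ∑ i ∈ Ico j k, lev k (i + 1) * (b (i + 1) ^ 2 / 2) with hT
    have hM : M ≠ 0 := (lev_pos hj1).ne'
    have hg : ∫ y, exp (M * (A + b j * y () + T)) ∂stdG Unit = exp (M * (A + T) + (M * b j) ^ 2 / 2) := by
      have he : MeasurePreserving (fun y : Unit → ℝ => y ()) (stdG Unit) (gaussianReal 0 1) :=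
        measurePreserving_eval (fun _ : Unit => gaussianReal 0 1) ()
      have e : ∀ y : Unit → ℝ, exp (M * (A + b j * y () + T))
          = (fun u => exp (M * (A + T)) * exp (M * b j * u)) (y ()) := fun y => by
        dsimp only; rw [← exp_add]; ring_nf
      simp only [e]
      rw [← integral_map (φ := fun y : Unit → ℝ => y ())
        (f := fun u => exp (M * (A + T)) * exp (M * b j * u)) he.measurable.aemeasurable (by fun_prop),
        he.map_eq, integral_const_mul, Vale.Agent.P157.Cube2.integral_exp_mul, ← exp_add]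
    rw [hg, log_exp, show j - 1 = j - 1 from rfl, sum_eq_sum_Ico_succ_bot (show j - 1 < k by omega),
      show j - 1 + 1 = j by omega, hT]
    field_simp
    ring

variable {m k : ℕ}

/-- The old spins with their couplings and fields. -/
noncomputable def oldSys (β : ℝ) (m k : ℕ) (σ : ℕ → ℝ) : GSys (CavE m) (Fin m) (Fin m → Bool) k where
  A e x := (baseSys β m k σ).A e (x, true)
  B a i x := σ (a + 1) * spin (x i)
  H _ := -(pertSq k σ) / 2 * m

/-- The new site with the deterministic kernel. -/
noncomputable def newSys (β : ℝ) (m k : ℕ) (side : Bool) (r : ℕ → ℝ) : GSys (Fin 0) Unit Bool k where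
  A _ _ := 0
  B a _ b := (detPart β m k side r).B a (.inr ()) (fun _ => true, b)
  H b := (detPart β m k side r).H (fun _ => true, b)

/-- Independent fields and spins split the recursion. -/
theorem val_pair {ι ι' X X' : Type} [Fintype ι] [Fintype ι'] [MeasurableSpace X] [MeasurableSpace X']
    {μ : Measure X} {μ' : Measure X'} [IsProbabilityMeasure μ] [IsProbabilityMeasure μ'] {k : ℕ}
    (H : (Fin k → ι → ℝ) → X → ℝ) (K : (Fin k → ι' → ℝ) → X' → ℝ) (hH : LinB (gaussSize ι) H)
    (hK : LinB (gaussSize ι') K) :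
    val (stdG (ι ⊕ ι')) (μ.prod μ')
        (fun z x => H (fun i u => z i (.inl u)) x.1 + K (fun i u => z i (.inr u)) x.2) 0 (fun _ _ => 0)
      = val (stdG ι) μ H 0 (fun _ _ => 0) + val (stdG ι') μ' K 0 (fun _ _ => 0) := by
  let w : Size ((stdG ι).prod (stdG ι')) :=
    { w := fun y => (gaussSize ι).w y.1 + (gaussSize ι').w y.2
      meas := ((gaussSize ι).meas.comp measurable_fst).add ((gaussSize ι').meas.comp measurable_snd)
      nonneg := fun y => add_nonneg ((gaussSize ι).nonneg _) ((gaussSize ι').nonneg _)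
      int := fun c => by
        simp only [mul_add, exp_add]
        exact ((gaussSize ι).int c).mul_prod ((gaussSize ι').int c) }
  let HK : (Fin k → (ι → ℝ) × (ι' → ℝ)) → X × X' → ℝ :=
    fun z x => H (fun i => (z i).1) x.1 + K (fun i => (z i).2) x.2
  have hHK : LinB w HK := by
    obtain ⟨m1, A1, hA1, b1⟩ := hH
    obtain ⟨m2, A2, hA2, b2⟩ := hK
    refine ⟨(m1.comp (((measurable_pi_lambda _ fun i => measurable_fst.comp (measurable_pi_apply i)).comp
        measurable_fst).prodMk (measurable_fst.comp measurable_snd))).add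
      (m2.comp (((measurable_pi_lambda _ fun i => measurable_snd.comp (measurable_pi_apply i)).comp
        measurable_fst).prodMk (measurable_snd.comp measurable_snd))), A1 + A2, by linarith, fun z x => ?_⟩
    have t1 : (gaussSize ι).tot (fun i => (z i).1) ≤ w.tot z :=
      sum_le_sum fun i _ => le_add_of_nonneg_right ((gaussSize ι').nonneg _)
    have t2 : (gaussSize ι').tot (fun i => (z i).2) ≤ w.tot z :=
      sum_le_sum fun i _ => le_add_of_nonneg_left ((gaussSize ι).nonneg _)
    refine (abs_add_le _ _).trans ((add_le_add (b1 _ _) (b2 _ _)).trans ?_)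
    nlinarith
  have hF : MeasurePreserving (fun y : ι ⊕ ι' → ℝ =>
      ((fun i => y (.inl i), fun u => y (.inr u)) : (ι → ℝ) × (ι' → ℝ)))
      (stdG (ι ⊕ ι')) ((stdG ι).prod (stdG ι')) :=
    measurePreserving_sumPiEquivProdPi (fun _ : ι ⊕ ι' => gaussianReal 0 1)
  exact ((val_map (H := HK) hF (MeasurePreserving.id (μ.prod μ')) hHK 0 (fun _ _ => 0)).1).trans
    (val_prod (μ := μ) (μ' := μ') (H := H) (K := K) hH hK 0
      (fun _ => ((fun _ => 0, fun _ => 0) : (ι → ℝ) × (ι' → ℝ)))).1

theorem split_val (β : ℝ) (m k : ℕ) (σ r : ℕ → ℝ) (side : Bool) (g : CavE m → ℝ) :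
    val (stdG (FieldIdx m)) (cavLaw m) ((cavSys β m k σ side r (π / 2)).ham g) 0 (fun _ _ => 0)
      = val (stdG (Fin m)) (cubeLaw m) ((oldSys β m k σ).ham g) 0 (fun _ _ => 0)
        + val (stdG Unit) coin ((newSys β m k side r).ham 0) 0 (fun _ _ => 0) := by
  rw [show (cavSys β m k σ side r (π / 2)).ham g = fun z x =>
      (oldSys β m k σ).ham g (fun i u => z i (.inl u)) x.1
      + (newSys β m k side r).ham 0 (fun i u => z i (.inr u)) x.2 from ?_]
  · exact val_pair (μ := cubeLaw m) (μ' := coin) _ _ (ham_linB (oldSys β m k σ) g)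
      (ham_linB (newSys β m k side r) 0)
  funext z x
  simp only [cavSys, GSys.ham, GSys.path, baseSys, randPart, detPart, oldSys, newSys, linZ,
    cos_pi_div_two, sin_pi_div_two, one_mul, zero_mul, add_zero, zero_add, mul_zero, one_pow, ne_eq,
    OfNat.ofNat_ne_zero, not_false_eq_true, zero_pow, Fintype.sum_sum_type, Sum.elim_inl, Sum.elim_inr,
    sum_const_zero, sum_add_distrib, univ_eq_empty]
  ring

/-- The new spin gives one spin along the path. -/
theorem new_true (β : ℝ) (m : ℕ) {k : ℕ} {r : ℕ → ℝ} (hr : IsPath k r) :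
    val (stdG Unit) coin ((newSys β m k true r).ham 0) 0 (fun _ _ => 0)
      = spinF k (scale β r) 0 0 + β ^ 2 / 2 * (1 - r k) := by
  set ψ : ℕ → (Unit → ℝ) → Fin 1 → ℝ := fun l y _ => β * √(r l - r (l - 1)) * y () with hψ
  set C := β ^ 2 / 2 * (1 - r k)
  have hlaw : SpinLaw k ψ (fun l => β * √(r l - r (l - 1))) (scale β r) := by
    intro l h1 h2
    refine ⟨?_, fun F hF => ?_⟩
    · have h := hr.2.1 (l - 1) (by omega)
      rw [show l - 1 + 1 = l by omega] at h
      simp only [scale, mul_pow, sq_sqrt (sub_nonneg.2 h)]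
      ring
    · have hm := mp_comp_inj (gaussianReal 0 1) (f := fun _ : Fin 1 => ())
        (fun a b _ => Subsingleton.elim a b)
      have hF' : Measurable fun w : Fin 1 → ℝ => F fun i => β * √(r l - r (l - 1)) * w i :=
        hF.comp (by fun_prop)
      rw [show stdG (Fin 1) = (stdG Unit).map (fun g : Unit → ℝ => g ∘ fun _ : Fin 1 => ()) from
        hm.map_eq.symm, integral_map hm.measurable.aemeasurable hF'.aestronglyMeasurable]
      rfl
  have h := (spins_val (C := C) hlaw (Nat.zero_le k) (fun _ _ => 0)).1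
  simp only [Fin.sum_univ_one, accV_zero] at h
  rw [← h]
  have hG : MeasurePreserving (fun x : Fin 1 → Bool => x 0) (cubeLaw 1) coin :=
    measurePreserving_eval (fun _ : Fin 1 => coin) 0
  have e : spinsH (k := k) ψ C = fun z x => (newSys β m k true r).ham 0 (fun i => id (z i)) (x 0) := by
    funext z x
    simp only [spinsH, hψ, GSys.ham, newSys, detPart, linZ, Fin.sum_univ_one, univ_eq_empty, sum_empty,
      add_zero, Sum.elim_inr, if_true, Fintype.univ_ofSubsingleton, sum_singleton, mul_sum, id_eq,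
      Nat.add_sub_cancel]
    congr 1
    refine sum_congr rfl fun a _ => ?_
    show spin (x 0) * _ = _
    ring
  rw [e, (val_map (MeasurePreserving.id _) hG (ham_linB (newSys β m k true r) 0) 0 _).1]
  rfl

/-- The correction of the temperature gives a quadratic term. -/
theorem new_false (β : ℝ) (m : ℕ) {k : ℕ} {r : ℕ → ℝ} (hr : IsPath k r) :
    val (stdG Unit) coin ((newSys β m k false r).ham 0) 0 (fun _ _ => 0)
      = β ^ 2 / 4 * (1 - mass k * ∑ l ∈ Icc 1 k, r l ^ 2) := by
  set b : ℕ → ℝ := fun l => β / √2 * √(r l ^ 2 - r (l - 1) ^ 2) with hb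
  have e : (newSys β m k false r).ham 0
      = fun z (_ : Bool) => ∑ l : Fin k, b (l + 1) * z l () + β ^ 2 / 4 * (1 - r k ^ 2) := by
    funext z x
    simp only [GSys.ham, newSys, detPart, linZ, univ_eq_empty, sum_empty, add_zero, Sum.elim_inr,
      Bool.false_eq_true, if_false, Fintype.univ_ofSubsingleton, sum_singleton, hb, Nat.add_sub_cancel]
    congr 1
    exact sum_congr rfl fun a _ => by ring
  rw [e, val_linear coin b _ (Nat.zero_le k), accV_zero, zero_add, Nat.Ico_zero_eq_range]
  have h2 : ∀ i ∈ range k, lev k (i + 1) * (b (i + 1) ^ 2 / 2)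
      = β ^ 2 / 4 * (lev k (i + 1) * (r (i + 1) ^ 2 - r i ^ 2)) := fun i hi => by
    simp only [hb, Nat.add_sub_cancel, mul_pow, div_pow, sq_sqrt (zero_le_two : (0 : ℝ) ≤ 2),
      sq_sqrt (path_step_nonneg hr ⟨i, mem_range.1 hi⟩).2]
    ring
  rw [sum_congr rfl h2, ← mul_sum, sum_lev_parts (fun l => r l ^ 2) (by simp [hr.1]) k k, lev_top]
  ring

/-- With deterministic kernels the gain is the functional. -/
theorem split : SplitStmt := by
  intro β m k σ r hr
  simp only [gval, split_val]
  rw [integral_add (integrable_val_root _) (integrable_const _),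
    integral_add (integrable_val_root _) (integrable_const _), new_true β m hr, new_false β m hr]
  simp only [integral_const, probReal_univ, one_smul, parisiP, spinG, scale]
  ring

end Vale.Agent.P146.Sup
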