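import Vale.Agent.P146.Sup.CaseIISteps
import Vale.Agent.P146.Sup.Split

/-!
# P146, superconcentration: small parameters below the overlap

`caseII_of : CorrStmt → CaseIIStmt`.  On a fine grid the levels up to `v` get the first parameter and the
levels above keep their own.  Above `v` the copies are independent, below `v` the first parameter is
negligible, so the bound is twice the functional up to the coupling term.
-/

open MeasureTheory ProbabilityTheory Real Finset
open Vale.Agent.P157.Rsb (lev mass IsPath lev_refine top_div)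
open Vale.Agent.P157.Cube2 (γ₁ hT Pot spinF spinU spinG spinF_top spinF_step spinU_step pot_spinF
  spinF_induction levK_ne)
open Vale.Agent.P157 (coin)

namespace Vale.Agent.P146.Sup

variable {β v t lam : ℝ} {k K r : ℕ} {q : ℕ → ℝ}

/-- The path of the second case. -/
noncomputable def lowPath (v : ℝ) (q : ℕ → ℝ) (r j : ℕ) : ℝ :=
  if j = 0 then 0 else max v (q (j / (r + 1)))

theorem lowPath_pos {j : ℕ} (hj : 1 ≤ j) : lowPath v q r j = max v (q (j / (r + 1))) := by
  simp [lowPath, show j ≠ 0 by omega]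

theorem upPath_step (hq : IsPath k q) {j : ℕ} (hjk : j ≤ k) :
    0 ≤ upPath β v q j - upPath β v q (j - 1) :=
  sub_nonneg.2 (mul_le_mul_of_nonneg_left (max_le_max le_rfl (path_le hq (Nat.sub_le j 1) hjk)) (sq_nonneg β))

theorem isPath_lowPath (hK : K + 1 = (r + 1) * (k + 1)) (hq : IsPath k q) (hv0 : 0 ≤ v) (hv1 : v ≤ 1) :
    IsPath K (lowPath v q r) := by
  refine ⟨by simp [lowPath], fun j hj => ?_, ?_⟩
  · rw [lowPath_pos (show 1 ≤ j + 1 by omega)]
    rcases Nat.eq_zero_or_pos j with h | h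
    · subst h
      simp only [lowPath, if_true]
      exact hv0.trans (le_max_left _ _)
    · rw [lowPath_pos h]
      refine max_le_max le_rfl (path_le hq (Nat.div_le_div_right (Nat.le_succ j)) ?_)
      exact (Nat.div_le_div_right hj).trans (top_div hK).le
  · unfold lowPath
    split_ifs
    · exact zero_le_one
    · rw [top_div hK]; exact max_le hv1 hq.2.2

/-- If the path stays at `v`, nothing is integrated above it. -/
theorem spinF_flat_max (h : ∀ l ≤ k, max v (q l) = v) {j : ℕ} (hj : j ≤ k) :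
    spinF k (upPath β v q) j = fun x => log (cosh x) := by
  refine spinF_induction (P := fun j => spinF k (upPath β v q) j = fun x => log (cosh x)) spinF_top
    (fun j h1 h2 ih => ?_) hj
  rw [spinF_step h1 h2, ih]
  simp only [upPath, h j h2, h (j - 1) ((Nat.sub_le j 1).trans h2), sub_self]
  exact P157.Cube2.hT_zero (levK_ne h1) _

/-- The plain mean below `v` of the value at `v` is below the value at the root. -/
theorem gm_le_root (hq : IsPath k q) {j : ℕ} (hjk : j ≤ k) (x : ℝ) :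
    gm (β ^ 2 * (min (q k) v - min (q j) v)) (spinF k (upPath β v q) j) x
      ≤ spinF k (scale β q) j x := by
  refine spinF_induction (P := fun j => ∀ x, gm (β ^ 2 * (min (q k) v - min (q j) v))
    (spinF k (upPath β v q) j) x ≤ spinF k (scale β q) j x) ?_ ?_ hjk x
  · intro x
    rw [sub_self, mul_zero, gm_zero, spinF_top, spinF_top]
  · intro j h1 h2 ih x
    have hF := pot_spinF (k := k) (r := scale β q) h2
    have hF' := pot_spinF (k := k) (r := upPath β v q) h2
    set a' := upPath β v q j - upPath β v q (j - 1) with ha'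
    set δ := β ^ 2 * (min (q j) v - min (q (j - 1)) v) with hδ
    set w := β ^ 2 * (min (q k) v - min (q j) v) with hw
    have hq1 : q (j - 1) ≤ q j := path_le hq (Nat.sub_le j 1) h2
    have ha0 : 0 ≤ a' := upPath_step hq h2
    have hδ0 : 0 ≤ δ := mul_nonneg (sq_nonneg β) (sub_nonneg.2 (min_le_min_right v hq1))
    have hw0 : 0 ≤ w := mul_nonneg (sq_nonneg β) (sub_nonneg.2 (min_le_min_right v (path_le hq h2 le_rfl)))
    have esum : scale β q j - scale β q (j - 1) = δ + a' := by
      have e : ∀ u : ℝ, min u v + max v u = u + v := fun u => by rw [max_comm, min_add_max]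
      simp only [scale, hδ, ha', upPath]
      linear_combination (-(β ^ 2)) * e (q j) + β ^ 2 * e (q (j - 1))
    have hm : 0 < lev k j := P157.Rsb.lev_pos h1
    rw [spinF_step h1 h2, spinF_step h1 h2, ← ha', esum, ← hT_hT hm hδ0 ha0 hF,
      show β ^ 2 * (min (q k) v - min (q (j - 1)) v) = δ + w by simp only [hδ, hw]; ring]
    by_cases hcase : a' = 0
    · rw [hcase, P157.Cube2.hT_zero hm.ne', P157.Cube2.hT_zero hm.ne', ← gm_gm hδ0 hw0 hF']
      exact (gm_mono (pot_gm hF' w) hF ih x).trans (gm_le_hT hF hm x)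
    · have hwz : w = 0 := by
        rcases lt_or_ge (q j) v with h | h
        · exact absurd (by rw [ha']; simp only [upPath, max_eq_left h.le, max_eq_left (hq1.trans h.le),
            sub_self]) hcase
        · rw [hw, min_eq_right h, min_eq_right (h.trans (path_le hq h2 le_rfl)), sub_self, mul_zero]
      rw [hwz, add_zero]
      have hle : ∀ y, spinF k (upPath β v q) j y ≤ spinF k (scale β q) j y := fun y => by
        have := ih y
        rwa [hwz, gm_zero] at this
      refine (gm_mono (pot_hT hF' hm.ne') (pot_hT hF hm.ne') (fun y => ?_) x).trans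
        (gm_le_hT (pot_hT hF hm.ne') hm x)
      exact div_le_div_of_nonneg_right (log_le_log (P157.Cube2.den_pos hF' y)
        (integral_mono (P157.Cube2.int_wt hF' y) (P157.Cube2.int_wt hF y)
          fun z => exp_le_exp.2 (mul_le_mul_of_nonneg_left (hle _) hm.le))) hm.le

/-- The value of one copy at the root, against the functional. -/
theorem mean_le_root (hq : IsPath k q) (hv0 : 0 ≤ v) :
    gm (β ^ 2 * v) (spinF k (upPath β v q) 0) 0
      ≤ spinF k (scale β q) 0 0 + β ^ 2 * (v - min (q k) v) / 2 := by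
  set F := spinF k (upPath β v q) 0
  have hF : Pot F := pot_spinF (Nat.zero_le k)
  have hw0 : 0 ≤ β ^ 2 * min (q k) v :=
    mul_nonneg (sq_nonneg β) (le_min (P157.Cube2.isPath_mem hq le_rfl).1 hv0)
  have hd0 : 0 ≤ β ^ 2 * (v - min (q k) v) := mul_nonneg (sq_nonneg β) (sub_nonneg.2 (min_le_right _ _))
  set d := β ^ 2 * (v - min (q k) v) with hd
  have hloc : ∀ x, gm d F x ≤ F x + d / 2 := fun x => by
    rcases le_total v (q k) with h | h
    · simp [hd, min_eq_right h, gm_zero]
    · have e : F = fun x => log (cosh x) :=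
        spinF_flat_max (fun l hl => max_eq_left ((path_le hq hl le_rfl).trans h)) (Nat.zero_le k)
      rw [e]; exact gm_logcosh hd0 x
  have h0 := gm_le_root (β := β) (v := v) hq (Nat.zero_le k) 0
  rw [hq.1, min_eq_left hv0, sub_zero] at h0
  rw [show β ^ 2 * v = β ^ 2 * min (q k) v + d by simp only [hd]; ring, ← gm_gm hw0 hd0 hF]
  refine (gm_mono (pot_gm hF d) ⟨hF.diff.add_const _, ?_, fun y => ?_⟩ hloc 0).trans ?_
  · rw [show deriv (fun x => F x + d / 2) = deriv F from funext fun y => deriv_add_const _]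
    exact hF.dcont
  · rw [deriv_add_const]; exact hF.dle y
  · rw [gm_add_const hF]; linarith

/-- Above `v` the copies keep the coupled shape. -/
theorem twoY_low (hK : K + 1 = (r + 1) * (k + 1)) (hq : IsPath k q) (hv0 : 0 ≤ v) (hv1 : v ≤ 1)
    (ht : t ∈ Set.Icc (0 : ℝ) 1) (hlam : 0 ≤ lam) {j : ℕ} (h1 : 1 ≤ j) (hjK : j ≤ K) (x : ℝ × ℝ) :
    twoY K β t v (lowPath v q r) lam j x
      ≤ spinF k (upPath β v q) (j / (r + 1)) x.1 + spinF k (upPath β v q) (j / (r + 1)) x.2 + lam ^ 2 / 2
        + log (1 + tanh lam * (spinU k (upPath β v q) (j / (r + 1)) x.1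
            * spinU k (upPath β v q) (j / (r + 1)) x.2)) := by
  induction hd : K - j generalizing j x with
  | zero =>
    rw [show j = K by omega, twoY_top, top_div hK]
    simp only [spinF_top, spinU, P157.Cube2.deriv_logcosh]
    exact top2_le lam x
  | succ d ih =>
    have hQ := isPath_lowPath hK hq hv0 hv1
    have hj : j + 1 ≤ K := by omega
    have hih := fun y => ih (show 1 ≤ j + 1 by omega) hj y (show K - (j + 1) = d by omega)
    have hL := lip2_twoY (β := β) (v := v) (lam := lam) hQ ht hj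
    have hst := twoY_step (β := β) (t := t) (v := v) (Q := lowPath v q r) (lam := lam)
      (show 1 ≤ j + 1 by omega) hj
    simp only [Nat.add_sub_cancel] at hst
    rw [hst]
    set r' := upPath β v q with hr'
    have eQ : lowPath v q r (j + 1) = max v (q ((j + 1) / (r + 1))) := lowPath_pos (by omega)
    have eQ' : lowPath v q r j = max v (q (j / (r + 1))) := lowPath_pos h1
    have ec : corrLev t v (lowPath v q r) (j + 1) = 0 := by
      rw [corrLev, Nat.add_sub_cancel, eQ, eQ', min_eq_right (le_max_left _ _),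
        min_eq_right (le_max_left _ _), sub_self, mul_zero, zero_div]
    rw [ec, varLev, Nat.add_sub_cancel, eQ, eQ']
    by_cases hdvd : (r + 1) ∣ (j + 1)
    · set l := j / (r + 1) + 1 with hl
      have hdiv : (j + 1) / (r + 1) = l := by simp [Nat.succ_div, hdvd, hl]
      have hlk : l ≤ k := hdiv ▸ (Nat.div_le_div_right hj).trans (top_div hK).le
      have hm : lev K (j + 1) = lev k l := by
        rw [← hdiv, ← lev_refine hK, Nat.mul_div_cancel' hdvd]
      have hl1 : 1 ≤ l := Nat.le_add_left 1 _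
      have hlm : j / (r + 1) = l - 1 := (Nat.add_sub_cancel _ 1).symm
      rw [hm, hdiv, hlm]
      rw [hdiv] at hih
      have key := T2_coupled (a := r' l - r' (l - 1)) (G := twoY K β t v (lowPath v q r) lam (j + 1))
        (P157.Rsb.lev_pos hl1) (P157.Rsb.lev_le_one (hlk.trans (Nat.le_succ k))) (pot_spinF (k := k) (r := r') hlk)
        (tanh_le_self hlam).1 ((le_abs_self _).trans_lt (abs_tanh_lt_one lam)) hL (c := lam ^ 2 / 2) hih x
      rw [show β ^ 2 * (max v (q l) - max v (q (l - 1))) = r' l - r' (l - 1) by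
        simp only [hr', upPath]; ring]
      refine key.trans (le_of_eq ?_)
      rw [← spinF_step hl1 hlk, ← spinU, ← spinU_step hl1 hlk]
    · have hdiv : (j + 1) / (r + 1) = j / (r + 1) := by simp [Nat.succ_div, hdvd]
      rw [hdiv, sub_self, mul_zero, T2_zero (levK_ne (by omega))]
      have := hih x
      rwa [hdiv] at this

/-- The integral of the parameter below `v` as the area between the path and `v`. -/
theorem lowMass_eq (hq0 : q 0 = 0) (hv0 : 0 ≤ v) :
    lowMass k q v = mass k * ∑ l ∈ range (k + 1), (max v (q l) - q l) := by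
  set x := fun l => min (q l) v with hx
  have hx0 : x 0 = 0 := by simp [hx, hq0, hv0]
  have h := sum_lev_parts x hx0 k k
  rw [P157.Rsb.lev_top, one_mul] at h
  have e1 : ∑ l ∈ Icc 1 k, lev k l * (x l - x (l - 1)) = ∑ i ∈ range k, lev k (i + 1) * (x (i + 1) - x i) := by
    rw [← Finset.Ico_add_one_right_eq_Icc, sum_Ico_eq_sum_range]
    simp [add_comm 1]
  have e2 : ∀ l, max v (q l) - q l = v - x l := fun l => by
    have := min_add_max (q l) v
    rw [max_comm] at this
    simp only [hx]; linarith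
  have e3 : ∑ l ∈ range (k + 1), x l = ∑ l ∈ Icc 1 k, x l := (P157.Cube2.sum_Icc_one hx0).symm
  simp only [lowMass]
  rw [show ∑ l ∈ Icc 1 k, lev k l * (min (q l) v - min (q (l - 1)) v)
    = ∑ l ∈ Icc 1 k, lev k l * (x l - x (l - 1)) from rfl, e1, h]
  simp only [e2, sum_sub_distrib, sum_const, card_range, nsmul_eq_mul, e3, mul_sub]
  have hm : mass k * ((k + 1 : ℕ) : ℝ) = 1 := by unfold mass; push_cast; field_simp
  rw [← mul_assoc, hm, one_mul]
  simp only [hx]
  rcases le_total v (q k) with h' | h'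
  · rw [min_eq_right h', max_eq_right (by linarith)]; ring
  · rw [min_eq_left h', max_eq_left (by linarith)]; ring

theorem sum_lowPath_sq (hK : K + 1 = (r + 1) * (k + 1)) (hq0 : q 0 = 0) (hv0 : 0 ≤ v) :
    mass K * ∑ j ∈ Icc 1 K, (lowPath v q r j ^ 2 + t * min (lowPath v q r j) v ^ 2)
      = mass k * ∑ l ∈ range (k + 1), max v (q l) ^ 2 + t * v ^ 2 - (1 + t) * v ^ 2 * mass K := by
  set g := fun j => max v (q (j / (r + 1))) ^ 2 + t * v ^ 2 with hg
  have e : ∀ j ∈ Icc 1 K, lowPath v q r j ^ 2 + t * min (lowPath v q r j) v ^ 2 = g j := fun j hj => by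
    rw [lowPath_pos (mem_Icc.1 hj).1, min_eq_right (le_max_left _ _)]
  have h1 : ∑ j ∈ range (K + 1), g j = g 0 + ∑ j ∈ Icc 1 K, g j := by
    rw [← Nat.Ico_zero_eq_range, sum_eq_sum_Ico_succ_bot (Nat.succ_pos K), Nat.succ_eq_add_one,
      Finset.Ico_add_one_right_eq_Icc]
  have h2 : ∑ j ∈ range (K + 1), g j
      = ((r : ℝ) + 1) * ∑ l ∈ range (k + 1), max v (q l) ^ 2 + ((K : ℝ) + 1) * (t * v ^ 2) := by
    simp only [hg, sum_add_distrib, sum_const, card_range, nsmul_eq_mul]
    rw [hK, P157.Cube2.sum_blocks r (fun j => max v (q (j / (r + 1))) ^ 2), ← hK]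
    push_cast
    congr 1
    rw [mul_sum]
    refine sum_congr rfl fun p _ => ?_
    rw [sum_congr rfl fun i hi => show max v (q (((r + 1) * p + i) / (r + 1))) ^ 2 = max v (q p) ^ 2 by
      rw [Nat.mul_add_div (by omega), Nat.div_eq_of_lt (mem_range.1 hi), add_zero], sum_const, card_range,
      nsmul_eq_mul]
    push_cast; ring
  have hg0 : g 0 = (1 + t) * v ^ 2 := by simp only [hg, Nat.zero_div, hq0, max_eq_left hv0]; ring
  have hmk : mass K * ((r : ℝ) + 1) = mass k := by
    have : ((K : ℝ) + 1) = ((r : ℝ) + 1) * ((k : ℝ) + 1) := by exact_mod_cast hK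
    simp only [mass, this]; field_simp
  have hm1 : mass K * ((K : ℝ) + 1) = 1 := by unfold mass; field_simp
  rw [sum_congr rfl e]
  linear_combination (-mass K) * h1 + mass K * h2 - mass K * hg0
    + (∑ l ∈ range (k + 1), max v (q l) ^ 2) * hmk + t * v ^ 2 * hm1

/-- The constant of the outer step. -/
noncomputable def outC (β : ℝ) : ℝ := symC (P157.Rsb.gaussSize (Fin 3)) (4 * (β ^ 2 + 1))

/-- The recursion at the root, against one copy and the correlation at `v`. -/
theorem twoY_root (hβ : 0 ≤ β) (hK : K + 1 = (r + 1) * (k + 1)) (hr : 1 ≤ r) (hK1 : 1 ≤ K)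
    (hq : IsPath k q) (hv0 : 0 ≤ v) (hv1 : v ≤ 1) (ht : t ∈ Set.Icc (0 : ℝ) 1) (hlam : 0 ≤ lam) :
    twoY K β t v (lowPath v q r) lam 0 (0, 0)
      ≤ 2 * gm (β ^ 2 * v) (spinF k (upPath β v q) 0) 0 + lam ^ 2 / 2
        + tanh lam * magCorr β k t v q + 4 * outC β * (β ^ 2 * v) * mass K := by
  set Q := lowPath v q r with hQdef
  have hQ : IsPath K Q := isPath_lowPath hK hq hv0 hv1
  set m := lev K 1 with hm
  have hmpos : 0 < m := P157.Rsb.lev_pos le_rfl
  set F := spinF k (upPath β v q) 0 with hF'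
  set U := spinU k (upPath β v q) 0 with hU'
  have hF : Pot F := pot_spinF (Nat.zero_le k)
  have hr1 : 1 < r + 1 := Nat.lt_succ_of_le hr
  have hQ0 : Q 0 = 0 := hQ.1
  have hQ1 : Q 1 = v := by
    rw [hQdef, lowPath_pos le_rfl, Nat.div_eq_of_lt hr1, hq.1, max_eq_left hv0]
  have hY := twoY_step (β := β) (t := t) (v := v) (Q := Q) (lam := lam) le_rfl hK1
  simp only [Nat.sub_self] at hY
  have hT2 : twoY K β t v Q lam 0 (0, 0) = T2 m t (β ^ 2 * v) (twoY K β t v Q lam 1) (0, 0) := by
    rw [hY, varLev, Nat.sub_self, hQ1, hQ0, sub_zero, corrLev, Nat.sub_self, hQ1, hQ0, min_self,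
      min_eq_left hv0, sub_zero, ← hm]
    rcases eq_or_ne v 0 with h | h
    · rw [h]; simp only [mul_zero, T2_zero hmpos.ne']
    · rw [mul_div_cancel_right₀ _ h]
  have hL := lip2_twoY (β := β) (v := v) (lam := lam) hQ ht hK1
  have ha : 0 ≤ β ^ 2 * v := mul_nonneg (sq_nonneg β) hv0
  have hva : β ^ 2 * v ≤ β ^ 2 := mul_le_of_le_one_right (sq_nonneg β) hv1
  have hm1 : m ≤ 1 := P157.Rsb.lev_le_one (Nat.le_succ_of_le hK1)
  obtain ⟨hint, hsm⟩ := T2_small (A := β ^ 2) hmpos hm1 ht ha hva hL (0, 0)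
  obtain ⟨hth0, -⟩ := tanh_le_self hlam
  set th := tanh lam with hth
  have hlt : th < 1 := (le_abs_self _).trans_lt (abs_tanh_lt_one lam)
  have hUb : ∀ y, |U y| ≤ 1 := hF.dle
  have hUc : Continuous U := hF.dcont
  have hu2 : ∀ y : ℝ × ℝ, |U y.1 * U y.2| ≤ 1 := fun y => by
    rw [abs_mul]; exact mul_le_one₀ (hUb _) (abs_nonneg _) (hUb _)
  have hpt : ∀ y : ℝ × ℝ, twoY K β t v Q lam 1 y ≤ F y.1 + F y.2 + (lam ^ 2 / 2 + th * (U y.1 * U y.2)) := by
    intro y
    have h := twoY_low (β := β) hK hq hv0 hv1 ht hlam le_rfl hK1 y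
    rw [Nat.div_eq_of_lt hr1] at h
    have hp : 0 < 1 + th * (U y.1 * U y.2) := by nlinarith [(abs_le.1 (hu2 y)).1]
    have hl := log_le_sub_one_of_pos hp
    simp only [← hF', ← hU', ← hth, ← hQdef] at h
    linarith
  have iF1 : Integrable (fun z => F (sh t (β ^ 2 * v) (0, 0) z).1) G3 := by
    simpa using (T2_small (A := β ^ 2) hmpos hm1 ht ha hva (lip2_add hF pot_zero) (0, 0)).1
  have iF2 : Integrable (fun z => F (sh t (β ^ 2 * v) (0, 0) z).2) G3 := by
    simpa using (T2_small (A := β ^ 2) hmpos hm1 ht ha hva (lip2_add pot_zero hF) (0, 0)).1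
  have hUU : Continuous fun y : ℝ × ℝ => U y.1 * U y.2 :=
    (hUc.comp continuous_fst).mul (hUc.comp continuous_snd)
  have iUU : Integrable (fun z => U (sh t (β ^ 2 * v) (0, 0) z).1 * U (sh t (β ^ 2 * v) (0, 0) z).2) G3 :=
    int_bdd hUU hu2 _
  have hFc : Continuous fun y => F (0 + √(β ^ 2 * v) * y) := by have := hF.diff.continuous; fun_prop
  have e1 : ∫ z, F (sh t (β ^ 2 * v) (0, 0) z).1 ∂G3 = gm (β ^ 2 * v) F 0 := by
    simpa [sh, gm] using (integral_cfst ht hFc).1
  have e2 : ∫ z, F (sh t (β ^ 2 * v) (0, 0) z).2 ∂G3 = gm (β ^ 2 * v) F 0 := by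
    simpa [sh, gm] using (integral_cfst ht hFc).2
  have i12 : Integrable (fun z => F (sh t (β ^ 2 * v) (0, 0) z).1 + F (sh t (β ^ 2 * v) (0, 0) z).2) G3 :=
    iF1.add iF2
  have i3 : Integrable (fun z => lam ^ 2 / 2
      + th * (U (sh t (β ^ 2 * v) (0, 0) z).1 * U (sh t (β ^ 2 * v) (0, 0) z).2)) G3 :=
    (integrable_const (μ := G3) (lam ^ 2 / 2)).add (iUU.const_mul th)
  have hP2 : P2 t (β ^ 2 * v) (twoY K β t v Q lam 1) (0, 0)
      ≤ 2 * gm (β ^ 2 * v) F 0 + (lam ^ 2 / 2 + th * magCorr β k t v q) := by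
    refine (integral_mono hint (i12.add i3) fun z => hpt _).trans (le_of_eq ?_)
    simp only [Pi.add_apply]
    rw [integral_add i12 i3, integral_add iF1 iF2, integral_add (integrable_const _) (iUU.const_mul th),
      integral_const_mul, integral_const, probReal_univ, one_smul, e1, e2, ← two_mul]
    rfl
  rw [hT2, ← P157.Rsb.lev_one K, ← hm, outC]
  linarith

/-- The deterministic terms cost a multiple of the integral of the parameter below `v`. -/
theorem penalty_le (hK : K + 1 = (r + 1) * (k + 1)) (hK1 : 1 ≤ K) (hq : IsPath k q) (hv0 : 0 ≤ v)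
    (hv1 : v ≤ 1) (ht0 : 0 ≤ t) :
    β ^ 2 * (1 - lowPath v q r K) - β ^ 2 / 2 * (1 + t * v ^ 2
        - mass K * ∑ j ∈ Icc 1 K, (lowPath v q r j ^ 2 + t * min (lowPath v q r j) v ^ 2))
      ≤ β ^ 2 / 2 * (1 + mass k * ∑ l ∈ Icc 1 k, q l ^ 2) - β ^ 2 * q k + β ^ 2 * lowMass k q v := by
  have hsq : mass k * ∑ l ∈ range (k + 1), max v (q l) ^ 2
      ≤ mass k * ∑ l ∈ Icc 1 k, q l ^ 2 + 2 * lowMass k q v := by
    rw [lowMass_eq hq.1 hv0, P157.Cube2.sum_Icc_one (g := fun l => q l ^ 2) (by simp [hq.1]),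
      mul_left_comm 2, ← mul_add, mul_sum (range (k + 1)) _ (2 : ℝ), ← sum_add_distrib]
    refine mul_le_mul_of_nonneg_left (sum_le_sum fun l hl => ?_) P157.Rsb.mass_pos.le
    obtain ⟨a0, a1⟩ := P157.Cube2.isPath_mem hq (Nat.lt_succ_iff.1 (mem_range.1 hl))
    have b1 : max v (q l) ≤ 1 := max_le hv1 a1
    nlinarith [mul_nonneg (sub_nonneg.2 (le_max_right v (q l)))
      (show (0 : ℝ) ≤ 2 - max v (q l) - q l by linarith)]
  have hmm : 0 ≤ (1 + t) * v ^ 2 * mass K :=
    mul_nonneg (mul_nonneg (by linarith) (sq_nonneg v)) P157.Rsb.mass_pos.le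
  rw [sum_lowPath_sq hK hq.1 hv0, lowPath_pos hK1, top_div hK]
  nlinarith [mul_le_mul_of_nonneg_left hsq (sq_nonneg β), mul_le_mul_of_nonneg_left hmm (sq_nonneg β),
    mul_le_mul_of_nonneg_left (le_max_right v (q k)) (sq_nonneg β)]

/-- The second case. -/
theorem caseII_of (hC : CorrStmt) : CaseIIStmt := by
  intro β hβ
  obtain ⟨C, hC0, hcorr⟩ := hC β hβ
  have hS0 : 0 ≤ outC β := symC_nonneg _ _
  refine ⟨C + 2 * β ^ 2 + 4 * outC β * β ^ 2, ?_⟩
  intro k N q v ε lam hk hmin hN hv0 hv1 hε hε1 hlam _ hlow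
  have hN0 : (0 : ℝ) < N := Nat.cast_pos.2 (Nat.lt_of_lt_of_le two_pos hN)
  have hN1 : (1 : ℝ) ≤ N := Nat.one_le_cast.2 (le_trans one_le_two hN)
  set t : ℝ := 1 - 1 / N with ht
  have ht1 : t ∈ Set.Icc (0 : ℝ) 1 := ⟨by rw [ht, sub_nonneg, div_le_one hN0]; exact hN1,
    by rw [ht]; exact sub_le_self _ (by positivity)⟩
  have hq : IsPath k q := hmin.1
  set r := ⌈1 / ε⌉₊ + 1 with hr
  set K := (r + 1) * (k + 1) - 1 with hKdef
  have hK : K + 1 = (r + 1) * (k + 1) :=
    Nat.succ_pred_eq_of_pos (Nat.mul_pos (Nat.succ_pos r) (Nat.succ_pos k))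
  have hr1 : 1 ≤ r := Nat.le_add_left 1 _
  have hrK : r ≤ K := Nat.le_of_succ_le_succ (by
    rw [Nat.succ_eq_add_one, Nat.succ_eq_add_one, hK]
    exact Nat.le_mul_of_pos_right _ (Nat.succ_pos k))
  have hK1 : 1 ≤ K := hr1.trans hrK
  have hQ := isPath_lowPath hK hq hv0 hv1
  refine ⟨K, lowPath v q r, hK1, hQ, ?_, ?_⟩
  · rw [lowPath_pos hK1]; exact le_max_left _ _
  have hme : mass K ≤ ε := by
    have h1 : 1 / ε ≤ (r : ℝ) := by rw [hr]; push_cast; linarith [Nat.le_ceil (1 / ε)]
    have h2 : (r : ℝ) ≤ (K : ℝ) := Nat.cast_le.2 hrK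
    rw [mass, div_le_iff₀ (by positivity)]
    rw [div_le_iff₀ hε] at h1
    nlinarith
  have hgap : v - min (q k) v ≤ ε := by
    refine le_trans ?_ hlow
    have h1 : ∀ l ∈ Icc 1 k, 0 ≤ lev k l * (min (q l) v - min (q (l - 1)) v) := fun l hl =>
      mul_nonneg (P157.Rsb.lev_nonneg l)
        (sub_nonneg.2 (min_le_min_right v (path_le hq (Nat.sub_le l 1) (mem_Icc.1 hl).2)))
    have h2 : v - min (q k) v = max (v - q k) 0 := by
      rcases le_total v (q k) with h | h
      · rw [min_eq_right h, max_eq_right (by linarith)]; ring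
      · rw [min_eq_left h, max_eq_left (by linarith)]
    simp only [lowMass]
    linarith [sum_nonneg h1]
  have hY := twoY_root hβ.le hK hr1 hK1 hq hv0 hv1 ht1 hlam
  have hP := penalty_le (β := β) hK hK1 hq hv0 hv1 ht1.1
  have hroot := mean_le_root (β := β) hq hv0
  obtain ⟨hth0, hth1⟩ := tanh_le_self hlam
  set e4 := ε ^ (1 / 4 : ℝ)
  have he4 : 0 ≤ e4 := rpow_nonneg hε.le _
  have hc : tanh lam * magCorr β k t v q ≤ lam * (t * v + C * e4) :=
    (mul_le_mul_of_nonneg_left (hcorr k q v t ε hk hmin hv0 hv1 ht1 hε hε1 hlow) hth0).trans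
      (mul_le_mul_of_nonneg_right hth1 (add_nonneg (mul_nonneg ht1.1 hv0) (mul_nonneg hC0 he4)))
  have hb := sq_nonneg β
  have f2 := mul_le_mul_of_nonneg_left hgap hb
  have f5 := mul_le_mul_of_nonneg_left hlow hb
  have f6 : 4 * outC β * (β ^ 2 * v) * mass K ≤ 4 * outC β * β ^ 2 * ε :=
    mul_le_mul (mul_le_mul_of_nonneg_left (mul_le_of_le_one_right hb hv1) (by positivity)) hme
      P157.Rsb.mass_pos.le (by positivity)
  have f7 : lam * (t * v) = lam * v - lam * v / N := by rw [ht]; ring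
  have hle : 0 ≤ lam * e4 := mul_nonneg hlam he4
  have g1 := mul_nonneg hb hle
  have g2 := mul_nonneg (mul_nonneg hS0 hb) hle
  have g3 := mul_nonneg hC0 hε.le
  rw [twoObj, twoSys_val (v := v) hβ.le hQ ht1 lam]
  simp only [parisiP, spinG, scale] at hroot ⊢
  linarith

end Vale.Agent.P146.Sup
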