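import Vale.Agent.P146.Sup.Defs

/-!
# P146, superconcentration: interfaces

`InterpStmt` differentiates a system along a path; `SyncStmt` makes the overlaps of the cavity
systems close to a path; `RateStmt` bounds the free energy from below by the functional of a grid
minimiser with a power rate; `GuerraStmt`, `CaseIStmt` and `CaseIIStmt` bound two correlated copies
at a fixed overlap; `VarStmt` reduces the variance to the overlap of two correlated copies.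
-/

open MeasureTheory ProbabilityTheory Real Finset
open Vale.Agent.P157.Rsb (IsPath mass)
open Vale.Agent.P157 (cubeLaw coin)

namespace Vale.Agent.P146.Sup

/-- The derivative of the mean value along a path. -/
def InterpStmt : Prop :=
  ∀ (E ι X : Type) [Fintype E] [Fintype ι] [Fintype X] [MeasurableSpace X]
    [MeasurableSingletonClass X] (μ : Measure X) [IsProbabilityMeasure μ] (k : ℕ)
    (C P₀ P₁ : GSys E ι X k), Orth C P₀ P₁ → ∀ θ : ℝ,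
    HasDerivAt (fun s => gval (C.path P₀ P₁ s) μ) (2 * sin θ * cos θ * bracket μ C P₀ P₁ θ) θ

/-- One choice of the amplitudes makes all cavity systems replica symmetric at every branch level. -/
def SyncStmt : Prop :=
  ∀ β : ℝ, ∃ (C a : ℝ) (b : ℕ), 0 < a ∧ ∀ (n k : ℕ) (η : ℝ), 1 ≤ n → 1 ≤ k → 0 < η → η ≤ 1 →
    ∃ σ : ℕ → ℝ, (∀ l : Fin k, η ≤ σ (l + 1) ∧ σ (l + 1) ≤ 2 * η) ∧ ∃ e : ℕ → ℝ,
      (∀ m ∈ Ico 1 n, IsPath k (baseQ β m k σ) ∧
        ∀ side θ, cavErr β m k σ side (baseQ β m k σ) θ ≤ e m) ∧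
      ∑ m ∈ Ico 1 n, e m ≤ C * n * (1 / √k + (((k : ℝ) + 1) / η) ^ b / (n : ℝ) ^ a)

/-- The perturbed model is the cavity system with the random one-site terms. -/
def GainStmt : Prop :=
  ∀ (β : ℝ) (k : ℕ) (σ r : ℕ → ℝ),
    (∀ m, 1 ≤ m → pertF β m k σ = gval (cavSys β m k σ false r 0) (cavLaw m) ∧
      |pertF β (m + 1) k σ - gval (cavSys β m k σ true r 0) (cavLaw m)| ≤ pertSq k σ) ∧
    ∀ n, 1 ≤ n → |pertF β n k σ - meanF β n| ≤ n * pertSq k σ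

/-- The random one-site terms may be replaced by their kernels. -/
def CavityStmt : Prop :=
  ∀ (β : ℝ) (m k : ℕ) (σ r : ℕ → ℝ) (side : Bool) (e : ℝ), 1 ≤ m → IsPath k r →
    (∀ θ, cavErr β m k σ side r θ ≤ e) →
    |gval (cavSys β m k σ side r (π / 2)) (cavLaw m) - gval (cavSys β m k σ side r 0) (cavLaw m)|
      ≤ β ^ 2 * e + β ^ 2 / m

/-- With deterministic kernels the gain is the functional. -/
def SplitStmt : Prop :=
  ∀ (β : ℝ) (m k : ℕ) (σ r : ℕ → ℝ), IsPath k r →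
    gval (cavSys β m k σ true r (π / 2)) (cavLaw m) - gval (cavSys β m k σ false r (π / 2)) (cavLaw m)
      = parisiP β k r

/-- The lower half of the Parisi formula with a power rate. -/
def RateStmt : Prop :=
  ∀ β : ℝ, 0 < β → ∃ a C : ℝ, 0 < a ∧ ∀ n : ℕ, 1 ≤ n → ∃ (k : ℕ) (q : ℕ → ℝ),
    1 ≤ k ∧ IsMinPath β k q ∧ n * parisiP β k q - C * (n : ℝ) ^ (1 - a) ≤ meanF β n

/-- The bound on two copies at overlap `v`. -/
def GuerraStmt : Prop :=
  ∀ (β : ℝ) (n K : ℕ) (t v w lam : ℝ) (Q : ℕ → ℝ), 1 ≤ n → 1 ≤ K → IsPath K Q → 0 ≤ v → v ≤ 1 →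
    v ≤ Q K → 0 ≤ t → t ≤ 1 → 0 ≤ w → (bin n v w).Nonempty →
    binF β n t v w ≤ n * twoObj K β t v Q lam + n * |lam| * w + n * β ^ 2 * w ^ 2 / 2 + 2 * β ^ 2

/-- A parameter of positive integral below `v` gives a deficit. -/
def CaseIStmt : Prop :=
  ∀ β : ℝ, 0 < β → ∃ c : ℝ, 0 < c ∧ ∀ (k N : ℕ) (q : ℕ → ℝ) (v : ℝ), 1 ≤ k → IsPath k q → 2 ≤ N →
    0 ≤ v → v ≤ 1 → ∃ (K : ℕ) (Q : ℕ → ℝ), 1 ≤ K ∧ IsPath K Q ∧ v ≤ Q K ∧
      twoObj K β (1 - 1 / N) v Q 0 ≤ 2 * parisiP β k q - c / N * lowMass k q v ^ 2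

/-- A small parameter below `v` makes the copies decorrelate, by stationarity. -/
def CaseIIStmt : Prop :=
  ∀ β : ℝ, 0 < β → ∃ C : ℝ, ∀ (k N : ℕ) (q : ℕ → ℝ) (v ε lam : ℝ), 1 ≤ k → IsMinPath β k q → 2 ≤ N →
    0 ≤ v → v ≤ 1 → 0 < ε → ε ≤ 1 → 0 ≤ lam → lam ≤ 1 → lowMass k q v ≤ ε →
    ∃ (K : ℕ) (Q : ℕ → ℝ), 1 ≤ K ∧ IsPath K Q ∧ v ≤ Q K ∧
      twoObj K β (1 - 1 / N) v Q lam
        ≤ 2 * parisiP β k q + lam ^ 2 / 2 - lam * v / N + C * (lam * ε ^ (1 / 4 : ℝ) + ε)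

/-- The variance through the overlap of two correlated copies. -/
def VarStmt : Prop :=
  ∀ (β : ℝ) (n : ℕ) (t : ℝ), 1 ≤ n → 0 ≤ t → t ≤ 1 →
    freeVar n β ≤ 2 * β ^ 2 * n * pairMean β n t (fun u => u ^ 2) + 2 * β ^ 2 * n * (1 - t)

/-- The hand-in: the variance is smaller than the volume by a power. -/
def SuperStmt : Prop :=
  ∀ β : ℝ, 0 < β → ∃ c C : ℝ, 0 < c ∧ ∀ n : ℕ, 1 ≤ n → freeVar n β ≤ C * (n : ℝ) ^ (1 - c)

end Vale.Agent.P146.Sup
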