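import Vale.Agent.P146.Sup.Step2
import Vale.Agent.P146.Sup.Pins

/-!
# P146, superconcentration: the path above a level, interface of the second case
-/

open MeasureTheory ProbabilityTheory Real Finset
open Vale.Agent.P157.Cube2 (spinU)

namespace Vale.Agent.P146.Sup

/-- The variances of a path from `v` on; only the increments enter the recursion. -/
noncomputable def upPath (β v : ℝ) (q : ℕ → ℝ) (l : ℕ) : ℝ := β ^ 2 * max v (q l)

/-- The correlation of the magnetisations at `v` of two copies with correlation `t`. -/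
noncomputable def magCorr (β : ℝ) (k : ℕ) (t v : ℝ) (q : ℕ → ℝ) : ℝ :=
  P2 t (β ^ 2 * v) (fun x => spinU k (upPath β v q) 0 x.1 * spinU k (upPath β v q) 0 x.2) (0, 0)

/-- Small parameters below `v` at a minimiser: the correlation of the magnetisations is at most `t v`. -/
def CorrStmt : Prop :=
  ∀ β : ℝ, 0 < β → ∃ C : ℝ, 0 ≤ C ∧ ∀ (k : ℕ) (q : ℕ → ℝ) (v t ε : ℝ), 1 ≤ k → IsMinPath β k q →
    0 ≤ v → v ≤ 1 → t ∈ Set.Icc (0 : ℝ) 1 → 0 < ε → ε ≤ 1 → lowMass k q v ≤ ε →
    magCorr β k t v q ≤ t * v + C * ε ^ (1 / 4 : ℝ)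

end Vale.Agent.P146.Sup
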