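import Vale.Agent.P146.Sup.Step2

/-!
# P146, superconcentration: plain averages against tilted ones

`pA a φ` averages `φ` over a Gaussian of variance `a`.  A tilt of parameter `m` moves the average of
a Lipschitz function by `O (m a)`.  For an odd `U` the mean square of the average over the last
`b - s` of a variance `b` is at most `s / b` times the mean square of `U`.
-/

open MeasureTheory ProbabilityTheory Real Filter Topology Finset
open Vale.Agent.P157.Cube2 (γ₁ Pot Bd tE num den tE_add tE_mono tE_const tE_const_mul int_exp_abs)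

namespace Vale.Agent.P146.Sup

/-- The average over a Gaussian of variance `a`. -/
noncomputable def pA (a : ℝ) (φ : ℝ → ℝ) : ℝ → ℝ := tE 0 a (fun _ => 0) φ

variable {a b s δ m L : ℝ} {f φ ψ : ℝ → ℝ}

theorem pA_eq (a : ℝ) (φ : ℝ → ℝ) (x : ℝ) : pA a φ x = ∫ y, φ (x + √a * y) ∂γ₁ := by
  simp [pA, tE, num, den]

theorem pA_zero (φ : ℝ → ℝ) : pA 0 φ = φ := by funext x; simp [pA_eq]

theorem Bd.int_line {C : ℝ} {i : ℕ} (hφ : Bd i C φ) (x c : ℝ) :
    Integrable (fun y => φ (x + c * y)) γ₁ :=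
  (integrable_const C).mono' (hφ.cont.comp (by fun_prop)).aestronglyMeasurable
    (ae_of_all _ fun _ => hφ.abs_le _)

theorem bd_pA {C : ℝ} {i : ℕ} (hφ : Bd i C φ) (a : ℝ) : Bd 0 C (pA a φ) :=
  ⟨P157.Cube2.continuous_tE pot_zero hφ.cont hφ.abs_le,
    P157.Cube2.abs_tE_le pot_zero hφ.cont hφ.abs_le⟩

theorem hasDerivAt_pA {C : ℝ} (hφ : Bd 1 C φ) (a x : ℝ) :
    HasDerivAt (pA a φ) (pA a (deriv φ) x) x := by
  simpa [pA] using P157.Cube2.hasDerivAt_tE (m := 0) (a := a) pot_zero hφ x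

theorem pA_mono {C D : ℝ} {i j : ℕ} (hφ : Bd i C φ) (hψ : Bd j D ψ) (h : ∀ y, φ y ≤ ψ y) (a x : ℝ) :
    pA a φ x ≤ pA a ψ x :=
  tE_mono pot_zero hφ hψ h x

theorem pA_add_const {C : ℝ} {i : ℕ} (hφ : Bd i C φ) (c a x : ℝ) :
    pA a (fun y => φ y + c) x = pA a φ x + c := by
  rw [pA, tE_add pot_zero hφ (Bd.const 0 c), tE_const pot_zero]
  rfl

theorem pA_lin {C D : ℝ} {i j : ℕ} (hφ : Bd i C φ) (hψ : Bd j D ψ) (c a x : ℝ) :
    pA a (fun y => φ y + c * ψ y) x = pA a φ x + c * pA a ψ x := by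
  simp only [pA]
  rw [tE_add pot_zero hφ (((Bd.const 0 c).mul (hψ.le_deg (Nat.zero_le j)))), tE_const_mul]

theorem pA_pA {C : ℝ} {i : ℕ} (hφ : Bd i C φ) (ha : 0 ≤ a) (hb : 0 ≤ b) (x : ℝ) :
    pA a (pA b φ) x = pA (a + b) φ x := by
  simp only [pA_eq, add_assoc]
  exact P157.Cube2.gauss_add ha hb (G := fun u => φ (x + u)) (hφ.cont.comp (by fun_prop)) fun _ => hφ.abs_le _

theorem pA_lip {C : ℝ} {i : ℕ} (hφ : Bd i C φ) (hl : ∀ x y, |φ x - φ y| ≤ L * |x - y|) (a x y : ℝ) :
    |pA a φ x - pA a φ y| ≤ L * |x - y| := by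
  rw [pA_eq, pA_eq, ← integral_sub (Bd.int_line hφ x _) (Bd.int_line hφ y _)]
  refine (norm_integral_le_of_norm_le_const (μ := γ₁) (f := fun z => φ (x + √a * z) - φ (y + √a * z))
    (C := L * |x - y|) (ae_of_all _ fun z => ?_)).trans
    (le_of_eq (by rw [probReal_univ, mul_one]))
  exact (hl _ _).trans (by rw [add_sub_add_right_eq_sub])

/-! ### Moments -/

/-- An exponential moment. -/
noncomputable def eMom (c : ℝ) : ℝ := ∫ y, exp (c * |y|) ∂γ₁

theorem eMom_pos (c : ℝ) : 0 < eMom c := integral_exp_pos (int_exp_abs c)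

theorem abs_integral_le_eMom {F : ℝ → ℝ} {K c : ℝ} (h : ∀ y, |F y| ≤ K * exp (c * |y|)) :
    |∫ y, F y ∂γ₁| ≤ K * eMom c := by
  rw [eMom, ← integral_const_mul]
  exact norm_integral_le_of_norm_le (f := F) ((int_exp_abs c).const_mul K) (ae_of_all _ h)

theorem abs_exp_sub_one_le_mul (u : ℝ) : |exp u - 1| ≤ |u| * exp |u| := by
  have h1 := add_one_le_exp u
  have h2 := mul_le_mul_of_nonneg_right (add_one_le_exp (-u)) (exp_pos u).le
  rw [← exp_add, neg_add_cancel, exp_zero] at h2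
  rcases le_total 0 u with h | h
  · rw [abs_of_nonneg h, abs_of_nonneg (by linarith [one_le_exp h])]; linarith
  · rw [abs_of_nonpos h, abs_of_nonpos (by linarith [exp_le_one_iff.2 h])]
    have : -u ≤ -u * exp (-u) := le_mul_of_one_le_right (by linarith) (one_le_exp (by linarith))
    linarith

/-- The constant of the comparison with a tilt, for variances at most `B`. -/
noncomputable def tiltK (B : ℝ) : ℝ :=
  (eMom (√B + 2) + eMom (√B + 2) ^ 2) / eMom (-√B) + eMom (√B + 2)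

theorem tiltK_nonneg (B : ℝ) : 0 ≤ tiltK B := by
  have := eMom_pos (√B + 2); have := eMom_pos (-√B); unfold tiltK; positivity

/-- A tilt moves the average by the order of `m a`. -/
theorem tilt_plain {B : ℝ} (hm : 0 ≤ m) (hm1 : m ≤ 1) (haB : a ≤ B) (ha : 0 ≤ a) (hf : Pot f)
    {C : ℝ} {i : ℕ} (hφ : Bd i C φ) (hL : 0 ≤ L) (hl : ∀ x y, |φ x - φ y| ≤ L * |x - y|) (h : ℝ) :
    |tE m a f φ h - pA a φ h| ≤ tiltK B * L * (m * a) := by
  set M := eMom (√B + 2) with hMdef
  set d := eMom (-√B) with hddef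
  have hd : 0 < d := eMom_pos _
  have hM : 0 < M := eMom_pos _
  set w : ℝ → ℝ := fun y => exp (m * (f (h + √a * y) - f h)) with hw
  set g : ℝ → ℝ := fun y => φ (h + √a * y) - φ h with hgdef
  have hgb : ∀ y, |g y| ≤ L * √a * |y| := fun y => by
    refine (hl _ _).trans (le_of_eq ?_)
    rw [add_sub_cancel_left, abs_mul, abs_of_nonneg (sqrt_nonneg a), mul_assoc]
  have hu : ∀ y, |m * (f (h + √a * y) - f h)| ≤ m * √a * |y| := fun y => by
    rw [abs_mul, abs_of_nonneg hm, mul_assoc]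
    refine mul_le_mul_of_nonneg_left ((hf.growth _ _).trans (le_of_eq ?_)) hm
    rw [add_sub_cancel_left, abs_mul, abs_of_nonneg (sqrt_nonneg a)]
  have hms : m * √a ≤ √B := (mul_le_of_le_one_left (sqrt_nonneg a) hm1).trans (sqrt_le_sqrt haB)
  have hw1 : ∀ y, |w y - 1| ≤ m * √a * |y| * exp (√B * |y|) := fun y =>
    (abs_exp_sub_one_le_mul _).trans (mul_le_mul (hu y)
      (exp_le_exp.2 ((hu y).trans (mul_le_mul_of_nonneg_right hms (abs_nonneg y)))) (exp_pos _).le
      (by positivity))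
  have ew : ∀ y, exp (m * f (h + √a * y)) = exp (m * f h) * w y := fun y => by
    rw [hw, ← exp_add]; congr 1; ring
  have iw : Integrable w γ₁ := by
    refine ((P157.Cube2.int_wt (m := m) (a := a) hf h).div_const (exp (m * f h))).congr
      (ae_of_all _ fun y => ?_)
    simp only [ew, mul_div_cancel_left₀ _ (exp_pos (m * f h)).ne']
  have ig : Integrable g γ₁ := (Bd.int_line hφ h √a).sub (integrable_const _)
  have igw : Integrable (fun y => g y * w y) γ₁ :=
    iw.bdd_mul ig.aestronglyMeasurable (ae_of_all _ fun y =>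
      (Real.norm_eq_abs _).trans_le ((abs_sub _ _).trans (add_le_add (hφ.abs_le _) (hφ.abs_le _))))
  set D := ∫ y, w y ∂γ₁ with hDdef
  have hdD : d ≤ D := by
    refine integral_mono (int_exp_abs _) iw fun y => exp_le_exp.2 ?_
    have := (abs_le.1 (hu y)).1
    have := mul_le_mul_of_nonneg_right hms (abs_nonneg y)
    linarith
  have eG : tE m a f φ h - pA a φ h = (∫ y, g y * w y ∂γ₁) / D - ∫ y, g y ∂γ₁ := by
    have e1 : tE m a f φ h = (∫ y, φ (h + √a * y) * w y ∂γ₁) / D := by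
      simp only [tE, num, den, ew]
      simp only [mul_left_comm (φ _) (exp (m * f h))]
      rw [integral_const_mul, integral_const_mul, mul_div_mul_left _ _ (exp_pos (m * f h)).ne']
    have e2 : ∫ y, φ (h + √a * y) * w y ∂γ₁ = (∫ y, g y * w y ∂γ₁) + φ h * D := by
      rw [hDdef, ← integral_const_mul, ← integral_add igw (iw.const_mul _)]
      exact integral_congr_ae (ae_of_all _ fun y => by simp only [hgdef]; ring)
    have e3 : pA a φ h = (∫ y, g y ∂γ₁) + φ h := by
      rw [pA_eq, hgdef, integral_sub (Bd.int_line hφ h _) (integrable_const _)]; simp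
    rw [e1, e2, e3, add_div, mul_div_cancel_right₀ _ (hd.trans_le hdD).ne']; ring
  have b0 : ∀ y : ℝ, |y| * exp (√B * |y|) ≤ exp ((√B + 2) * |y|) := fun y => by
    rw [show (√B + 2) * |y| = 2 * |y| + √B * |y| by ring, exp_add]
    exact mul_le_mul_of_nonneg_right
      ((P157.Cube2.abs_le_exp_abs y).trans (exp_le_exp.2 (by linarith [abs_nonneg y]))) (exp_pos _).le
  have b1 : |∫ y, g y ∂γ₁| ≤ L * √a * M := abs_integral_le_eMom fun y => by
    refine (hgb y).trans (mul_le_mul_of_nonneg_left (le_trans ?_ (b0 y)) (by positivity))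
    exact le_mul_of_one_le_right (abs_nonneg y) (one_le_exp (by positivity))
  have b2 : |∫ y, g y * (w y - 1) ∂γ₁| ≤ L * (m * a) * M := abs_integral_le_eMom fun y => by
    rw [abs_mul]
    refine (mul_le_mul (hgb y) (hw1 y) (abs_nonneg _) (by positivity)).trans ?_
    have h2 : |y| * |y| * exp (√B * |y|) ≤ exp ((√B + 2) * |y|) := by
      rw [show (√B + 2) * |y| = |y| + |y| + √B * |y| by ring, exp_add, exp_add]
      exact mul_le_mul_of_nonneg_right (mul_le_mul (P157.Cube2.abs_le_exp_abs y)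
        (P157.Cube2.abs_le_exp_abs y) (abs_nonneg _) (exp_pos _).le) (exp_pos _).le
    calc L * √a * |y| * (m * √a * |y| * exp (√B * |y|))
        = L * (m * (√a * √a)) * (|y| * |y| * exp (√B * |y|)) := by ring
      _ ≤ _ := by rw [mul_self_sqrt ha]; exact mul_le_mul_of_nonneg_left h2 (by positivity)
  have b3 : |D - 1| ≤ m * √a * M := by
    rw [show D - 1 = ∫ y, w y - 1 ∂γ₁ by
      rw [integral_sub iw (integrable_const _), hDdef]; simp]
    exact abs_integral_le_eMom fun y => (hw1 y).trans (by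
      rw [mul_assoc]; exact mul_le_mul_of_nonneg_left (b0 y) (by positivity))
  have e4 : (∫ y, g y * w y ∂γ₁) / D - ∫ y, g y ∂γ₁
      = ((∫ y, g y * (w y - 1) ∂γ₁) - (D - 1) * ∫ y, g y ∂γ₁) / D := by
    have e5 : ∫ y, g y * (w y - 1) ∂γ₁ = (∫ y, g y * w y ∂γ₁) - ∫ y, g y ∂γ₁ := by
      simp only [mul_sub, mul_one]; exact integral_sub igw ig
    rw [e5]; field_simp [(hd.trans_le hdD).ne']; ring
  rw [eG, e4, abs_div, abs_of_pos (hd.trans_le hdD)]
  calc _ ≤ (L * (m * a) * M + m * √a * M * (L * √a * M)) / D := by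
        refine div_le_div_of_nonneg_right ((abs_sub _ _).trans (add_le_add b2 ?_)) (hd.trans_le hdD).le
        rw [abs_mul]; exact mul_le_mul b3 b1 (abs_nonneg _) (by positivity)
    _ ≤ (L * (m * a) * M + m * √a * M * (L * √a * M)) / d :=
        div_le_div_of_nonneg_left (by positivity) hd hdD
    _ = (M + M ^ 2) / d * L * (m * a) := by
        rw [show m * √a * M * (L * √a * M) = L * (m * (√a * √a)) * M ^ 2 by ring, mul_self_sqrt ha]; ring
    _ ≤ _ := by
        refine mul_le_mul_of_nonneg_right (mul_le_mul_of_nonneg_right ?_ hL) (mul_nonneg hm ha)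
        simp only [tiltK, ← hMdef, ← hddef]; linarith

/-- A short plain average moves a Lipschitz function by the order of the deviation. -/
theorem pA_near {B : ℝ} {C : ℝ} {i : ℕ} (hφ : Bd i C φ) (hL : 0 ≤ L)
    (hl : ∀ x y, |φ x - φ y| ≤ L * |x - y|) (a h : ℝ) :
    |pA a φ h - φ h| ≤ tiltK B * L * √a := by
  have e : pA a φ h - φ h = ∫ y, φ (h + √a * y) - φ h ∂γ₁ := by
    rw [pA_eq, integral_sub (Bd.int_line hφ h _) (integrable_const _)]; simp
  rw [e]
  refine (abs_integral_le_eMom (K := L * √a) (c := √B + 2) fun y => ?_).trans ?_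
  · refine (hl _ _).trans ?_
    rw [add_sub_cancel_left, abs_mul, abs_of_nonneg (sqrt_nonneg a), ← mul_assoc]
    exact mul_le_mul_of_nonneg_left ((P157.Cube2.abs_le_exp_abs y).trans (exp_le_exp.2
      (le_mul_of_one_le_left (abs_nonneg y) (by linarith [sqrt_nonneg B])))) (by positivity)
  · have := eMom_pos (√B + 2); have := eMom_pos (-√B)
    rw [mul_assoc (tiltK B), mul_comm (tiltK B)]
    refine mul_le_mul_of_nonneg_left ?_ (by positivity)
    have : 0 ≤ (eMom (√B + 2) + eMom (√B + 2) ^ 2) / eMom (-√B) := by positivity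
    unfold tiltK; linarith

/-- A short tilted average moves a Lipschitz function by the order of the deviation. -/
theorem tilt_near {B : ℝ} (hm : 0 ≤ m) (hm1 : m ≤ 1) (haB : a ≤ B) (ha : 0 ≤ a) (hf : Pot f)
    {C : ℝ} {i : ℕ} (hφ : Bd i C φ) (hL : 0 ≤ L) (hl : ∀ x y, |φ x - φ y| ≤ L * |x - y|) (h : ℝ) :
    |tE m a f φ h - φ h| ≤ tiltK B * L * (√B + 1) * √a := by
  refine (abs_sub_le _ (pA a φ h) _).trans
    ((add_le_add (tilt_plain hm hm1 haB ha hf hφ hL hl h) (pA_near (B := B) hφ hL hl a h)).trans ?_)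
  rw [mul_assoc (tiltK B * L) (√B + 1), ← mul_add]
  refine mul_le_mul_of_nonneg_left ?_ (mul_nonneg (tiltK_nonneg B) hL)
  have h1 : m * a ≤ √B * √a := by
    refine (mul_le_of_le_one_left ha hm1).trans ?_
    rw [← sqrt_mul (ha.trans haB)]; exact le_sqrt_of_sq_le (by rw [sq]; exact mul_le_mul_of_nonneg_right haB ha)
  linarith

/-! ### The mean square of a partial average -/

/-- The mean square of the average over the last `b - s` of a variance `b`. -/
noncomputable def sqA (b : ℝ) (φ : ℝ → ℝ) (s : ℝ) : ℝ := pA s (fun x => pA (b - s) φ x ^ 2) 0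

theorem bd_sq {C : ℝ} {i : ℕ} (hφ : Bd i C φ) : Bd 0 (C ^ 2) fun x => φ x ^ 2 :=
  ⟨hφ.cont.pow 2, fun x => by rw [abs_pow]; exact pow_le_pow_left₀ (abs_nonneg _) (hφ.abs_le x) 2⟩

theorem sqA_split {C : ℝ} {i : ℕ} (hφ : Bd i C φ) {u : ℝ} (hu : 0 ≤ u) (hδ : 0 ≤ δ) (hub : u + δ ≤ b) :
    sqA b φ (u + δ) = pA u (pA δ fun x => pA (b - (u + δ)) φ x ^ 2) 0 ∧
      sqA b φ u = pA u (fun x => pA δ (pA (b - (u + δ)) φ) x ^ 2) 0 := by
  refine ⟨(pA_pA (bd_sq (bd_pA hφ _)) hu hδ 0).symm, ?_⟩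
  have e : pA δ (pA (b - (u + δ)) φ) = pA (b - u) φ := funext fun x => by
    rw [pA_pA hφ hδ (by linarith)]; congr 1; ring
  simp only [sqA, e]

/-- The variance of one step is at least the squared mean slope. -/
theorem var_ge {C : ℝ} (hφ : Bd 1 C φ) (ha : 0 ≤ a) (x : ℝ) :
    pA a φ x ^ 2 + a * pA a (deriv φ) x ^ 2 ≤ pA a (fun y => φ y ^ 2) x := by
  set F : ℝ → ℝ := fun y => φ (x + √a * y) with hF
  set μ := pA a φ x with hμdef
  set l := √a * pA a (deriv φ) x with hldef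
  have iF : Integrable F γ₁ := Bd.int_line hφ x _
  have iF2 : Integrable (fun y => F y ^ 2) γ₁ := Bd.int_line (bd_sq hφ) x _
  have iy : Integrable (fun y : ℝ => y) γ₁ := P150.integrable_id_std
  have iy2 : Integrable (fun y : ℝ => y ^ 2) γ₁ :=
    (memLp_id_gaussianReal (μ := 0) (v := 1) 2).integrable_sq
  have iyF : Integrable (fun y => y * F y) γ₁ :=
    iy.mul_bdd iF.aestronglyMeasurable (ae_of_all _ fun y => (Real.norm_eq_abs _).trans_le (hφ.abs_le _))
  have h1 : ∫ y, y * F y ∂γ₁ = l := by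
    have hs := P150.stein (φ := F) (φ' := fun y => √a * deriv φ (x + √a * y)) (fun y => by
        have hc : HasDerivAt (fun y => x + √a * y) √a y := by
          simpa using ((hasDerivAt_id y).const_mul √a).const_add x
        exact ((hφ.1 _).hasDerivAt.comp y hc).congr_deriv (mul_comm _ _))
      iF ((Bd.int_line hφ.2.2 x _).const_mul _) iyF
    simp only [P150.std, integral_const_mul] at hs
    rw [hs, hldef, pA_eq]
  have h2 : ∫ y : ℝ, y ^ 2 ∂γ₁ = 1 := by
    have := variance_of_integral_eq_zero (μ := γ₁) (X := fun y : ℝ => y) aemeasurable_id integral_id_gaussianReal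
    rw [variance_fun_id_gaussianReal] at this
    simpa using this.symm
  have hkey : 0 ≤ ∫ y, (F y - μ - l * y) ^ 2 ∂γ₁ := integral_nonneg fun y => sq_nonneg _
  have e : ∀ y : ℝ, (F y - μ - l * y) ^ 2
      = (F y ^ 2 - 2 * μ * F y + μ ^ 2) + (2 * μ * l * y - 2 * l * (y * F y) + l ^ 2 * y ^ 2) := fun y => by ring
  simp only [e] at hkey
  rw [integral_add, integral_add, integral_sub, integral_add, integral_sub] at hkey
  rotate_left
  all_goals first
    | exact iF2
    | exact iF.const_mul _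
    | exact iy.const_mul _
    | exact iyF.const_mul _
    | exact iy2.const_mul _
    | exact integrable_const _
    | exact iF2.sub (iF.const_mul _)
    | exact (iy.const_mul _).sub (iyF.const_mul _)
    | exact (iF2.sub (iF.const_mul _)).add (integrable_const _)
    | exact ((iy.const_mul _).sub (iyF.const_mul _)).add (iy2.const_mul _)
    | skip
  simp only [integral_const_mul, integral_const, probReal_univ, one_smul, h1, h2] at hkey
  rw [show ∫ y : ℝ, 2 * μ * l * y ∂γ₁ = 0 by rw [integral_const_mul, integral_id_gaussianReal, mul_zero]] at hkey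
  rw [show ∫ y, F y ∂γ₁ = μ from (pA_eq a φ x).symm] at hkey
  rw [show ∫ y, F y ^ 2 ∂γ₁ = pA a (fun y => φ y ^ 2) x from
    (pA_eq a (fun y => φ y ^ 2) x).symm] at hkey
  have e2 : a * pA a (deriv φ) x ^ 2 = l ^ 2 := by rw [hldef, mul_pow, sq_sqrt ha]
  rw [e2]; linarith

theorem sqA_mono {C : ℝ} (hφ : Bd 1 C φ) {u : ℝ} (hu : 0 ≤ u) (hus : u ≤ s) (hsb : s ≤ b) :
    sqA b (deriv φ) u ≤ sqA b (deriv φ) s := by
  obtain ⟨e1, e2⟩ := sqA_split (φ := deriv φ) hφ.2.2 hu (sub_nonneg.2 hus)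
    (show u + (s - u) ≤ b by linarith)
  rw [show u + (s - u) = s by ring] at e1 e2
  rw [e1, e2]
  refine pA_mono (bd_sq (bd_pA (bd_pA hφ.2.2 _) _)) (bd_pA (bd_sq (bd_pA hφ.2.2 _)) _) (fun x => ?_) u 0
  have hh := bd_pA hφ.2.2 (b - s)
  have h0 : 0 ≤ pA (s - u) (fun y => (pA (b - s) (deriv φ) y - pA (s - u) (pA (b - s) (deriv φ)) x) ^ 2) x := by
    rw [pA_eq]; exact integral_nonneg fun y => sq_nonneg _
  set c := pA (s - u) (pA (b - s) (deriv φ)) x with hc
  have e : pA (s - u) (fun y => (pA (b - s) (deriv φ) y - c) ^ 2) x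
      = pA (s - u) (fun y => pA (b - s) (deriv φ) y ^ 2) x + -2 * c * c + c ^ 2 := by
    rw [show (fun y => (pA (b - s) (deriv φ) y - c) ^ 2)
        = fun y => (pA (b - s) (deriv φ) y ^ 2 + -2 * c * pA (b - s) (deriv φ) y) + c ^ 2 from
      funext fun y => by ring]
    have hb1 := (bd_sq hh).add ((Bd.const 0 (-2 * c)).mul hh)
    rw [pA_add_const hb1, pA_lin (bd_sq hh) hh]
  rw [e] at h0
  simp only [← hc] at *
  linarith

theorem sqA_gain {C : ℝ} (hφ : Bd 1 C φ) (hs : 0 ≤ s) (hsb : s ≤ b) :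
    sqA b φ s + (b - s) * sqA b (deriv φ) s ≤ sqA b φ b := by
  have e1 : sqA b φ b = pA s (pA (b - s) fun x => φ x ^ 2) 0 := by
    rw [pA_pA (bd_sq hφ) hs (sub_nonneg.2 hsb), show s + (b - s) = b by ring]; simp [sqA, pA_zero]
  rw [e1, sqA, sqA, ← pA_lin (bd_sq (bd_pA hφ _)) (bd_sq (bd_pA hφ.2.2 _))]
  exact pA_mono ((bd_sq (bd_pA hφ _)).add ((Bd.const 0 _).mul (bd_sq (bd_pA hφ.2.2 _))))
    (bd_pA (bd_sq hφ) _) (fun x => var_ge hφ (sub_nonneg.2 hsb) x) s 0

theorem sq_step {C : ℝ} {h : ℝ → ℝ} (hh : Bd 0 C h) {h' : ℝ → ℝ} (hd : ∀ y, HasDerivAt h (h' y) y)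
    {D : ℝ} (hl : ∀ x y, |h' x - h' y| ≤ D * |x - y|) (hb : ∀ y, |h' y| ≤ D) (hδ : 0 ≤ δ)
    (hδ1 : δ ≤ 1) (x : ℝ) :
    pA δ (fun y => h y ^ 2) x
      ≤ pA δ h x ^ 2 + δ * h' x ^ 2 + 3 * D ^ 2 * eMom 4 * (δ * √δ) := by
  set c := h x with hcdef
  have hD : 0 ≤ D := (abs_nonneg _).trans (hb 0)
  have hpt : ∀ y, (h (x + √δ * y) - c) ^ 2
      ≤ δ * h' x ^ 2 * y ^ 2 + δ * √δ * (3 * D ^ 2) * exp (4 * |y|) := fun y => by
    set u := √δ * y with hu
    obtain ⟨ξ, hξ, hξ'⟩ : ∃ ξ, |ξ - x| ≤ |u| ∧ h (x + u) - c = h' ξ * u := by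
      have hcont : Continuous h := hh.1
      rcases lt_trichotomy u 0 with hlt | heq | hgt
      · obtain ⟨ξ, hξ, e⟩ := exists_hasDerivAt_eq_slope h h' (show x + u < x by linarith) hcont.continuousOn
          fun y _ => hd y
        refine ⟨ξ, by rw [abs_of_neg hlt, abs_of_nonpos (by linarith [hξ.2])]; linarith [hξ.1], ?_⟩
        rw [e, div_mul_eq_mul_div, eq_div_iff (by linarith)]; ring
      · exact ⟨x, by simp, by simp [heq, hcdef]⟩
      · obtain ⟨ξ, hξ, e⟩ := exists_hasDerivAt_eq_slope h h' (show x < x + u by linarith) hcont.continuousOn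
          fun y _ => hd y
        refine ⟨ξ, by rw [abs_of_pos hgt, abs_of_nonneg (by linarith [hξ.1])]; linarith [hξ.2], ?_⟩
        rw [e, add_sub_cancel_left, div_mul_cancel₀ _ hgt.ne']
    rw [hξ', mul_pow, show u ^ 2 = δ * y ^ 2 by rw [hu, mul_pow, sq_sqrt hδ]]
    have hv : h' ξ ^ 2 ≤ h' x ^ 2 + 3 * D ^ 2 * |u| * (1 + |u|) := by
      have hd1 : |h' ξ - h' x| ≤ D * |u| := (hl _ _).trans (mul_le_mul_of_nonneg_left hξ hD)
      have hd2 : |h' ξ + h' x| ≤ 2 * D := (abs_add_le _ _).trans (by linarith [hb ξ, hb x])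
      have := le_abs_self ((h' ξ - h' x) * (h' ξ + h' x))
      rw [abs_mul] at this
      have := mul_le_mul hd1 hd2 (abs_nonneg _) (by positivity)
      nlinarith [mul_nonneg (sq_nonneg D) (abs_nonneg u), mul_nonneg (sq_nonneg D) (sq_nonneg |u|)]
    have hu' : |u| ≤ √δ * |y| := by rw [hu, abs_mul, abs_of_nonneg (sqrt_nonneg δ)]
    have hu1 : 1 + |u| ≤ exp |y| := by
      have := mul_le_of_le_one_left (abs_nonneg y) (sqrt_le_one.2 hδ1)
      linarith [add_one_le_exp |y|]
    have hy3 : y ^ 2 * |y| * exp |y| ≤ exp (4 * |y|) := by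
      rw [← sq_abs y, show (4 : ℝ) * |y| = |y| + |y| + |y| + |y| by ring, exp_add, exp_add, exp_add]
      have := P157.Cube2.abs_le_exp_abs y
      rw [sq]; gcongr
    calc h' ξ ^ 2 * (δ * y ^ 2)
        ≤ (h' x ^ 2 + 3 * D ^ 2 * |u| * (1 + |u|)) * (δ * y ^ 2) :=
          mul_le_mul_of_nonneg_right hv (by positivity)
      _ ≤ (h' x ^ 2 + 3 * D ^ 2 * (√δ * |y|) * exp |y|) * (δ * y ^ 2) := by gcongr
      _ = δ * h' x ^ 2 * y ^ 2 + δ * √δ * (3 * D ^ 2) * (y ^ 2 * |y| * exp |y|) := by ring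
      _ ≤ _ := add_le_add le_rfl (mul_le_mul_of_nonneg_left hy3 (by positivity))
  have iy2 : Integrable (fun y : ℝ => y ^ 2) γ₁ :=
    (memLp_id_gaussianReal (μ := 0) (v := 1) 2).integrable_sq
  have h2 : ∫ y : ℝ, y ^ 2 ∂γ₁ = 1 := by
    have := variance_of_integral_eq_zero (μ := γ₁) (X := fun y : ℝ => y) aemeasurable_id integral_id_gaussianReal
    rw [variance_fun_id_gaussianReal] at this
    simpa using this.symm
  have hi : Integrable (fun y => (h (x + √δ * y) - c) ^ 2) γ₁ :=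
    Bd.int_line (φ := fun z => (h z - c) ^ 2) (bd_sq (hh.sub (Bd.const 0 c))) x _
  have hI := integral_mono hi ((iy2.const_mul _).add ((int_exp_abs 4).const_mul _)) hpt
  rw [integral_add' (iy2.const_mul _) ((int_exp_abs 4).const_mul _), integral_const_mul, integral_const_mul,
    h2, mul_one] at hI
  have e : ∫ y, (h (x + √δ * y) - c) ^ 2 ∂γ₁
      = pA δ (fun y => h y ^ 2) x + -2 * c * pA δ h x + c ^ 2 := by
    rw [← pA_eq δ (fun z => (h z - c) ^ 2) x,
      show (fun z => (h z - c) ^ 2) = fun z => (h z ^ 2 + -2 * c * h z) + c ^ 2 from funext fun z => by ring,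
      pA_add_const ((bd_sq hh).add ((Bd.const 0 (-2 * c)).mul hh)), pA_lin (bd_sq hh) hh]
  rw [e, ← eMom] at hI
  nlinarith [sq_nonneg (pA δ h x - c)]

/-- For an odd function the mean square of a partial average is at most its share. -/
theorem sqA_share {C : ℝ} (hU : Bd 2 C φ) (hodd : ∀ x, φ (-x) = -φ x) (hs : 0 ≤ s) (hsb : s ≤ b) :
    b * sqA b φ s ≤ s * sqA b φ b := by
  have h1 : Bd 1 C φ := hU.down
  have hd' : Bd 1 C (deriv φ) := hU.2.2
  have hC := h1.nonneg
  have hlip : ∀ x y, |deriv φ x - deriv φ y| ≤ C * |x - y| := fun x y => by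
    simpa [Real.norm_eq_abs] using Convex.norm_image_sub_le_of_norm_deriv_le (f := deriv φ) (s := Set.univ)
      (fun z _ => hd'.1 z) (fun z _ => hd'.2.2.abs_le z) convex_univ (Set.mem_univ y) (Set.mem_univ x)
  set G := sqA b (deriv φ) s with hG
  set K := 3 * C ^ 2 * eMom 4 + tiltK 1 * (2 * C * C) with hK
  have hF0 : sqA b φ 0 = 0 := by
    have h0 : pA b φ 0 = 0 := by
      have e := P157.Cube2.integral_neg_γ fun y => φ (0 + √b * y)
      simp only [zero_add, mul_neg, hodd, integral_neg] at e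
      simp only [pA_eq, zero_add]; linarith
    simp [sqA, pA_zero, h0]
  have step : ∀ u δ, 0 ≤ u → 0 ≤ δ → δ ≤ 1 → u + δ ≤ s →
      sqA b φ (u + δ) ≤ sqA b φ u + δ * G + K * (δ * √δ) := by
    intro u δ hu hδ hδ1 hus
    have hub : u + δ ≤ b := hus.trans hsb
    obtain ⟨e1, e2⟩ := sqA_split h1 hu hδ hub
    set r := b - (u + δ) with hr
    set g := fun y => pA r (deriv φ) y ^ 2 with hgdef
    have hg : Bd 0 (C ^ 2) g := bd_sq (bd_pA hd' r)
    have hgl : ∀ x y, |g x - g y| ≤ 2 * C * C * |x - y| := fun x y => by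
      simp only [hgdef, sq_sub_sq, abs_mul]
      have a1 := (abs_add_le (pA r (deriv φ) x) (pA r (deriv φ) y)).trans
        (add_le_add ((bd_pA hd' r).abs_le x) ((bd_pA hd' r).abs_le y))
      calc _ ≤ (C + C) * (C * |x - y|) := mul_le_mul a1 (pA_lip hd' hlip r x y) (abs_nonneg _) (by linarith)
        _ = _ := by ring
    have p1 : pA u g 0 ≤ pA u (pA δ g) 0 + tiltK 1 * (2 * C * C) * √δ := by
      rw [← pA_add_const (bd_pA hg δ)]
      refine pA_mono hg ((bd_pA hg δ).add (Bd.const 0 _)) (fun y => ?_) u 0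
      linarith [(abs_le.1 (pA_near (B := 1) hg (mul_nonneg (mul_nonneg zero_le_two hC) hC) hgl δ y)).1]
    have p2 : pA u (pA δ g) 0 ≤ G := by
      rw [pA_pA hg hu hδ]; exact sqA_mono h1 (add_nonneg hu hδ) hus hsb
    have p3 : pA u (pA δ fun x => pA r φ x ^ 2) 0
        ≤ pA u (fun x => pA δ (pA r φ) x ^ 2) 0 + δ * pA u g 0 + 3 * C ^ 2 * eMom 4 * (δ * √δ) := by
      have q1 := bd_sq (bd_pA (bd_pA h1 r) δ)
      have q2 := (Bd.const 0 δ).mul hg
      rw [← pA_lin q1 hg, ← pA_add_const (q1.add q2)]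
      refine pA_mono (bd_pA (bd_sq (bd_pA h1 r)) δ) ((q1.add q2).add (Bd.const 0 _)) (fun x => ?_) u 0
      exact sq_step (bd_pA h1 r) (fun y => hasDerivAt_pA h1 r y) (fun x y => pA_lip hd' hlip r x y)
        (bd_pA hd' r).abs_le hδ hδ1 x
    have p4 := mul_le_mul_of_nonneg_left (p1.trans (add_le_add p2 le_rfl)) hδ
    rw [e1, e2]; linarith
  have hsG : sqA b φ s ≤ s * G := by
    refine le_of_tendsto_of_tendsto (tendsto_const_nhds (x := sqA b φ s)) (g := fun n : ℕ =>
      s * G + K * (s * √(s / n))) (?_ : Tendsto _ atTop (𝓝 (s * G))) ?_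
    · have h := (tendsto_const_div_atTop_nhds_zero_nat s).sqrt
      rw [sqrt_zero] at h
      simpa using ((h.const_mul s).const_mul K).const_add (s * G)
    · filter_upwards [eventually_ge_atTop (⌈s⌉₊ + 1)] with n hn
      have hn0 : (0 : ℝ) < n := by exact_mod_cast (show 0 < n by omega)
      set δ := s / n with hδ
      have hδ0 : 0 ≤ δ := div_nonneg hs hn0.le
      have hδ1 : δ ≤ 1 := (div_le_one hn0).2 ((Nat.le_ceil s).trans
        (by exact_mod_cast (show ⌈s⌉₊ ≤ n by omega)))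
      have hnd : (n : ℝ) * δ = s := mul_div_cancel₀ s hn0.ne'
      have ind : ∀ i ≤ n, sqA b φ (i * δ) ≤ i * (δ * G + K * (δ * √δ)) := by
        intro i hi
        induction i with
        | zero => simp [hF0]
        | succ i ih =>
          have hle : (i : ℝ) * δ + δ ≤ s := by
            rw [← hnd]
            have : ((i + 1 : ℕ) : ℝ) ≤ n := by exact_mod_cast hi
            have := mul_le_mul_of_nonneg_right this hδ0
            push_cast at this; linarith
          have := step (i * δ) δ (by positivity) hδ0 hδ1 hle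
          push_cast
          rw [add_mul, add_mul, one_mul, one_mul]
          linarith [ih (by omega)]
      have := ind n le_rfl
      rw [hnd] at this
      refine this.trans (le_of_eq ?_)
      rw [mul_add, ← mul_assoc, hnd, ← hnd]; ring
  have hgain := sqA_gain h1 hs hsb
  have e1 := mul_le_mul_of_nonneg_left hgain hs
  have e2 := mul_le_mul_of_nonneg_left hsG (sub_nonneg.2 hsb)
  rw [← hG] at e1
  nlinarith

end Vale.Agent.P146.Sup
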