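import Vale.Agent.P146.Sup.CaseIIDefs
import Vale.Agent.P146.Sup.PlainAvg

/-!
# P146, superconcentration: small parameters below a level decorrelate the magnetisations

With parameters of integral at most `ε` below `v` the tilted laws of the fields below `v` are close
to plain Gaussians.  The squared magnetisation at `v` is then at most `v` up to a power of `ε`: by
continuity when the level below is close, and by the share of a partial average otherwise.
-/

open MeasureTheory ProbabilityTheory Real Finset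
open Vale.Agent.P157.Rsb (stdG lev IsPath)
open Vale.Agent.P157.Cube2 (γ₁ hT Pot Bd tE spinF spinU spinW spinQ tE_mono tE_add tE_const)

namespace Vale.Agent.P146.Sup

variable {k : ℕ} {β v : ℝ} {q r : ℕ → ℝ}

theorem hT_var_zero {m : ℝ} (hm : m ≠ 0) (f : ℝ → ℝ) : hT m 0 f = f := by
  funext x; simp [hT, P157.Cube2.den, log_exp, hm]

theorem q_mono (hq : IsPath k q) {i j : ℕ} (hij : i ≤ j) (hjk : j ≤ k) : q i ≤ q j :=
  P157.Cube2.isVar_le ⟨hq.1, hq.2.1⟩ hij hjk

/-- Above `v` the path keeps its recursion. -/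
theorem spinF_up_above (hq : IsPath k q) {j : ℕ} (hj : j ≤ k) (hv : v ≤ q j) :
    spinF k (upPath β v q) j = spinF k (scale β q) j := by
  induction hd : k - j generalizing j with
  | zero => rw [show j = k by omega, P157.Cube2.spinF_top, P157.Cube2.spinF_top]
  | succ d ih =>
    have hj1 : j + 1 ≤ k := by omega
    have hv1 : v ≤ q (j + 1) := hv.trans (q_mono hq (Nat.le_succ j) hj1)
    have e1 := P157.Cube2.spinF_step (r := upPath β v q) (show 1 ≤ j + 1 by omega) hj1
    have e2 := P157.Cube2.spinF_step (r := scale β q) (show 1 ≤ j + 1 by omega) hj1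
    simp only [Nat.add_sub_cancel] at e1 e2
    rw [e1, e2, ih hj1 hv1 (by omega)]
    simp only [upPath, scale, max_eq_right hv, max_eq_right hv1]

/-- Below `v` the increments vanish. -/
theorem spinF_up_below (hq : IsPath k q) {l : ℕ} (hl : l ≤ k) (hv : q l ≤ v) :
    spinF k (upPath β v q) 0 = spinF k (upPath β v q) l := by
  induction l with
  | zero => rfl
  | succ l ih =>
    have h := q_mono hq (Nat.le_succ l) hl
    rw [ih (by omega) (h.trans hv)]
    have e := P157.Cube2.spinF_step (r := upPath β v q) (show 1 ≤ l + 1 by omega) hl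
    simp only [Nat.add_sub_cancel] at e
    rw [e]
    simp only [upPath, max_eq_left hv, max_eq_left (h.trans hv), sub_self]
    exact hT_var_zero (P157.Cube2.levK_ne (by omega)) _

/-- The recursion at `v` inside an interval. -/
theorem spinF_up_eq (hq : IsPath k q) {l : ℕ} (hl : l + 1 ≤ k) (h0 : q l ≤ v) (h1 : v ≤ q (l + 1)) :
    spinF k (upPath β v q) 0
      = hT (lev k (l + 1)) (β ^ 2 * (q (l + 1) - v)) (spinF k (scale β q) (l + 1)) := by
  have e := P157.Cube2.spinF_step (r := upPath β v q) (show 1 ≤ l + 1 by omega) hl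
  simp only [Nat.add_sub_cancel] at e
  rw [spinF_up_below hq (show l ≤ k by omega) h0, e, spinF_up_above hq hl h1]
  simp only [upPath, max_eq_left h0, max_eq_right h1, mul_sub]

/-- A plain average of a squared magnetisation is at most the overlap, up to the tilts. -/
theorem plainQ_le {B : ℝ} (h0 : r 0 = 0) (hr : ∀ i, 1 ≤ i → i ≤ k → r (i - 1) ≤ r i)
    (hB : ∀ i, i ≤ k → r i ≤ B) {l : ℕ} (hl : l ≤ k) :
    pA (r l) (fun x => spinU k r l x ^ 2) 0
      ≤ spinQ k r l + tiltK B * 2 * ∑ i ∈ Ioc 0 l, lev k i * (r i - r (i - 1)) := by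
  obtain ⟨C, hC⟩ := P157.Cube2.bd2_u (r := r) hl
  set W := fun x => spinU k r l x ^ 2 with hWdef
  have hW : Bd 0 (C ^ 2) W := bd_sq hC
  have hWl : ∀ x y, |W x - W y| ≤ 2 * |x - y| := fun x y => by
    simp only [hWdef, sq_sub_sq, abs_mul]
    exact mul_le_mul ((abs_add_le _ _).trans (by
      linarith [P157.Cube2.spinU_abs (r := r) hl x, P157.Cube2.spinU_abs (r := r) hl y]))
      (P157.Cube2.spinU_lip hl x y) (abs_nonneg _) zero_le_two
  have hv : P157.Cube2.IsVar k r := ⟨h0, fun j hj => by simpa using hr (j + 1) (by omega) hj⟩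
  suffices H : ∀ j, j ≤ l → ∀ h, pA (r l - r j) W h
      ≤ spinW k r l j h + tiltK B * 2 * ∑ i ∈ Ioc j l, lev k i * (r i - r (i - 1)) by
    simpa [h0, spinQ] using H 0 (Nat.zero_le l) 0
  intro j hjl
  induction hd : l - j generalizing j with
  | zero =>
    intro h
    rw [show j = l by omega, P157.Cube2.spinW_self]
    simp [pA_zero, hWdef]
  | succ d ih =>
    intro h
    have hj1 : j + 1 ≤ l := by omega
    have hjk : j + 1 ≤ k := by omega
    have hi := ih (j + 1) hj1 (by omega)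
    obtain ⟨D, hD⟩ := P157.Cube2.bd2_w (r := r) hj1 hl
    have hf : Pot (spinF k r (j + 1)) := P157.Cube2.pot_spinF hjk
    have ha : r j ≤ r (j + 1) := by simpa using hr (j + 1) (by omega) hjk
    have hjl' : r (j + 1) ≤ r l := P157.Cube2.isVar_le hv hj1 hl
    set S := tiltK B * 2 * ∑ i ∈ Ioc (j + 1) l, lev k i * (r i - r (i - 1)) with hS
    set V := pA (r l - r (j + 1)) W with hV
    have h1 := tE_mono (m := lev k (j + 1)) (a := r (j + 1) - r j) hf (bd_pA hW _)
      (hD.down.down.add (Bd.const 0 S)) hi h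
    rw [tE_add hf hD.down.down (Bd.const 0 S), tE_const hf] at h1
    have h2 := (abs_le.1 (tilt_plain (B := B) (P157.Cube2.levK_nonneg (j + 1))
      ((le_abs_self _).trans (P157.Cube2.levK_abs hjk))
      (show r (j + 1) - r j ≤ B by linarith [hB _ hjk, P157.Cube2.isVar_nonneg hv (show j ≤ k by omega)]) (sub_nonneg.2 ha) hf
      (bd_pA hW (r l - r (j + 1))) zero_le_two (pA_lip hW hWl _) h)).1
    rw [pA_pA hW (sub_nonneg.2 ha) (sub_nonneg.2 hjl'),
      show r (j + 1) - r j + (r l - r (j + 1)) = r l - r j by ring] at h2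
    have e := P157.Cube2.spinW_step (k := k) (r := r) (show 1 ≤ j + 1 by omega) hj1
    simp only [Nat.add_sub_cancel] at e
    rw [e, show Ioc j l = insert (j + 1) (Ioc (j + 1) l) by ext i; simp only [mem_Ioc, mem_insert]; omega,
      sum_insert (by simp), Nat.add_sub_cancel]
    simp only [← hV] at h1 h2
    linarith

/-- The integral of the parameter below `v` dominates its part on the levels below. -/
theorem low_ge (hq : IsPath k q) {l : ℕ} (hl : l ≤ k) (h0 : q l ≤ v) (h1 : l < k → v ≤ q (l + 1)) :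
    ∑ i ∈ Ioc 0 l, lev k i * (q i - q (i - 1)) + lev k (l + 1) * (v - q l) ≤ lowMass k q v := by
  have hIcc : Icc 1 k = Ioc 0 k := by ext i; simp; omega
  have e : ∀ i ∈ Ioc 0 l, lev k i * (q i - q (i - 1)) = lev k i * (min (q i) v - min (q (i - 1)) v) :=
    fun i hi => by
      have a1 := (q_mono hq (mem_Ioc.1 hi).2 hl).trans h0
      rw [min_eq_left a1, min_eq_left ((q_mono hq (Nat.sub_le i 1) ((mem_Ioc.1 hi).2.trans hl)).trans a1)]
  rw [lowMass, hIcc, sum_congr rfl e]
  rcases hl.lt_or_eq with hlk | rfl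
  · refine le_add_of_le_of_nonneg (le_trans ?_ (sum_le_sum_of_subset_of_nonneg (s := Ioc 0 (l + 1))
      (Ioc_subset_Ioc_right hlk) fun i hi _ => ?_)) (le_max_right _ _)
    · rw [sum_Ioc_succ_top (Nat.zero_le l), Nat.add_sub_cancel, min_eq_right (h1 hlk), min_eq_left h0]
    · exact mul_nonneg (P157.Cube2.levK_nonneg i)
        (sub_nonneg.2 (min_le_min_right _ (q_mono hq (Nat.sub_le i 1) (mem_Ioc.1 hi).2)))
  · rw [P157.Cube2.levK_top, one_mul]
    exact add_le_add le_rfl (le_max_left _ _)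

/-- A squared function moves by at most twice the move of the function. -/
theorem pA_sq_le {U W : ℝ → ℝ} {C D : ℝ} {i j : ℕ} (hU : Bd i C U) (hW : Bd j D W)
    (h1 : ∀ x, |U x| ≤ 1) (h2 : ∀ x, |W x| ≤ 1) {e : ℝ} (h : ∀ x, |U x - W x| ≤ e) (a x : ℝ) :
    pA a (fun y => U y ^ 2) x ≤ pA a (fun y => W y ^ 2) x + 2 * e := by
  rw [← pA_add_const (bd_sq hW)]
  refine pA_mono (bd_sq hU) ((bd_sq hW).add (Bd.const 0 (2 * e))) (fun y => ?_) a x
  have h3 : |U y - W y| * |U y + W y| ≤ e * 2 :=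
    mul_le_mul (h y) ((abs_add_le _ _).trans (by linarith [h1 y, h2 y])) (abs_nonneg _)
      ((abs_nonneg _).trans (h y))
  rw [← abs_mul] at h3
  nlinarith [le_of_abs_le h3]

/-- The squared magnetisation at `v` of a minimiser is at most `v` up to a power of `ε`. -/
theorem magn_le {ε : ℝ} (hβ : 0 < β) (hq : IsMinPath β k q) (h0v : 0 ≤ v) (hε : 0 < ε)
    (hε1 : ε ≤ 1) (hlow : lowMass k q v ≤ ε) :
    pA (β ^ 2 * v) (fun x => spinU k (upPath β v q) 0 x ^ 2) 0
      ≤ v + tiltK (β ^ 2) * (6 * β ^ 2 + 4 * β) * ε ^ (1 / 4 : ℝ) := by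
  classical
  set η := ε ^ (1 / 4 : ℝ) with hη
  have hη0 : 0 < η := rpow_pos_of_pos hε _
  have hη1 : η ≤ 1 := rpow_le_one hε.le hε1 (by norm_num)
  have hη4 : η ^ 4 = ε := by rw [hη, ← rpow_natCast, ← rpow_mul hε.le]; norm_num
  have hη2 : η ^ 2 ≤ η := pow_le_of_le_one hη0.le hη1 two_ne_zero
  have hεη : ε ≤ η ^ 2 := hη4 ▸ pow_le_pow_of_le_one hη0.le hη1 (by norm_num)
  set K := tiltK (β ^ 2) with hKdef
  have hK : 0 ≤ K := tiltK_nonneg _
  have hb2 : 0 ≤ β ^ 2 := sq_nonneg β
  have hsqrt : √(β ^ 2) = β := sqrt_sq hβ.le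
  set l := Nat.findGreatest (fun i => q i ≤ v) k with hldef
  have hl : l ≤ k := Nat.findGreatest_le k
  have hqlv : q l ≤ v := Nat.findGreatest_spec (P := fun i => q i ≤ v) (Nat.zero_le k) (by rw [hq.1.1]; exact h0v)
  have hnext : l < k → v ≤ q (l + 1) := fun h =>
    (not_le.1 (Nat.findGreatest_is_greatest (P := fun i => q i ≤ v) (Nat.lt_succ_self l) h)).le
  have hmem : ∀ i, i ≤ k → 0 ≤ q i ∧ q i ≤ 1 := fun i hi => P157.Cube2.isPath_mem hq.1 hi
  have hr : ∀ i, 1 ≤ i → i ≤ k → scale β q (i - 1) ≤ scale β q i := scale_mono hq.1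
  have hplain : ∀ j, j ≤ k → pA (β ^ 2 * q j) (fun x => spinU k (scale β q) j x ^ 2) 0
      ≤ q j + K * 2 * (β ^ 2 * ∑ i ∈ Ioc 0 j, lev k i * (q i - q (i - 1))) := fun j hj => by
    have h := plainQ_le (r := scale β q) (B := β ^ 2) (by simp [scale, hq.1.1]) hr
      (fun i hi => mul_le_of_le_one_right hb2 (hmem i hi).2) hj
    have e : spinQ k (scale β q) j = q j := by
      rcases Nat.eq_zero_or_pos j with rfl | hpos
      · simp [spinQ, P157.Cube2.spinW_self, P157.Cube2.spinU_zero, hq.1.1]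
      · exact hq.overlap hβ.ne' j (mem_Icc.2 ⟨hpos, hj⟩)
    rw [e] at h
    refine h.trans (le_of_eq ?_)
    rw [← hKdef, mul_sum (a := β ^ 2)]
    congr 2
    exact sum_congr rfl fun i _ => by simp only [scale]; ring
  have hsum := low_ge hq.1 hl hqlv hnext
  have hlev0 : 0 ≤ lev k (l + 1) * (v - q l) :=
    mul_nonneg (P157.Cube2.levK_nonneg _) (sub_nonneg.2 hqlv)
  have hsum0 : 0 ≤ ∑ i ∈ Ioc 0 l, lev k i * (q i - q (i - 1)) := sum_nonneg fun i hi =>
    mul_nonneg (P157.Cube2.levK_nonneg i)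
      (sub_nonneg.2 (q_mono hq.1 (Nat.sub_le i 1) ((mem_Ioc.1 hi).2.trans hl)))
  obtain ⟨CU, hU⟩ := P157.Cube2.bd2_u (r := upPath β v q) (Nat.zero_le k)
  obtain ⟨Cl, hUl⟩ := P157.Cube2.bd2_u (r := scale β q) hl
  set U := spinU k (upPath β v q) 0 with hUdef
  have hU1 : ∀ x, |U x| ≤ 1 := P157.Cube2.spinU_abs (Nat.zero_le k)
  rcases le_or_gt (v - q l) (η ^ 2) with hA | hA
  · set c := β ^ 2 * (v - q l) with hcdef
    have hc0 : 0 ≤ c := mul_nonneg hb2 (sub_nonneg.2 hqlv)
    have hcB : c ≤ β ^ 2 := mul_le_of_le_one_right hb2 (by linarith [(hmem l hl).1])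
    have hsc : √c ≤ β * η := by
      rw [hcdef, sqrt_mul hb2, hsqrt]
      exact mul_le_mul_of_nonneg_left (sqrt_le_iff.2 ⟨hη0.le, hA⟩) hβ.le
    have hclose : ∀ x, |U x - spinU k (scale β q) l x| ≤ K * (β + 1) * (β * η) := fun x => by
      rcases hl.lt_or_eq with hlk | hlk
      · have hm : 0 < lev k (l + 1) := by unfold lev; positivity
        have hF : Pot (spinF k (scale β q) (l + 1)) := P157.Cube2.pot_spinF hlk
        have e := P157.Cube2.spinF_step (r := scale β q) (show 1 ≤ l + 1 by omega) hlk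
        have e2 : spinF k (scale β q) l = hT (lev k (l + 1)) c (spinF k (upPath β v q) 0) := by
          simp only [Nat.add_sub_cancel] at e
          rw [e, spinF_up_eq hq.1 hlk hqlv (hnext hlk)]
          funext y
          rw [hT_hT hm hc0 (mul_nonneg hb2 (sub_nonneg.2 (hnext hlk))) hF]
          congr 1
          simp only [hcdef, scale]; ring
        have e3 : spinU k (scale β q) l
            = tE (lev k (l + 1)) c (spinF k (upPath β v q) 0) U := by
          rw [spinU, e2, P157.Cube2.deriv_hT (P157.Cube2.pot_spinF (Nat.zero_le k)) hm.ne']; rfl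
        rw [e3, abs_sub_comm]
        refine (tilt_near (B := β ^ 2) (L := 1) hm.le ((le_abs_self _).trans (P157.Cube2.levK_abs hlk)) hcB hc0
          (P157.Cube2.pot_spinF (Nat.zero_le k)) hU zero_le_one
          (fun a b => by rw [one_mul]; exact P157.Cube2.spinU_lip (Nat.zero_le k) a b) x).trans ?_
        rw [mul_one, hsqrt, ← hKdef]
        exact mul_le_mul_of_nonneg_left hsc (by positivity)
      · have e : U = spinU k (scale β q) l := by
          rw [hUdef, spinU, spinU, spinF_up_below hq.1 hl hqlv, hlk, P157.Cube2.spinF_top,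
            P157.Cube2.spinF_top]
        rw [e, sub_self, abs_zero]; positivity
    have h1 := pA_sq_le hU hUl hU1 (P157.Cube2.spinU_abs hl) hclose (β ^ 2 * v) 0
    have hW := bd_sq hUl
    have h2 : pA (β ^ 2 * v) (fun x => spinU k (scale β q) l x ^ 2) 0
        ≤ pA (β ^ 2 * q l) (fun x => spinU k (scale β q) l x ^ 2) 0 + K * 2 * (β * η) := by
      rw [show β ^ 2 * v = β ^ 2 * q l + c by rw [hcdef]; ring,
        ← pA_pA hW (mul_nonneg hb2 (hmem l hl).1) hc0, ← pA_add_const hW]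
      refine pA_mono (bd_pA hW c) (hW.add (Bd.const 0 (K * 2 * (β * η)))) (fun y => ?_) _ 0
      have hh := (abs_le.1 (pA_near (B := β ^ 2) hW zero_le_two (fun a b => by
        simp only [sq_sub_sq, abs_mul]
        exact mul_le_mul ((abs_add_le _ _).trans (by
          linarith [P157.Cube2.spinU_abs (r := scale β q) hl a, P157.Cube2.spinU_abs (r := scale β q) hl b]))
          (P157.Cube2.spinU_lip hl a b) (abs_nonneg _) zero_le_two) c y)).2
      have := mul_le_mul_of_nonneg_left hsc (mul_nonneg hK zero_le_two)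
      rw [← hKdef] at hh
      linarith
    have h3 := hplain l hl
    have h4 : K * 2 * (β ^ 2 * ∑ i ∈ Ioc 0 l, lev k i * (q i - q (i - 1))) ≤ K * 2 * (β ^ 2 * η) :=
      mul_le_mul_of_nonneg_left (mul_le_mul_of_nonneg_left (by linarith) hb2) (by positivity)
    linarith [mul_nonneg (mul_nonneg hK hη0.le) hb2]
  · have hlk : l < k := by
      refine hl.lt_or_eq.resolve_right fun h => ?_
      rw [h] at hsum hA
      rw [P157.Cube2.levK_top, one_mul] at hsum
      have : 0 ≤ ∑ i ∈ Ioc 0 k, lev k i * (q i - q (i - 1)) := h ▸ hsum0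
      linarith
    have hv' := hnext hlk
    set m := lev k (l + 1) with hmdef
    have hm : 0 < m := by rw [hmdef]; unfold lev; positivity
    have hmη : m ≤ η ^ 2 := by
      refine le_of_not_gt fun h => ?_
      have := mul_lt_mul h hA.le (pow_pos hη0 2) hm.le
      rw [show η ^ 2 * η ^ 2 = η ^ 4 by ring, hη4] at this
      linarith
    have hL1 := hmem (l + 1) hlk
    set a := β ^ 2 * (q (l + 1) - v) with hadef
    have ha0 : 0 ≤ a := mul_nonneg hb2 (sub_nonneg.2 hv')
    have haB : a ≤ β ^ 2 := mul_le_of_le_one_right hb2 (by linarith)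
    set UL := spinU k (scale β q) (l + 1) with hULdef
    obtain ⟨CL, hUL⟩ := P157.Cube2.bd2_u (r := scale β q) (show l + 1 ≤ k from hlk)
    have hUL1 : ∀ x, |UL x| ≤ 1 := P157.Cube2.spinU_abs hlk
    have hF : Pot (spinF k (scale β q) (l + 1)) := P157.Cube2.pot_spinF hlk
    have hclose : ∀ x, |U x - pA a UL x| ≤ K * (η ^ 2 * β ^ 2) := fun x => by
      rw [hUdef, spinU, spinF_up_eq hq.1 hlk hqlv hv', P157.Cube2.deriv_hT hF hm.ne']
      refine (tilt_plain (B := β ^ 2) (L := 1) hm.le ((le_abs_self _).trans (P157.Cube2.levK_abs hlk)) haB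
        ha0 hF hUL zero_le_one
        (fun u w => by rw [one_mul]; exact P157.Cube2.spinU_lip hlk u w) x).trans ?_
      rw [mul_one, ← hKdef]
      exact mul_le_mul_of_nonneg_left (mul_le_mul hmη haB ha0 (by positivity)) hK
    have hL0 : Bd 0 1 UL := ⟨hUL.cont, hUL1⟩
    have h1 := pA_sq_le hU (bd_pA hL0 a) hU1 (bd_pA hL0 a).abs_le hclose (β ^ 2 * v) 0
    have hs := sqA_share (s := β ^ 2 * v) (b := β ^ 2 * q (l + 1)) hUL
      (P157.Cube2.spinU_odd hlk) (mul_nonneg hb2 h0v) (mul_le_mul_of_nonneg_left hv' hb2)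
    have h2 := hplain (l + 1) hlk
    rw [sum_Ioc_succ_top (Nat.zero_le l), Nat.add_sub_cancel] at h2
    have hdq : m * (q (l + 1) - q l) ≤ η ^ 2 :=
      (mul_le_of_le_one_right hm.le (by linarith [(hmem l hl).1])).trans hmη
    have h3 : pA (β ^ 2 * q (l + 1)) (fun x => UL x ^ 2) 0 ≤ q (l + 1) + K * 2 * (β ^ 2 * (2 * η ^ 2)) :=
      h2.trans (add_le_add le_rfl (mul_le_mul_of_nonneg_left
        (mul_le_mul_of_nonneg_left (by rw [← hmdef]; linarith) hb2) (by positivity)))
    simp only [sqA, sub_self, pA_zero, show β ^ 2 * q (l + 1) - β ^ 2 * v = a by rw [hadef]; ring] at hs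
    set F := pA (β ^ 2 * v) (fun x => pA a UL x ^ 2) 0
    set E := K * 2 * (β ^ 2 * (2 * η ^ 2)) with hEdef
    have hE : 0 ≤ E := by positivity
    have hqL : 0 < q (l + 1) := by linarith [pow_pos hη0 2, (hmem l hl).1]
    have hFle : F ≤ v + E := by
      refine le_of_mul_le_mul_left ?_ (mul_pos (pow_pos hβ 2) hqL)
      refine hs.trans ((mul_le_mul_of_nonneg_left h3 (mul_nonneg hb2 h0v)).trans ?_)
      nlinarith [mul_nonneg (mul_nonneg hb2 hE) (sub_nonneg.2 hv')]
    have h5 : K * (η ^ 2 * β ^ 2) ≤ K * (η * β ^ 2) :=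
      mul_le_mul_of_nonneg_left (mul_le_mul_of_nonneg_right hη2 hb2) hK
    linarith [mul_nonneg (mul_nonneg hK hη0.le) hβ.le]

/-- Two copies with correlation `t` as one shared field and two plain averages. -/
theorem P2_mul {U : ℝ → ℝ} {C t b : ℝ} (hU : Bd 0 C U) (ht : t ∈ Set.Icc (0 : ℝ) 1) :
    P2 t b (fun x => U x.1 * U x.2) (0, 0) = pA (b * t) (fun x => pA (b * (1 - t)) U x ^ 2) 0 := by
  set c := √(b * t) with hc
  set d := √(b * (1 - t)) with hd
  have hb0 : √b * √t = c := (sqrt_mul' _ ht.1).symm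
  have hb1 : √b * √(1 - t) = d := (sqrt_mul' _ (sub_nonneg.2 ht.2)).symm
  set e := (MeasurableEquiv.piFinSuccAbove (fun _ : Fin 3 => ℝ) 0) with he
  have hmp := (measurePreserving_piFinSuccAbove (fun _ : Fin 3 => γ₁) 0).symm e
  have hcont : Continuous fun z : Fin 3 → ℝ => U (c * z 0 + d * z 1) * U (c * z 0 + d * z 2) := by
    have := hU.cont; fun_prop
  have hint : Integrable (fun z : Fin 3 → ℝ => U (c * z 0 + d * z 1) * U (c * z 0 + d * z 2))
      (Measure.pi fun _ => γ₁) :=
    (integrable_const (C * C)).mono' hcont.aestronglyMeasurable (ae_of_all _ fun z => by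
      rw [Real.norm_eq_abs, abs_mul]
      exact mul_le_mul (hU.abs_le _) (hU.abs_le _) (abs_nonneg _) hU.nonneg)
  have e1 : P2 t b (fun x => U x.1 * U x.2) (0, 0)
      = ∫ z, U (c * z 0 + d * z 1) * U (c * z 0 + d * z 2) ∂Measure.pi fun _ : Fin 3 => γ₁ := by
    rw [← hb0, ← hb1]
    simp only [P2, sh, cfst, csnd, zero_add, mul_add, mul_assoc]
    rfl
  rw [e1, ← hmp.integral_comp' (fun z : Fin 3 → ℝ => U (c * z 0 + d * z 1) * U (c * z 0 + d * z 2)),
    integral_prod]
  swap
  · exact hmp.integrable_comp_of_integrable hint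
  rw [pA_eq]
  refine integral_congr_ae (ae_of_all _ fun y => ?_)
  have e2 : ∀ w : Fin 2 → ℝ, e.symm (y, w) 0 = y ∧ e.symm (y, w) 1 = w 0 ∧ e.symm (y, w) 2 = w 1 :=
    fun w => ⟨rfl, rfl, rfl⟩
  have e3 : ∀ w : Fin 2 → ℝ, U (c * y + d * w 0) * U (c * y + d * w 1)
      = ∏ i, (fun _ : Fin 2 => fun u => U (c * y + d * u)) i (w i) := fun w => by simp [Fin.prod_univ_two]
  simp only [e2, e3]
  rw [integral_fintype_prod_eq_prod (μ := fun _ : Fin 2 => γ₁)
    (f := fun _ : Fin 2 => fun u => U (c * y + d * u)), Fin.prod_univ_two, pA_eq, zero_add, ← hd, ← hc, sq]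

/-- Small parameters below `v` at a minimiser decorrelate the magnetisations. -/
theorem corr : CorrStmt := by
  intro β hβ
  refine ⟨tiltK (β ^ 2) * (6 * β ^ 2 + 4 * β), mul_nonneg (tiltK_nonneg _) (by positivity), ?_⟩
  intro k q v t ε _ hq h0v _ ht hε hε1 hlow
  set U := spinU k (upPath β v q) 0 with hUdef
  obtain ⟨C, hU⟩ := P157.Cube2.bd2_u (r := upPath β v q) (Nat.zero_le k)
  have hC := mul_nonneg (mul_nonneg (tiltK_nonneg (β ^ 2)) (show (0 : ℝ) ≤ 6 * β ^ 2 + 4 * β by positivity))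
    (rpow_nonneg hε.le (1 / 4 : ℝ))
  rw [magCorr, ← hUdef, P2_mul hU.down.down ht]
  rcases eq_or_lt_of_le h0v with h | h
  · subst h
    simp only [mul_zero, zero_mul, pA_zero, P157.Cube2.spinU_zero (Nat.zero_le k), zero_add,
      zero_pow two_ne_zero]
    exact hC
  · have hb : 0 < β ^ 2 * v := by positivity
    have hs := sqA_share (s := β ^ 2 * v * t) (b := β ^ 2 * v) hU (P157.Cube2.spinU_odd (Nat.zero_le k))
      (mul_nonneg hb.le ht.1) (mul_le_of_le_one_right hb.le ht.2)
    simp only [sqA, sub_self, pA_zero] at hs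
    rw [show β ^ 2 * v - β ^ 2 * v * t = β ^ 2 * v * (1 - t) by ring, mul_assoc (β ^ 2 * v) t] at hs
    have hm := magn_le hβ hq h0v hε hε1 hlow
    refine (le_of_mul_le_mul_left hs hb).trans ((mul_le_mul_of_nonneg_left hm ht.1).trans ?_)
    rw [mul_add]
    exact add_le_add le_rfl (mul_le_of_le_one_left hC ht.2)

end Vale.Agent.P146.Sup
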