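import Vale.Agent.P146.Sup.CaseIIDefs
import Vale.Agent.P146.Sup.Gap
import Vale.Agent.P146.Sup.Chain
import Vale.Agent.P157.Cube2.Refine

/-!
# P146, superconcentration: steps for the second case

`gm a f` is the plain Gaussian mean, a lower bound of every step.  An independent step of two copies
keeps the shape `F(x) + F(y) + log (1 + θ U(x) U(y))`; the outer step with a small parameter costs a
multiple of the parameter over the plain mean.
-/

open MeasureTheory ProbabilityTheory Real Finset
open Vale.Agent.P157.Rsb (stdG gaussSize lineSize)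
open Vale.Agent.P157.Cube2 (γ₁ hT Pot den num tE)
open Vale.Agent.P157 (coin)
open Vale.Agent.P150 (spin)

namespace Vale.Agent.P146.Sup

variable {a b m : ℝ} {f g : ℝ → ℝ}

/-- The plain Gaussian mean after variance `a`. -/
noncomputable def gm (a : ℝ) (f : ℝ → ℝ) (h : ℝ) : ℝ := ∫ y, f (h + √a * y) ∂γ₁

theorem int_abs_γ : Integrable (fun y : ℝ => |y|) γ₁ := P150.integrable_id_std.abs

theorem int_pot (hf : Pot f) (h : ℝ) : Integrable (fun y => f (h + √a * y)) γ₁ := by
  refine ((integrable_const |f h|).add (int_abs_γ.const_mul √a)).mono'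
    (Continuous.aestronglyMeasurable (by have := hf.diff.continuous; fun_prop)) (ae_of_all _ fun y => ?_)
  have h1 := hf.growth h (h + √a * y)
  rw [add_sub_cancel_left, abs_mul, abs_of_nonneg (sqrt_nonneg a)] at h1
  rw [norm_eq_abs, Pi.add_apply]
  linarith [abs_sub_abs_le_abs_sub (f (h + √a * y)) (f h)]

theorem gm_zero (h : ℝ) : gm 0 f h = f h := by simp [gm]

theorem gm_mono (hf : Pot f) (hg : Pot g) (hle : ∀ x, f x ≤ g x) (h : ℝ) : gm a f h ≤ gm a g h :=
  integral_mono (int_pot hf h) (int_pot hg h) fun _ => hle _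

theorem gm_add_const (hf : Pot f) (c h : ℝ) : gm a (fun x => f x + c) h = gm a f h + c := by
  simp only [gm]
  rw [integral_add (int_pot hf h) (integrable_const c), integral_const, probReal_univ, one_smul]

theorem pot_gm (hf : Pot f) (a : ℝ) : Pot (gm a f) := by
  have hd : ∀ h, HasDerivAt (gm a f) (gm a (deriv f) h) h := fun h =>
    (hasDerivAt_integral_of_dominated_loc_of_deriv_le (μ := γ₁)
      (F := fun h y => f (h + √a * y)) (F' := fun h y => deriv f (h + √a * y)) (bound := fun _ => 1)
      (Metric.ball_mem_nhds h one_pos)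
      (Filter.Eventually.of_forall fun h' => (int_pot hf h').aestronglyMeasurable) (int_pot hf h)
      (Continuous.aestronglyMeasurable (by have := hf.dcont; fun_prop))
      (ae_of_all _ fun y h' _ => hf.dle _) (integrable_const _)
      (ae_of_all _ fun y h' _ => (hf.diff _).hasDerivAt.comp_add_const h' (√a * y))).2
  have hb : ∀ h, |gm a (deriv f) h| ≤ 1 := fun h => by
    refine (norm_integral_le_of_norm_le_const (μ := γ₁) (f := fun y => deriv f (h + √a * y)) (C := 1)
      (ae_of_all _ fun y => hf.dle _)).trans ?_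
    simp
  refine ⟨fun h => (hd h).differentiableAt, ?_, fun h => by rw [(hd h).deriv]; exact hb h⟩
  rw [show deriv (gm a f) = gm a (deriv f) from funext fun h => (hd h).deriv]
  exact continuous_of_dominated (bound := fun _ => 1)
    (fun h => Continuous.aestronglyMeasurable (by have := hf.dcont; fun_prop))
    (fun h => ae_of_all _ fun y => hf.dle _) (integrable_const _)
    (ae_of_all _ fun y => hf.dcont.comp (by fun_prop))

/-- The plain mean is below every step. -/
theorem gm_le_hT (hf : Pot f) (hm : 0 < m) (h : ℝ) : gm a f h ≤ hT m a f h := by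
  have hi := int_pot (a := a) hf h
  set c := ∫ y, f (h + √a * y) ∂γ₁ with hc
  have he := P157.Cube2.int_wt (m := m) (a := a) hf h
  have h1 : exp (m * c) ≤ den m a f h := by
    have h2 : ∀ y, exp (m * c) * (1 + m * (f (h + √a * y) - c)) ≤ exp (m * f (h + √a * y)) := fun y => by
      have := mul_le_mul_of_nonneg_left (add_one_le_exp (m * (f (h + √a * y) - c))) (exp_pos (m * c)).le
      rw [← exp_add, ← mul_add, add_sub_cancel] at this
      linarith
    have hsub : Integrable (fun y => f (h + √a * y) - c) γ₁ := hi.sub' (integrable_const c)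
    refine le_trans (le_of_eq ?_) (integral_mono
      (((integrable_const (1 : ℝ)).add (hsub.const_mul m)).const_mul (exp (m * c))) he h2)
    simp only [Pi.add_apply]
    rw [integral_const_mul, integral_add (integrable_const _) (hsub.const_mul m), integral_const_mul,
      integral_sub hi (integrable_const c), integral_const, integral_const, probReal_univ, one_smul,
      one_smul, ← hc]
    ring
  have h3 := log_le_log (exp_pos _) h1
  rw [log_exp] at h3
  rw [hT, le_div_iff₀ hm, mul_comm]
  exact h3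

theorem mp_lin {α β : ℝ} (h : α ^ 2 + β ^ 2 = 1) :
    MeasurePreserving (fun w : ℝ × ℝ => α * w.1 + β * w.2) (γ₁.prod γ₁) γ₁ := by
  refine ⟨by fun_prop, ?_⟩
  rw [show (fun w : ℝ × ℝ => α * w.1 + β * w.2)
      = (fun w : ℝ × ℝ => w.1 + w.2) ∘ Prod.map (α * ·) (β * ·) from rfl,
    ← Measure.map_map (by fun_prop) (by fun_prop),
    ← Measure.map_prod_map _ _ (by fun_prop) (by fun_prop)]
  simp only [gaussianReal_map_const_mul, mul_zero, mul_one]
  rw [show ((gaussianReal 0 _).prod (gaussianReal 0 _)).map (fun w : ℝ × ℝ => w.1 + w.2)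
    = Measure.conv _ _ from rfl, gaussianReal_conv_gaussianReal]
  congr 1
  · simp
  · ext; simpa using h

theorem gm_gm (ha : 0 ≤ a) (hb : 0 ≤ b) (hf : Pot f) (h : ℝ) : gm a (gm b f) h = gm (a + b) f h := by
  rcases eq_or_lt_of_le (add_nonneg ha hb) with h0 | h0
  · obtain rfl : a = 0 := by linarith
    obtain rfl : b = 0 := by linarith
    simp [gm_zero]
  have hs := (sqrt_pos.2 h0).ne'
  have hmp := mp_lin (α := √a / √(a + b)) (β := √b / √(a + b)) (by
    rw [div_pow, div_pow, sq_sqrt ha, sq_sqrt hb, sq_sqrt h0.le, ← add_div, div_self h0.ne'])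
  have e : ∀ w : ℝ × ℝ, h + √a * w.1 + √b * w.2
      = h + √(a + b) * (√a / √(a + b) * w.1 + √b / √(a + b) * w.2) := fun w => by field_simp; ring
  have hi : Integrable (fun w : ℝ × ℝ => f (h + √a * w.1 + √b * w.2)) (γ₁.prod γ₁) := by
    simp only [e]
    exact hmp.integrable_comp_of_integrable (int_pot (a := a + b) hf h)
  unfold gm
  rw [integral_integral (f := fun y z => f (h + √a * y + √b * z)) hi]
  simp only [e]
  rw [← integral_map (f := fun u => f (h + √(a + b) * u)) hmp.measurable.aemeasurable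
    (by rw [hmp.map_eq]; exact (int_pot hf h).1), hmp.map_eq]

/-- The plain mean of `log cosh`. -/
theorem gm_logcosh (hb : 0 ≤ b) (h : ℝ) :
    gm b (fun x => log (cosh x)) h ≤ log (cosh h) + b / 2 := by
  refine (gm_le_hT P157.Cube2.pot_logcosh one_pos h).trans (le_of_eq ?_)
  have e : ∀ y, exp (1 * log (cosh (h + √b * y)))
      = exp h / 2 * exp (√b * y) + exp (-h) / 2 * exp (-√b * y) := fun y => by
    rw [one_mul, exp_log (cosh_pos _), cosh_eq, neg_add, exp_add, exp_add, neg_mul]
    ring
  simp only [hT, den, e, div_one]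
  rw [integral_add ((integrable_exp_mul_gaussianReal _).const_mul _)
      ((integrable_exp_mul_gaussianReal _).const_mul _),
    integral_const_mul, integral_const_mul, P157.Cube2.integral_exp_mul, P157.Cube2.integral_exp_mul,
    neg_sq, sq_sqrt hb, ← add_mul, ← add_div, ← cosh_eq, log_mul (cosh_pos _).ne' (exp_pos _).ne', log_exp]

/-! ### two copies -/

theorem mp_coord (i : Fin 3) : MeasurePreserving (fun z : Fin 3 → ℝ => z i) G3 γ₁ :=
  measurePreserving_eval (fun _ => gaussianReal 0 1) i

theorem mp_two {i j : Fin 3} (hij : i ≠ j) :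
    MeasurePreserving (fun z : Fin 3 → ℝ => (z i, z j)) G3 (γ₁.prod γ₁) := by
  refine ⟨by fun_prop, (Measure.prod_eq fun s u hs hu => ?_).symm⟩
  rw [Measure.map_apply (by fun_prop) (hs.prod hu)]
  have e : (fun z : Fin 3 → ℝ => (z i, z j)) ⁻¹' s ×ˢ u
      = Set.univ.pi fun l => if l = i then s else if l = j then u else Set.univ := by
    ext z
    simp only [Set.mem_preimage, Set.mem_prod, Set.mem_univ_pi]
    refine ⟨fun h l => ?_, fun h => ⟨by simpa using h i, by simpa [hij.symm] using h j⟩⟩
    split_ifs with h1 h2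
    · exact h1 ▸ h.1
    · exact h2 ▸ h.2
    · trivial
  rw [e]
  change (Measure.pi fun _ : Fin 3 => gaussianReal 0 1) _ = _
  rw [Measure.pi_pi, ← mul_prod_erase univ _ (mem_univ i),
    ← mul_prod_erase (univ.erase i) _ (mem_erase.2 ⟨hij.symm, mem_univ j⟩)]
  rw [prod_eq_one fun l hl => by
    obtain ⟨h1, h2⟩ := mem_erase.1 hl
    obtain ⟨h3, -⟩ := mem_erase.1 h2
    rw [if_neg h3, if_neg h1, measure_univ]]
  simp [hij.symm]

/-- Independent coordinates factor. -/
theorem integral_indep (φ ψ : ℝ → ℝ) (hφ : Continuous φ) (hψ : Continuous ψ) (x : ℝ × ℝ) :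
    ∫ z, φ (sh 0 a x z).1 * ψ (sh 0 a x z).2 ∂G3
      = (∫ y, φ (x.1 + √a * y) ∂γ₁) * ∫ y, ψ (x.2 + √a * y) ∂γ₁ := by
  have hmp := mp_two (show (1 : Fin 3) ≠ 2 by decide)
  simp only [sh_indep]
  rw [← integral_prod_mul (fun y => φ (x.1 + √a * y)) fun y => ψ (x.2 + √a * y), ← hmp.map_eq,
    integral_map hmp.measurable.aemeasurable (Continuous.aestronglyMeasurable (by fun_prop))]

theorem integral_cfst {t : ℝ} (h1 : t ∈ Set.Icc (0 : ℝ) 1) {φ : ℝ → ℝ} (hφ : Continuous φ) :
    ∫ z, φ (cfst t z) ∂G3 = ∫ y, φ y ∂γ₁ ∧ ∫ z, φ (csnd t z) ∂G3 = ∫ y, φ y ∂γ₁ := by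
  have hl := mp_lin (α := √t) (β := √(1 - t)) (by rw [sq_sqrt h1.1, sq_sqrt (by linarith [h1.2])]; ring)
  have k : ∀ {i j : Fin 3}, i ≠ j → ∫ z, φ (√t * z i + √(1 - t) * z j) ∂G3 = ∫ y, φ y ∂γ₁ := fun hij => by
    have hmp := hl.comp (mp_two hij)
    rw [← hmp.map_eq, integral_map hmp.measurable.aemeasurable hφ.aestronglyMeasurable]
    rfl
  exact ⟨k (show (0 : Fin 3) ≠ 1 by decide), k (show (0 : Fin 3) ≠ 2 by decide)⟩

/-- An independent step keeps the coupled shape. -/
theorem T2_coupled (hm : 0 < m) (hm1 : m ≤ 1) {F : ℝ → ℝ} (hF : Pot F) {th : ℝ} (h0 : 0 ≤ th)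
    (h1 : th < 1) {G : ℝ × ℝ → ℝ} (hG : Lip2 G) {c : ℝ}
    (h : ∀ x, G x ≤ F x.1 + F x.2 + c + log (1 + th * (deriv F x.1 * deriv F x.2))) (x : ℝ × ℝ) :
    T2 m 0 a G x ≤ hT m a F x.1 + hT m a F x.2 + c
      + log (1 + th * (tE m a F (deriv F) x.1 * tE m a F (deriv F) x.2)) := by
  have hI : (0 : ℝ) ∈ Set.Icc (0 : ℝ) 1 := ⟨le_rfl, zero_le_one⟩
  have hFc := hF.diff.continuous
  have hUc := hF.dcont
  have pos : ∀ u w : ℝ, |u| ≤ 1 → |w| ≤ 1 → 0 < 1 + th * (u * w) := fun u w hu hw => by
    have : |th * (u * w)| ≤ th := by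
      rw [abs_mul, abs_of_nonneg h0]
      refine mul_le_of_le_one_right h0 ?_
      rw [abs_mul]; exact mul_le_one₀ hu (abs_nonneg _) hw
    linarith [(abs_le.1 this).1]
  have hu : ∀ x, |tE m a F (deriv F) x| ≤ 1 := P157.Cube2.abs_tE_le hF hUc hF.dle
  set d := 1 + th * (tE m a F (deriv F) x.1 * tE m a F (deriv F) x.2) with hd
  have hd0 : 0 < d := pos _ _ (hu _) (hu _)
  set E := fun z => exp (m * (F (sh 0 a x z).1 + F (sh 0 a x z).2))
  set U := fun z => deriv F (sh 0 a x z).1 * deriv F (sh 0 a x z).2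
  have hUb : ∀ z, |U z| ≤ 1 := fun z => by
    simp only [U, abs_mul]; exact mul_le_one₀ (hF.dle _) (abs_nonneg _) (hF.dle _)
  have iE : Integrable E G3 := (lip2_dbl hF).int_exp hI m x
  have hcs := continuous_sh (t := 0) (a := a) x
  have iUE : Integrable (fun z => U z * E z) G3 :=
    iE.bdd_mul (((hUc.comp hcs.fst).mul (hUc.comp hcs.snd)).aestronglyMeasurable)
      (ae_of_all _ fun z => hUb z)
  have eE : ∫ z, E z ∂G3 = den m a F x.1 * den m a F x.2 := by
    simp only [E, mul_add, exp_add]
    exact integral_indep (fun y => exp (m * F y)) (fun y => exp (m * F y)) (by fun_prop) (by fun_prop) x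
  have eUE : ∫ z, U z * E z ∂G3 = num m a F (deriv F) x.1 * num m a F (deriv F) x.2 := by
    simp only [E, U, mul_add, exp_add, mul_mul_mul_comm _ (deriv F _)]
    exact integral_indep (fun y => deriv F y * exp (m * F y)) (fun y => deriv F y * exp (m * F y))
      (by fun_prop) (by fun_prop) x
  set K := exp (m * c) * d ^ m with hK
  have hK0 : 0 < K := mul_pos (exp_pos _) (rpow_pos_of_pos hd0 m)
  have hle : ∀ z, exp (m * G (sh 0 a x z)) ≤ K * ((1 - m + m / d) * E z + m * th / d * (U z * E z)) := by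
    intro z
    have p := pos _ _ (hF.dle (sh 0 a x z).1) (hF.dle (sh 0 a x z).2)
    refine (exp_le_exp.2 (mul_le_mul_of_nonneg_left (h _) hm.le)).trans ?_
    rw [mul_add, mul_add, exp_add, exp_add, mul_comm m (log _), ← rpow_def_of_pos p]
    change E z * exp (m * c) * (1 + th * U z) ^ m ≤ _
    have hb := rpow_one_add_le_one_add_mul_self (s := (1 + th * U z) / d - 1)
      (by linarith [div_nonneg (show 0 ≤ 1 + th * U z from p.le) hd0.le]) hm.le hm1
    rw [add_sub_cancel, div_rpow (show 0 ≤ 1 + th * U z from p.le) hd0.le,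
      div_le_iff₀ (rpow_pos_of_pos hd0 m)] at hb
    refine (mul_le_mul_of_nonneg_left hb (mul_nonneg (exp_pos _).le (exp_pos _).le)).trans (le_of_eq ?_)
    rw [hK]; ring
  have p1 := P157.Cube2.den_pos (m := m) (a := a) hF x.1
  have p2 := P157.Cube2.den_pos (m := m) (a := a) hF x.2
  have key : ∫ z, exp (m * G (sh 0 a x z)) ∂G3 ≤ den m a F x.1 * den m a F x.2 * K := by
    have iR := ((iE.const_mul (1 - m + m / d)).add (iUE.const_mul (m * th / d))).const_mul K
    refine (integral_mono (hG.int_exp hI m x) iR hle).trans (le_of_eq ?_)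
    simp only [Pi.add_apply]
    rw [integral_const_mul, integral_add (iE.const_mul _) (iUE.const_mul _), integral_const_mul,
      integral_const_mul, eE, eUE]
    have e1 : num m a F (deriv F) x.1 = tE m a F (deriv F) x.1 * den m a F x.1 := by
      rw [tE, div_mul_cancel₀ _ p1.ne']
    have e2 : num m a F (deriv F) x.2 = tE m a F (deriv F) x.2 * den m a F x.2 := by
      rw [tE, div_mul_cancel₀ _ p2.ne']
    rw [e1, e2]
    field_simp
    rw [hd]; ring
  have hlog := log_le_log (hG.den_pos hI m x) key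
  rw [log_mul (mul_pos p1 p2).ne' hK0.ne', log_mul p1.ne' p2.ne', hK,
    log_mul (exp_pos _).ne' (rpow_pos_of_pos hd0 m).ne', log_exp, log_rpow hd0] at hlog
  rw [T2, hT, hT, div_le_iff₀ hm]
  refine hlog.trans (le_of_eq ?_)
  field_simp
  ring

theorem tanh_le_self {x : ℝ} (hx : 0 ≤ x) : 0 ≤ tanh x ∧ tanh x ≤ x := by
  refine ⟨by simpa using P157.Cube2.tanh_monotone hx, ?_⟩
  have hmono : Monotone fun y => y - tanh y := by
    refine monotone_of_deriv_nonneg
      (fun y => ((hasDerivAt_id' y).fun_sub (P157.Cube2.hasDerivAt_tanh' y)).differentiableAt) fun y => ?_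
    rw [((hasDerivAt_id' y).fun_sub (P157.Cube2.hasDerivAt_tanh' y)).deriv, sub_sub_cancel]
    exact sq_nonneg _
  simpa using hmono hx

/-- The top: two spins with an interaction. -/
theorem top2_le (lam : ℝ) (x : ℝ × ℝ) :
    top2 lam x ≤ log (cosh x.1) + log (cosh x.2) + lam ^ 2 / 2
      + log (1 + tanh lam * (tanh x.1 * tanh x.2)) := by
  have e : ∫ s, exp (spin s.1 * x.1 + spin s.2 * x.2 + lam * (spin s.1 * spin s.2)) ∂coin.prod coin
      = cosh x.1 * cosh x.2 * cosh lam * (1 + tanh lam * (tanh x.1 * tanh x.2)) := by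
    rw [integral_prod _ Integrable.of_finite]
    simp only [P157.Cube2.integral_coin, spin, if_true, Bool.false_eq_true, if_false, one_mul, neg_one_mul,
      mul_one, mul_neg, neg_neg, exp_add, tanh_eq_sinh_div_cosh]
    have h1 := (cosh_pos x.1).ne'
    have h2 := (cosh_pos x.2).ne'
    have h3 := (cosh_pos lam).ne'
    field_simp
    simp only [cosh_eq, sinh_eq]
    ring
  have hp : 0 < 1 + tanh lam * (tanh x.1 * tanh x.2) := by
    have h1 := abs_tanh_lt_one lam
    have h2 : |tanh lam * (tanh x.1 * tanh x.2)| ≤ |tanh lam| := by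
      rw [abs_mul, abs_mul]
      exact mul_le_of_le_one_right (abs_nonneg _)
        (mul_le_one₀ (abs_tanh_lt_one _).le (abs_nonneg _) (abs_tanh_lt_one _).le)
    linarith [(abs_le.1 h2).1]
  rw [top2, e, log_mul (by positivity) hp.ne', log_mul (by positivity) (cosh_pos _).ne',
    log_mul (cosh_pos _).ne' (cosh_pos _).ne']
  have := log_le_log (cosh_pos lam) (cosh_le_exp_half_sq lam)
  rw [log_exp] at this
  linarith

/-- A step with a small parameter is the plain mean, up to a multiple of the parameter. -/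
theorem T2_small {t A : ℝ} (hm : 0 < m) (hm1 : m ≤ 1) (h1 : t ∈ Set.Icc (0 : ℝ) 1) (ha : 0 ≤ a)
    (hA : a ≤ A) {G : ℝ × ℝ → ℝ} (hG : Lip2 G) (x : ℝ × ℝ) :
    Integrable (fun z => G (sh t a x z)) G3 ∧
      T2 m t a G x ≤ P2 t a G x + 4 * symC (gaussSize (Fin 3)) (4 * (A + 1)) * a * m := by
  have hA0 : 0 ≤ A := ha.trans hA
  have hGi : Integrable (fun z => G (sh t a x z)) G3 := by
    refine ((integrable_const |G x|).add ((integrable_finsetSum univ fun i _ =>
      (mp_coord i).integrable_comp_of_integrable int_abs_γ).const_mul (2 * √a))).mono'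
      (hG.cont.comp (continuous_sh x)).aestronglyMeasurable (ae_of_all _ fun z => ?_)
    rw [norm_eq_abs, Pi.add_apply]
    simp only [Function.comp_apply]
    linarith [abs_sub_abs_le_abs_sub (G (sh t a x z)) (G x), hG.sh_le (a := a) h1 x z]
  refine ⟨hGi, ?_⟩
  set u := fun z => m * G (sh t a x z) with hu'
  have hu : Integrable (fun z => exp (u z)) G3 := hG.int_exp h1 m x
  have hn : Integrable (fun z => exp (-u z)) G3 := by
    simpa [u, neg_mul] using hG.int_exp (a := a) h1 (-m) x
  have hum : Continuous u := by have := continuous_sh (t := t) (a := a) x; have := hG.cont; fun_prop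
  have hc : m * (2 * √a) ≤ 4 * (A + 1) := by
    have := sqrt_le_add_one hA hA0
    nlinarith [sqrt_nonneg a]
  have hprod := exp_prod_le (gaussSize (Fin 3)) hum.measurable (c := m * (2 * √a)) (c₀ := 4 * (A + 1))
    (by positivity) hc hu hn fun z z' => by
      simp only [u, ← mul_sub, abs_mul, abs_of_pos hm, mul_assoc, gaussSize]
      refine mul_le_mul_of_nonneg_left ?_ hm.le
      refine (abs_sub_le _ (G x) _).trans ?_
      rw [abs_sub_comm (G x), ← mul_assoc, mul_add]
      exact add_le_add (hG.sh_le h1 x z) (hG.sh_le h1 x z')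
  have hP : ∫ z, u z ∂G3 = m * P2 t a G x := by rw [P2, ← integral_const_mul]
  set M := m * P2 t a G x with hMdef
  have hj : exp (-M) ≤ ∫ z, exp (-u z) ∂G3 := by
    have hui : Integrable u G3 := hGi.const_mul m
    have hMi : Integrable (fun z => M - u z) G3 := (integrable_const M).sub' hui
    have h2 : ∀ z, exp (-M) * (1 + (M - u z)) ≤ exp (-u z) := fun z => by
      have := mul_le_mul_of_nonneg_left (add_one_le_exp (M - u z)) (exp_pos (-M)).le
      rw [← exp_add, show -M + (M - u z) = -u z by ring] at this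
      linarith
    refine le_trans (le_of_eq ?_) (integral_mono
      (((integrable_const (1 : ℝ)).add hMi).const_mul (exp (-M))) hn h2)
    simp only [Pi.add_apply]
    rw [integral_const_mul, integral_add (integrable_const _) hMi, integral_sub (integrable_const M) hui, hP]
    simp
  have hpos : 0 < ∫ z, exp (u z) ∂G3 := integral_exp_pos hu
  have key : (∫ z, exp (u z) ∂G3) * exp (-M) ≤ exp (symC (gaussSize (Fin 3)) (4 * (A + 1)) * (m * (2 * √a)) ^ 2) :=
    (mul_le_mul_of_nonneg_left hj hpos.le).trans hprod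
  have hlog := log_le_log (mul_pos hpos (exp_pos _)) key
  rw [log_mul hpos.ne' (exp_pos _).ne', log_exp, log_exp, mul_pow, mul_pow, sq_sqrt ha] at hlog
  rw [T2, div_le_iff₀ hm]
  rw [hMdef] at hlog
  simp only [u] at hlog
  nlinarith

end Vale.Agent.P146.Sup
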