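import Vale.Agent.P146.Defs
import Vale.Agent.P146.MargGrid
import Vale.Agent.P157.Cube
import Vale.Agent.P157.Rsb.CavLinear
import Vale.Agent.P150.Gauss

/-!
# P146, superconcentration: Gaussian systems with cascade fields

`GSys` is a finite system with outer couplings `A` and fields `B` of the levels of a uniform grid.
`cavSys` is the cavity system between the true one-site terms and their deterministic kernels;
`twoSys` is the one-site system of two copies with correlation `t` on the levels below `v`.
-/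

open MeasureTheory ProbabilityTheory Real Finset
open Vale.Agent.P157.Rsb (stdG val cnd pairCnd linZ lowKer lev mass IsPath FieldIdx)
open Vale.Agent.P157 (cubeLaw coin)
open Vale.Agent.P150 (Edge spin stdPi)

namespace Vale.Agent.P146.Sup

/-- A system: outer couplings, field coefficients and a deterministic part. -/
structure GSys (E ι X : Type) (k : ℕ) where
  /-- the coefficient of an outer coupling -/
  A : E → X → ℝ
  /-- the coefficient of a field coordinate -/
  B : Fin k → ι → X → ℝ
  /-- the deterministic part -/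
  H : X → ℝ

section

variable {E ι X : Type} [Fintype E] [Fintype ι] [MeasurableSpace X] {k : ℕ}

/-- The Hamiltonian at given couplings. -/
noncomputable def GSys.ham (S : GSys E ι X k) (g : E → ℝ) (z : Fin k → ι → ℝ) (x : X) : ℝ :=
  linZ S.B z x + ∑ e, g e * S.A e x + S.H x

/-- The mean value at the root. -/
noncomputable def gval (S : GSys E ι X k) (μ : Measure X) : ℝ :=
  ∫ g, val (stdG ι) μ (S.ham g) 0 (fun _ _ => 0) ∂stdPi E

/-- The mean of an observable of one configuration. -/
noncomputable def gcnd (S : GSys E ι X k) (μ : Measure X) (φ : X → ℝ) : ℝ :=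
  ∫ g, cnd (stdG ι) μ (S.ham g) (fun _ x => φ x) 0 (fun _ _ => 0) ∂stdPi E

/-- The mean of an observable of two configurations that branch after level `j`. -/
noncomputable def gpair (S : GSys E ι X k) (μ : Measure X) (j : ℕ) (ψ : X → X → ℝ) : ℝ :=
  ∫ g, cnd (stdG ι) μ (S.ham g)
    (fun z _ => pairCnd (stdG ι) μ (S.ham g) (fun _ x _ y => ψ x y) j z) 0 (fun _ _ => 0) ∂stdPi E

/-- The covariance of the random part at two configurations that branch after level `j`. -/
noncomputable def kern (S : GSys E ι X k) (j : ℕ) (x y : X) : ℝ :=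
  ∑ e, S.A e x * S.A e y + lowKer S.B S.B j x y

/-- A trigonometric path from `C + P₀` to `C + P₁`. -/
noncomputable def GSys.path (C P₀ P₁ : GSys E ι X k) (θ : ℝ) : GSys E ι X k where
  A e x := C.A e x + cos θ * P₀.A e x + sin θ * P₁.A e x
  B a i x := C.B a i x + cos θ * P₀.B a i x + sin θ * P₁.B a i x
  H x := C.H x + cos θ ^ 2 * P₀.H x + sin θ ^ 2 * P₁.H x

/-- Every coordinate carries at most one of the three parts. -/
def Orth (C P₀ P₁ : GSys E ι X k) : Prop :=
  (∀ e x y, C.A e x * P₀.A e y = 0 ∧ C.A e x * P₁.A e y = 0 ∧ P₀.A e x * P₁.A e y = 0) ∧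
    ∀ a i x y, C.B a i x * P₀.B a i y = 0 ∧ C.B a i x * P₁.B a i y = 0 ∧ P₀.B a i x * P₁.B a i y = 0

/-- The rate along the path, divided by `2 sin θ cos θ`. -/
noncomputable def bracket (μ : Measure X) (C P₀ P₁ : GSys E ι X k) (θ : ℝ) : ℝ :=
  gcnd (C.path P₀ P₁ θ) μ (fun x => (kern P₁ k x x - kern P₀ k x x) / 2 + P₁.H x - P₀.H x)
    - mass k / 2 * ∑ j ∈ Icc 0 k, gpair (C.path P₀ P₁ θ) μ j fun x y => kern P₁ j x y - kern P₀ j x y

end

/-! ### The perturbed model and the cavity systems -/

/-- The mean free energy against the uniform average. -/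
noncomputable def meanF (β : ℝ) (n : ℕ) : ℝ :=
  (∫ g, freeEnergy n β g ∂P150.disorder n) - n * log 2

/-- The sum of the squared amplitudes. -/
noncomputable def pertSq (k : ℕ) (σ : ℕ → ℝ) : ℝ := ∑ l : Fin k, σ (l + 1) ^ 2

/-- The model with fields of amplitude `σ l` at level `l` and their compensation. -/
noncomputable def pertSys (β : ℝ) (n k : ℕ) (σ : ℕ → ℝ) : GSys (Edge n) (Fin n) (Fin n → Bool) k where
  A e x := β / √n * (spin (x e.1.1) * spin (x e.1.2))
  B a i x := σ (a + 1) * spin (x i)
  H _ := -(pertSq k σ) / 2 * n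

/-- Its mean value. -/
noncomputable def pertF (β : ℝ) (n k : ℕ) (σ : ℕ → ℝ) : ℝ := gval (pertSys β n k σ) (cubeLaw n)

/-- The configurations of the cavity systems: `m` old spins and the new one. -/
abbrev CavX (m : ℕ) : Type := (Fin m → Bool) × Bool

/-- Their law. -/
noncomputable def cavLaw (m : ℕ) : Measure (CavX m) := (cubeLaw m).prod coin

/-- The couplings: among old spins, to the new spin, and the correction of the temperature. -/
abbrev CavE (m : ℕ) : Type := Edge m ⊕ (Fin m ⊕ Edge m)

/-- The overlap of the old spins. -/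
noncomputable def ov {m : ℕ} (x y : CavX m) : ℝ := (∑ i, spin (x.1 i) * spin (y.1 i)) / m

/-- The common base: old spins at the smaller coupling, with the perturbing fields. -/
noncomputable def baseSys (β : ℝ) (m k : ℕ) (σ : ℕ → ℝ) : GSys (CavE m) (FieldIdx m) (CavX m) k where
  A e x := Sum.elim (fun e : Edge m => β / √((m : ℝ) + 1) * (spin (x.1 e.1.1) * spin (x.1 e.1.2)))
    (fun _ => 0) e
  B a i x := Sum.elim (fun i => σ (a + 1) * spin (x.1 i)) (fun _ => 0) i
  H _ := -(pertSq k σ) / 2 * m

/-- The random one-site term: the new spin (`side`) or the correction of the temperature. -/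
noncomputable def randPart (β : ℝ) (m k : ℕ) (side : Bool) : GSys (CavE m) (FieldIdx m) (CavX m) k where
  A e x := Sum.elim (fun _ => 0)
    (Sum.elim (fun i => if side then β / √((m : ℝ) + 1) * (spin (x.1 i) * spin x.2) else 0)
      fun e : Edge m => if side then 0
        else β / √((m : ℝ) + 1) * (spin (x.1 e.1.1) * spin (x.1 e.1.2)) / √m) e
  B _ _ _ := 0
  H _ := 0

/-- Its deterministic counterpart along the path `r`. -/
noncomputable def detPart (β : ℝ) (m k : ℕ) (side : Bool) (r : ℕ → ℝ) :
    GSys (CavE m) (FieldIdx m) (CavX m) k where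
  A _ _ := 0
  B a i x := Sum.elim (fun _ => 0)
    (fun _ => if side then β * √(r (a + 1) - r a) * spin x.2
      else β / √2 * √(r (a + 1) ^ 2 - r a ^ 2)) i
  H _ := if side then β ^ 2 / 2 * (1 - r k) else β ^ 2 / 4 * (1 - r k ^ 2)

/-- The interpolated cavity system; random at `θ = 0`, deterministic at `θ = π / 2`. -/
noncomputable def cavSys (β : ℝ) (m k : ℕ) (σ : ℕ → ℝ) (side : Bool) (r : ℕ → ℝ) (θ : ℝ) :
    GSys (CavE m) (FieldIdx m) (CavX m) k :=
  (baseSys β m k σ).path (randPart β m k side) (detPart β m k side r) θ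

/-- The overlap path of the base. -/
noncomputable def baseQ (β : ℝ) (m k : ℕ) (σ : ℕ → ℝ) (j : ℕ) : ℝ :=
  if j = 0 then 0 else gpair (baseSys β m k σ) (cavLaw m) j ov

/-- The overlap error of a cavity system against `r`. -/
noncomputable def cavErr (β : ℝ) (m k : ℕ) (σ : ℕ → ℝ) (side : Bool) (r : ℕ → ℝ) (θ : ℝ) : ℝ :=
  mass k * ∑ j ∈ Icc 0 k, gpair (cavSys β m k σ side r θ) (cavLaw m) j fun x y => |ov x y - r j|

/-! ### Two copies -/

/-- The one-site system of two copies on a grid with `K` levels: common fields below `v`. -/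
noncomputable def twoSys (K : ℕ) (β t v : ℝ) (Q : ℕ → ℝ) (lam : ℝ) :
    GSys (Fin 0) (Fin 3) (Bool × Bool) K where
  A _ _ := 0
  B a i x :=
    let dc := t * (min (Q (a + 1)) v - min (Q a) v)
    ![β * √dc * (spin x.1 + spin x.2), β * √(Q (a + 1) - Q a - dc) * spin x.1,
      β * √(Q (a + 1) - Q a - dc) * spin x.2] i
  H x := β ^ 2 * (1 - Q K) + lam * (spin x.1 * spin x.2)

/-- The bound on two copies with overlap `v`, per site. -/
noncomputable def twoObj (K : ℕ) (β t v : ℝ) (Q : ℕ → ℝ) (lam : ℝ) : ℝ :=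
  gval (twoSys K β t v Q lam) (coin.prod coin) - lam * v
    - β ^ 2 / 2 * (1 + t * v ^ 2 - mass K * ∑ j ∈ Icc 1 K, (Q j ^ 2 + t * min (Q j) v ^ 2))

/-- The integral of the parameter below `v`. -/
noncomputable def lowMass (k : ℕ) (q : ℕ → ℝ) (v : ℝ) : ℝ :=
  ∑ l ∈ Icc 1 k, lev k l * (min (q l) v - min (q (l - 1)) v) + max (v - q k) 0

/-- Shared and own parts of two coupling arrays with correlation `t`. -/
abbrev PairE (n : ℕ) : Type := Edge n ⊕ (Edge n ⊕ Edge n)

/-- The couplings of the first copy. -/
noncomputable def fstC {n : ℕ} (t : ℝ) (g : PairE n → ℝ) (e : Edge n) : ℝ :=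
  √t * g (.inl e) + √(1 - t) * g (.inr (.inl e))

/-- The couplings of the second copy. -/
noncomputable def sndC {n : ℕ} (t : ℝ) (g : PairE n → ℝ) (e : Edge n) : ℝ :=
  √t * g (.inl e) + √(1 - t) * g (.inr (.inr e))

/-- The overlap of two configurations. -/
noncomputable def ovr {n : ℕ} (x y : Fin n → Bool) : ℝ := (∑ i, spin (x i) * spin (y i)) / n

/-- The pairs with overlap within `w` of `u`. -/
noncomputable def bin (n : ℕ) (u w : ℝ) : Finset ((Fin n → Bool) × (Fin n → Bool)) := by
  classical exact univ.filter fun p => |ovr p.1 p.2 - u| ≤ w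

/-- The mean free energy of two copies restricted to a bin, against the uniform average. -/
noncomputable def binF (β : ℝ) (n : ℕ) (t u w : ℝ) : ℝ :=
  (∫ g, log (∑ p ∈ bin n u w, exp (β * P150.energy n (fstC t g) p.1 + β * P150.energy n (sndC t g) p.2))
    ∂stdPi (PairE n)) - 2 * n * log 2

/-- The mean Gibbs weight of a function of the overlap of two correlated copies. -/
noncomputable def pairMean (β : ℝ) (n : ℕ) (t : ℝ) (φ : ℝ → ℝ) : ℝ :=
  ∫ g, ∑ x, ∑ y, P150.gibbs n β (fstC t g) x * P150.gibbs n β (sndC t g) y * φ (ovr x y) ∂stdPi (PairE n)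

end Vale.Agent.P146.Sup
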