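import Vale.Agent.P146.Sup.Gap

/-!
# P146, superconcentration: a short step to second order

Over a short increment of variance `h` the step of two copies with parameter `m / (1 + t)` is below the
two single steps with parameter `m` by `h m t / (2 (1 + t)) (U x₁ - U x₂)²`, up to `h ^ (3/2)`.
-/

open MeasureTheory ProbabilityTheory Real Finset
open Vale.Agent.P157.Rsb (stdG gaussSize lineSize Size)
open Vale.Agent.P157.Cube2 (γ₁ hT Pot Bd den)

namespace Vale.Agent.P146.Sup

theorem cube_le_exp {x : ℝ} (hx : 0 ≤ x) : x ^ 3 ≤ 6 * exp x := by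
  have h := pow_div_factorial_le_exp x hx 3
  rw [show ((Nat.factorial 3 : ℕ) : ℝ) = 6 by norm_num [Nat.factorial]] at h
  linarith

theorem abs_exp_sub_quad (x : ℝ) : |exp x - (1 + x + x ^ 2 / 2)| ≤ |x| ^ 3 * exp |x| := by
  rcases le_or_gt |x| 1 with h | h
  · have hb := Real.exp_bound h (n := 3) (by norm_num)
    simp only [sum_range_succ, sum_range_zero, Nat.factorial] at hb
    norm_num at hb
    refine hb.trans (mul_le_mul le_rfl ?_ (by norm_num) (by positivity))
    linarith [one_le_exp (abs_nonneg x)]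
  · have h0 : exp |x| ≤ |x| ^ 3 * exp |x| := le_mul_of_one_le_left (exp_pos _).le (one_le_pow₀ h.le)
    have h1 := quadratic_le_exp_of_nonneg (abs_nonneg x)
    rw [sq_abs] at h1
    have h2 : exp x ≤ exp |x| := exp_le_exp.2 (le_abs_self x)
    have h3 : 0 ≤ 1 + x + x ^ 2 / 2 := by nlinarith [sq_nonneg (x + 1)]
    rw [abs_le]
    constructor <;> linarith [exp_pos x, le_abs_self x]

section

variable {Ω : Type} [MeasurableSpace Ω] {ν : Measure Ω} [IsProbabilityMeasure ν]

/-- The logarithm of an exponential moment to second order. -/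
theorem log_exp_expand (w : Size ν) (A : ℝ) : ∃ K, 0 ≤ K ∧ ∀ (ε : ℝ) (u L Q : Ω → ℝ),
    0 ≤ ε → ε ≤ 1 → Measurable u → Measurable L → Measurable Q →
    (∀ z, |u z| ≤ ε * A * (w.w z + 1)) → (∀ z, |L z| ≤ ε * A * (w.w z + 1)) →
    (∀ z, |Q z| ≤ ε ^ 2 * exp (A * (w.w z + 1))) →
    (∀ z, |u z - L z - Q z| ≤ ε ^ 3 * exp (A * (w.w z + 1))) → ∫ z, L z ∂ν = 0 →
    |log (∫ z, exp (u z) ∂ν) - ((∫ z, Q z ∂ν) + (∫ z, L z ^ 2 ∂ν) / 2)| ≤ K * ε ^ 3 := by
  set E : Ω → ℝ := fun z => exp (3 * A * w.w z) * exp (3 * A)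
  have hEi : Integrable E ν := (w.int (3 * A)).mul_const _
  set I := ∫ z, E z ∂ν
  have hI : 0 ≤ I := integral_nonneg fun z => by positivity
  refine ⟨9 * I + 12 * I + (11 * I) ^ 2 * exp (2 * I), by positivity,
    fun ε u L Q hε hε1 mu mL mQ bu bL bQ b3 hL0 => ?_⟩
  set e : Ω → ℝ := fun z => exp (A * (w.w z + 1))
  rcases eq_or_lt_of_le hε with rfl | hεp
  · have z1 : ∀ z, u z = 0 := fun z => by simpa using bu z
    have z2 : ∀ z, L z = 0 := fun z => by simpa using bL z
    have z3 : ∀ z, Q z = 0 := fun z => by simpa using bQ z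
    simp [z1, z2, z3]
  have hA : ∀ z, 0 ≤ A * (w.w z + 1) := fun z => by
    have := (abs_nonneg _).trans (bu z)
    rw [mul_assoc] at this
    exact nonneg_of_mul_nonneg_right this hεp
  have e1 : ∀ z, 1 ≤ e z := fun z => one_le_exp (hA z)
  have e0 : ∀ z, 0 < e z := fun z => exp_pos _
  have e3 : ∀ z, e z ^ 3 = E z := fun z => by
    simp only [e, E, ← exp_nat_mul, ← exp_add]; congr 1; push_cast; ring
  have e13 : ∀ z, e z ≤ E z := fun z => by rw [← e3]; exact le_self_pow₀ (e1 z) (by norm_num)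
  have e23 : ∀ z, e z ^ 2 ≤ E z := fun z => by
    rw [← e3]; exact pow_le_pow_right₀ (e1 z) (by norm_num)
  have lu : ∀ z, |u z| ≤ ε * e z := fun z => (bu z).trans (by
    rw [mul_assoc]
    exact mul_le_mul_of_nonneg_left (by linarith [add_one_le_exp (A * (w.w z + 1))]) hε)
  have lL : ∀ z, |L z| ≤ ε * e z := fun z => (bL z).trans (by
    rw [mul_assoc]
    exact mul_le_mul_of_nonneg_left (by linarith [add_one_le_exp (A * (w.w z + 1))]) hε)
  have hp : ∀ z, |exp (u z) - 1 - L z - Q z - L z ^ 2 / 2| ≤ ε ^ 3 * (9 * E z) := fun z => by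
    have a1 : |exp (u z) - (1 + u z + u z ^ 2 / 2)| ≤ ε ^ 3 * (6 * E z) := by
      refine (abs_exp_sub_quad _).trans ?_
      have c1 : |u z| ^ 3 ≤ ε ^ 3 * (6 * e z) := by
        refine (pow_le_pow_left₀ (abs_nonneg _) (bu z) 3).trans ?_
        rw [mul_assoc, mul_pow]
        exact mul_le_mul_of_nonneg_left (cube_le_exp (hA z)) (by positivity)
      have c2 : exp |u z| ≤ e z := exp_le_exp.2 ((bu z).trans (by
        rw [mul_assoc]; exact mul_le_of_le_one_left (hA z) hε1))
      refine (mul_le_mul c1 c2 (exp_pos _).le (mul_nonneg (by positivity) (by linarith [e0 z]))).trans ?_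
      nlinarith [mul_le_mul_of_nonneg_left (e23 z) (pow_nonneg hε 3)]
    have a2 : |u z ^ 2 - L z ^ 2| ≤ ε ^ 3 * (4 * E z) := by
      have c1 : |u z - L z| ≤ ε ^ 2 * (2 * e z) := by
        have h1 : ε ^ 3 * e z ≤ ε ^ 2 * e z :=
          mul_le_mul_of_nonneg_right (pow_le_pow_of_le_one hε hε1 (by norm_num)) (e0 z).le
        have := abs_add_le (u z - L z - Q z) (Q z)
        rw [sub_add_cancel] at this
        linarith [b3 z, bQ z]
      have c2 : |u z + L z| ≤ ε * (2 * e z) := (abs_add_le _ _).trans (by linarith [lu z, lL z])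
      rw [sq_sub_sq, abs_mul]
      refine (mul_le_mul c2 c1 (abs_nonneg _) ((abs_nonneg _).trans c2)).trans ?_
      nlinarith [mul_le_mul_of_nonneg_left (e23 z) (pow_nonneg hε 3)]
    have a3 : |u z - L z - Q z| ≤ ε ^ 3 * E z :=
      (b3 z).trans (mul_le_mul_of_nonneg_left (e13 z) (by positivity))
    rw [abs_le] at a1 a2 a3 ⊢
    constructor <;> linarith
  have dom : ∀ {g : Ω → ℝ}, Measurable g → (∀ z, |g z| ≤ E z) → Integrable g ν := fun hg hb =>
    hEi.mono' hg.aestronglyMeasurable (ae_of_all _ hb)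
  have iu : Integrable (fun z => exp (u z)) ν := dom (by fun_prop) fun z => by
    rw [abs_exp]
    exact (exp_le_exp.2 ((le_abs_self _).trans ((bu z).trans (by
      rw [mul_assoc]; exact mul_le_of_le_one_left (hA z) hε1)))).trans (e13 z)
  have iL : Integrable L ν := dom mL fun z =>
    (lL z).trans ((mul_le_of_le_one_left (e0 z).le hε1).trans (e13 z))
  have iu' : Integrable u ν := dom mu fun z =>
    (lu z).trans ((mul_le_of_le_one_left (e0 z).le hε1).trans (e13 z))
  have iQ : Integrable Q ν := dom mQ fun z =>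
    (bQ z).trans ((mul_le_of_le_one_left (e0 z).le (pow_le_one₀ hε hε1)).trans (e13 z))
  have iL2 : Integrable (fun z => L z ^ 2) ν := dom (by fun_prop) fun z => by
    rw [abs_pow]
    exact (pow_le_pow_left₀ (abs_nonneg _) ((lL z).trans (mul_le_of_le_one_left (e0 z).le hε1)) 2).trans (e23 z)
  set X := ∫ z, exp (u z) ∂ν
  set s := (∫ z, Q z ∂ν) + (∫ z, L z ^ 2 ∂ν) / 2 with hs
  have hX : |X - 1 - s| ≤ ε ^ 3 * (9 * I) := by
    have i4 := ((iu.sub' (integrable_const (1 : ℝ))).sub' iL).sub' iQ |>.sub' (iL2.div_const 2)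
    have e4 : X - 1 - s = ∫ z, exp (u z) - 1 - L z - Q z - L z ^ 2 / 2 ∂ν := by
      rw [integral_sub (((iu.sub' (integrable_const _)).sub' iL).sub' iQ) (iL2.div_const 2),
        integral_sub ((iu.sub' (integrable_const _)).sub' iL) iQ,
        integral_sub (iu.sub' (integrable_const _)) iL, integral_sub iu (integrable_const _),
        integral_const, probReal_univ, one_smul, hL0, integral_div, hs]
      ring
    rw [e4]
    refine abs_integral_le_integral_abs.trans ((integral_mono i4.abs ((hEi.const_mul 9).const_mul _) hp).trans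
      (le_of_eq ?_))
    rw [integral_const_mul, integral_const_mul]
  have hsb : |s| ≤ ε ^ 2 * (2 * I) := by
    have q1 : |∫ z, Q z ∂ν| ≤ ε ^ 2 * I := by
      refine abs_integral_le_integral_abs.trans ((integral_mono iQ.abs (hEi.const_mul _) fun z =>
        (bQ z).trans (mul_le_mul_of_nonneg_left (e13 z) (sq_nonneg ε))).trans (le_of_eq (integral_const_mul _ _)))
    have q2 : |∫ z, L z ^ 2 ∂ν| ≤ ε ^ 2 * I := by
      refine abs_integral_le_integral_abs.trans ((integral_mono iL2.abs (hEi.const_mul _) fun z => ?_).trans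
        (le_of_eq (integral_const_mul _ _)))
      rw [abs_pow]
      refine (pow_le_pow_left₀ (abs_nonneg _) (lL z) 2).trans ?_
      rw [mul_pow]; exact mul_le_mul_of_nonneg_left (e23 z) (sq_nonneg ε)
    rw [abs_le] at q1 q2 ⊢
    constructor <;> linarith
  have hd : |X - 1| ≤ ε ^ 2 * (11 * I) := by
    have := abs_add_le (X - 1 - s) s
    rw [sub_add_cancel] at this
    have h1 : ε ^ 3 * (9 * I) ≤ ε ^ 2 * (9 * I) :=
      mul_le_mul_of_nonneg_right (pow_le_pow_of_le_one hε hε1 (by norm_num)) (by linarith)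
    linarith
  have hXpos : 0 < X := integral_exp_pos iu
  have hlow : exp (-I) ≤ X := by
    have j := log_int_exp_ge (ν := ν) (u := fun _ => 0) (v := u) (integrable_const _)
      (by simpa using iu) (by simpa using iu')
    simp only [exp_zero, integral_const, probReal_univ, one_smul, log_one, zero_add, div_one, mul_one] at j
    have := exp_le_exp.2 j
    rw [exp_log hXpos] at this
    refine (exp_le_exp.2 (neg_le.1 ?_)).trans this
    refine (neg_le_abs _).trans (abs_integral_le_integral_abs.trans (integral_mono iu'.abs hEi fun z => ?_))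
    exact (lu z).trans ((mul_le_of_le_one_left (e0 z).le hε1).trans (e13 z))
  have up := log_le_sub_one_of_pos hXpos
  have dn : X - 1 - (X - 1) ^ 2 / X ≤ log X := by
    have := log_le_sub_one_of_pos (inv_pos.2 hXpos)
    rw [log_inv] at this
    have e5 : X - 1 - (X - 1) ^ 2 / X = 1 - X⁻¹ := by field_simp; ring
    linarith
  have hq : (X - 1) ^ 2 / X ≤ ε ^ 3 * ((11 * I) ^ 2 * exp (2 * I)) := by
    rw [div_le_iff₀ hXpos]
    have h1 : (X - 1) ^ 2 ≤ ε ^ 3 * (11 * I) ^ 2 := by
      rw [← sq_abs]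
      refine (pow_le_pow_left₀ (abs_nonneg _) hd 2).trans ?_
      rw [mul_pow, ← pow_mul]
      exact mul_le_mul_of_nonneg_right (pow_le_pow_of_le_one hε hε1 (by norm_num)) (sq_nonneg _)
    have h2 : 1 ≤ exp (2 * I) * X := by
      refine le_trans ?_ (mul_le_mul_of_nonneg_left hlow (exp_pos _).le)
      rw [← exp_add]; exact one_le_exp (by linarith)
    nlinarith [mul_le_mul_of_nonneg_left h2 (show 0 ≤ ε ^ 3 * (11 * I) ^ 2 by positivity)]
  have hI3 : 0 ≤ ε ^ 3 * I := mul_nonneg (pow_nonneg hε 3) hI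
  rw [abs_le] at hX ⊢
  constructor <;>
    nlinarith [mul_nonneg (pow_nonneg hε 3) (mul_nonneg (sq_nonneg (11 * I)) (exp_pos (2 * I)).le)]

end

/-! ### Taylor, moments -/

theorem abs_deriv_step {h h' : ℝ → ℝ} (hd : ∀ y, HasDerivAt h (h' y) y) (h0 : h 0 = 0) {K : ℝ} (hK : 0 ≤ K)
    {n : ℕ} (hb : ∀ y, |h' y| ≤ K * |y| ^ n) (δ : ℝ) : |h δ| ≤ K * |δ| ^ (n + 1) := by
  have hs : ∀ y ∈ Set.uIcc 0 δ, ‖h' y‖ ≤ K * |δ| ^ n := fun y hy => by
    refine (hb y).trans (mul_le_mul_of_nonneg_left (pow_le_pow_left₀ (abs_nonneg _) ?_ n) hK)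
    simpa using Set.abs_sub_left_of_mem_uIcc hy
  have := (convex_uIcc (0 : ℝ) δ).norm_image_sub_le_of_norm_hasDerivWithin_le
    (fun y _ => (hd y).hasDerivWithinAt) hs Set.left_mem_uIcc Set.right_mem_uIcc
  rw [h0, sub_zero, sub_zero, Real.norm_eq_abs, Real.norm_eq_abs] at this
  rw [pow_succ, ← mul_assoc]
  exact this

theorem taylor3 {F : ℝ → ℝ} (hF : Pot F) {C : ℝ} (hC : Bd 2 C (deriv F)) (x δ : ℝ) :
    |F (x + δ) - F x - deriv F x * δ - deriv (deriv F) x * δ ^ 2 / 2| ≤ C * |δ| ^ 3 := by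
  obtain ⟨hd1, -, hd2, -, -, hb3⟩ := hC
  have hC0 : 0 ≤ C := (abs_nonneg _).trans (hb3 0)
  have s1 : ∀ y, HasDerivAt (fun y => deriv (deriv F) (x + y) - deriv (deriv F) x)
      (deriv (deriv (deriv F)) (x + y)) y := fun y =>
    (((hd2 _).hasDerivAt).comp_const_add x y).sub_const _
  have s2 : ∀ y, HasDerivAt (fun y => deriv F (x + y) - deriv F x - deriv (deriv F) x * y)
      (deriv (deriv F) (x + y) - deriv (deriv F) x) y := fun y =>
    (((hd1 _).hasDerivAt.comp_const_add x y).sub_const _).fun_sub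
      (by simpa using (hasDerivAt_id y).const_mul (deriv (deriv F) x))
  have s3 : ∀ y, HasDerivAt (fun y => F (x + y) - F x - deriv F x * y - deriv (deriv F) x * y ^ 2 / 2)
      (deriv F (x + y) - deriv F x - deriv (deriv F) x * y) y := fun y => by
    refine (((((hF.diff _).hasDerivAt.comp_const_add x y).sub_const _).fun_sub
      ((hasDerivAt_id y).const_mul (deriv F x))).fun_sub
      (((hasDerivAt_pow 2 y).const_mul (deriv (deriv F) x)).div_const 2)).congr_deriv ?_
    simp; ring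
  exact abs_deriv_step s3 (by simp) hC0
    (fun y => abs_deriv_step s2 (by simp) hC0
      (fun y => abs_deriv_step s1 (by simp) hC0 (n := 0) (fun y => by simpa using hb3 _) y) y) δ

theorem stdG_int {g : (Fin 3 → ℝ) → ℝ} (hg : Continuous g)
    (hb : ∃ K, ∀ z, |g z| ≤ K * exp (2 * ∑ i, |z i|)) : Integrable g G3 := by
  obtain ⟨K, hK⟩ := hb
  exact (((gaussSize (Fin 3)).int 2).const_mul K).mono' hg.aestronglyMeasurable (ae_of_all _ hK)

theorem coord_moments (i j : Fin 3) :
    ∫ z, z i ∂G3 = 0 ∧ ∫ z, z i * z j ∂G3 = if i = j then 1 else 0 := by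
  have hs : ∀ (i : Fin 3) (z : Fin 3 → ℝ), |z i| ≤ exp (∑ a, |z a|) := fun i z =>
    (single_le_sum (fun a _ => abs_nonneg (z a)) (mem_univ i)).trans (by linarith [add_one_le_exp (∑ a, |z a|)])
  refine ⟨?_, ?_⟩
  · have := P157.Rsb.gauss_ibp i (G := fun _ => (1 : ℝ)) (G' := fun _ => 0) (fun y => hasDerivAt_const _ _)
      measurable_const measurable_const ⟨1, fun y => by
        simp only [abs_one, abs_zero, one_mul]
        exact ⟨one_le_exp (sum_nonneg fun a _ => abs_nonneg _), (exp_pos _).le⟩⟩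
    simpa using this
  · have := P157.Rsb.gauss_ibp i (G := fun z => z j) (G' := fun _ => if i = j then 1 else 0)
      (fun y => by
        by_cases h : i = j
        · subst h; simp only [Function.update_self, if_true]; exact hasDerivAt_id' _
        · simpa [h, Function.update_of_ne (Ne.symm h)] using hasDerivAt_const (y i) (y j))
      (measurable_pi_apply j) measurable_const ⟨1, fun y => by
        simp only [one_mul]
        refine ⟨hs j y, ?_⟩
        split_ifs <;> simp [abs_nonneg, one_le_exp, sum_nonneg, (exp_pos _).le]⟩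
    simpa using this

theorem int_coord (i : Fin 3) : Integrable (fun z : Fin 3 → ℝ => z i) G3 :=
  stdG_int (continuous_apply i) ⟨1, fun z => by
    rw [one_mul]
    have h := single_le_sum (fun a _ => abs_nonneg (z a)) (mem_univ i)
    linarith [add_one_le_exp (2 * ∑ a, |z a|), abs_nonneg (z i)]⟩

theorem int_coord2 (i j : Fin 3) : Integrable (fun z : Fin 3 → ℝ => z i * z j) G3 :=
  stdG_int (by fun_prop) ⟨1, fun z => by
    rw [one_mul, two_mul, exp_add, abs_mul]
    have hi := single_le_sum (fun a _ => abs_nonneg (z a)) (mem_univ i)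
    have hj := single_le_sum (fun a _ => abs_nonneg (z a)) (mem_univ j)
    exact mul_le_mul (by linarith [add_one_le_exp (∑ a, |z a|)]) (by linarith [add_one_le_exp (∑ a, |z a|)])
      (abs_nonneg _) (exp_pos _).le⟩

/-- The moments of the linear form of two copies. -/
theorem form_moments {t : ℝ} (h1 : t ∈ Set.Icc (0 : ℝ) 1) (p q : ℝ) :
    ∫ z, p * cfst t z + q * csnd t z ∂G3 = 0 ∧
      ∫ z, (p * cfst t z + q * csnd t z) ^ 2 ∂G3 = p ^ 2 + q ^ 2 + 2 * t * p * q := by
  set c : Fin 3 → ℝ := ![(p + q) * √t, p * √(1 - t), q * √(1 - t)]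
  have e : ∀ z, p * cfst t z + q * csnd t z = ∑ i, c i * z i := fun z => by
    simp only [cfst, csnd, Fin.sum_univ_three, c, Matrix.cons_val_zero, Matrix.cons_val_one, Matrix.cons_val]
    ring
  refine ⟨?_, ?_⟩
  · simp only [e]
    rw [integral_finsetSum _ fun i _ => (int_coord i).const_mul _]
    exact sum_eq_zero fun i _ => by rw [integral_const_mul, (coord_moments i i).1, mul_zero]
  · have e2 : ∀ z : Fin 3 → ℝ, (∑ i, c i * z i) ^ 2 = ∑ i, ∑ j, c i * c j * (z i * z j) := fun z => by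
      rw [sq, sum_mul_sum]; exact sum_congr rfl fun i _ => sum_congr rfl fun j _ => by ring
    simp only [e, e2]
    rw [integral_finsetSum _ fun i _ => integrable_finsetSum _ fun j _ => (int_coord2 i j).const_mul _]
    rw [sum_congr rfl fun i _ => integral_finsetSum _ fun j _ => (int_coord2 i j).const_mul (c i * c j)]
    simp only [integral_const_mul,
      (coord_moments _ _).2, mul_ite, mul_one, mul_zero, sum_ite_eq, mem_univ, if_true, Fin.sum_univ_three, c,
      Matrix.cons_val_zero, Matrix.cons_val_one, Matrix.cons_val]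
    have t1 := mul_self_sqrt h1.1
    have t2 := mul_self_sqrt (show 0 ≤ 1 - t by linarith [h1.2])
    linear_combination (p + q) ^ 2 * t1 + (p ^ 2 + q ^ 2) * t2

theorem gauss_moments : (∫ y : ℝ, y ∂γ₁ = 0) ∧ ∫ y : ℝ, y ^ 2 ∂γ₁ = 1 := by
  have h := measurePreserving_eval (fun _ : Fin 3 => γ₁) 0
  constructor
  · rw [← h.map_eq, integral_map h.measurable.aemeasurable (by fun_prop)]
    exact (coord_moments 0 0).1
  · rw [← h.map_eq, integral_map h.measurable.aemeasurable (by fun_prop)]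
    simp only [sq]
    exact (coord_moments 0 0).2.trans (if_pos rfl)

/-! ### The short steps -/

/-- One short step of a single copy from below. -/
theorem hT_ge (m C : ℝ) (hm : 0 < m) (hm1 : m ≤ 1) : ∃ K, 0 ≤ K ∧ ∀ (F : ℝ → ℝ), Pot F →
    Bd 2 C (deriv F) → ∀ h, 0 ≤ h → h ≤ 1 → ∀ x,
      F x + h / 2 * (deriv (deriv F) x + m * deriv F x ^ 2) - K * √h ^ 3 ≤ hT m h F x := by
  obtain ⟨K, hK0, hK⟩ := log_exp_expand lineSize (6 * |C| + 6)
  refine ⟨K / m, by positivity, fun F hF hC h hh0 hh1 x => ?_⟩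
  set ε := √h with hε
  have hε1 : ε ≤ 1 := sqrt_le_one.2 hh1
  have hFc := hF.diff.continuous
  have hC0 : |C| = C := abs_of_nonneg hC.nonneg
  have he : ∀ y : ℝ, |y| ≤ |y| + 1 ∧ 1 ≤ exp ((6 * C + 6) * (|y| + 1)) := fun y =>
    ⟨by linarith, one_le_exp (by have := hC.nonneg; positivity)⟩
  set a := deriv F x
  set a' := deriv (deriv F) x
  have ha : |a| ≤ 1 := hF.dle x
  have ha' : |a'| ≤ C := hC.2.2.abs_le x
  have hy2 : ∀ y : ℝ, y ^ 2 ≤ 2 * exp |y| := fun y => by
    have := quadratic_le_exp_of_nonneg (abs_nonneg y)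
    rw [sq_abs] at this; linarith [abs_nonneg y]
  have hCe : ∀ y : ℝ, ∀ c, 0 ≤ c → c ≤ 6 * C + 6 → c * exp |y| ≤ exp ((6 * C + 6) * (|y| + 1)) :=
    fun y c h0 hc => by
      have h3 : c ≤ exp (6 * C + 6) := by linarith [add_one_le_exp (6 * C + 6)]
      refine (mul_le_mul_of_nonneg_right h3 (exp_pos _).le).trans ?_
      rw [← exp_add]
      refine exp_le_exp.2 ?_
      nlinarith [abs_nonneg y, hC.nonneg]
  have key := hK ε (fun y => m * (F (x + ε * y) - F x)) (fun y => m * (a * (ε * y)))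
    (fun y => m * (a' * (ε * y) ^ 2 / 2)) (sqrt_nonneg h) hε1 (by fun_prop) (by fun_prop) (by fun_prop)
    ?_ ?_ ?_ ?_ (by
      rw [integral_const_mul, integral_const_mul, show ∫ y : ℝ, ε * y ∂gaussianReal 0 1 = ε * ∫ y : ℝ, y ∂γ₁
        from integral_const_mul _ _, gauss_moments.1]; ring)
  · have e1 : ∫ y, m * (a' * (ε * y) ^ 2 / 2) ∂γ₁ = m * a' * h / 2 := by
      simp only [mul_pow, ← mul_assoc, integral_const_mul, integral_div, gauss_moments.2]
      rw [hε, sq_sqrt hh0]; ring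
    have e2 : ∫ y, (m * (a * (ε * y))) ^ 2 ∂γ₁ = (m * a) ^ 2 * h := by
      simp only [mul_pow, ← mul_assoc, integral_const_mul, gauss_moments.2]
      rw [hε, sq_sqrt hh0]; ring
    have e3 : den m h F x = exp (m * F x) * ∫ y, exp (m * (F (x + ε * y) - F x)) ∂γ₁ := by
      rw [den, ← integral_const_mul]
      refine integral_congr_ae (ae_of_all _ fun y => ?_)
      simp only [← exp_add, ← hε]; congr 1; ring
    rw [e1, e2] at key
    have hpos : 0 < ∫ y, exp (m * (F (x + ε * y) - F x)) ∂γ₁ :=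
      (mul_pos_iff_of_pos_left (exp_pos _)).1 (e3 ▸ P157.Cube2.den_pos hF x)
    rw [hT, e3, log_mul (exp_pos _).ne' hpos.ne', log_exp, le_div_iff₀ hm]
    have := (abs_le.1 key).1
    have e4 : (F x + h / 2 * (a' + m * a ^ 2) - K / m * ε ^ 3) * m
        = m * F x + (m * a' * h / 2 + (m * a) ^ 2 * h / 2) - K * ε ^ 3 := by field_simp
    linarith
  · intro y
    simp only [lineSize, hC0, abs_mul, abs_of_pos hm]
    refine (mul_le_of_le_one_left (abs_nonneg _) hm1).trans ((hF.growth _ _).trans ?_)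
    rw [add_sub_cancel_left, abs_mul, abs_of_nonneg (sqrt_nonneg h), mul_assoc]
    exact mul_le_mul_of_nonneg_left (by nlinarith [abs_nonneg y, hC.nonneg]) (sqrt_nonneg h)
  · intro y
    simp only [lineSize, hC0, abs_mul, abs_of_pos hm, abs_of_nonneg (sqrt_nonneg h), hε]
    refine (mul_le_of_le_one_left (by positivity) hm1).trans ((mul_le_of_le_one_left (by positivity) ha).trans ?_)
    rw [mul_assoc]
    exact mul_le_mul_of_nonneg_left (by nlinarith [abs_nonneg y, hC.nonneg]) (sqrt_nonneg h)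
  · intro y
    simp only [lineSize, hC0, abs_mul, abs_of_pos hm, abs_div, abs_pow, sq_abs, abs_of_nonneg (sqrt_nonneg h), hε]
    refine (mul_le_of_le_one_left (by positivity) hm1).trans ?_
    simp only [← hε]
    calc |a'| * (ε * |y|) ^ 2 / |2| ≤ C * (ε ^ 2 * (2 * exp |y|)) / 2 := by
          rw [abs_two, mul_pow, sq_abs]; gcongr; exacts [hC.nonneg, hy2 y]
      _ = ε ^ 2 * (C * exp |y|) := by ring
      _ ≤ _ := mul_le_mul_of_nonneg_left (hCe y C hC.nonneg (by linarith [hC.nonneg])) (sq_nonneg ε)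
  · intro y
    simp only [lineSize, hC0]
    rw [show m * (F (x + ε * y) - F x) - m * (a * (ε * y)) - m * (a' * (ε * y) ^ 2 / 2)
      = m * (F (x + ε * y) - F x - a * (ε * y) - a' * (ε * y) ^ 2 / 2) by ring, abs_mul, abs_of_pos hm]
    refine (mul_le_of_le_one_left (abs_nonneg _) hm1).trans ((taylor3 hF hC x _).trans ?_)
    rw [abs_mul, abs_of_nonneg (sqrt_nonneg h), mul_pow]
    calc C * (ε ^ 3 * |y| ^ 3) ≤ C * (ε ^ 3 * (6 * exp |y|)) := by
          gcongr; exacts [hC.nonneg, cube_le_exp (abs_nonneg y)]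
      _ = ε ^ 3 * (6 * C * exp |y|) := by ring
      _ ≤ _ := mul_le_mul_of_nonneg_left (hCe y (6 * C) (by linarith [hC.nonneg]) (by linarith))
          (pow_nonneg (sqrt_nonneg h) 3)

/-- One short step of two copies from above. -/
theorem T2_le (m t C : ℝ) (hm : 0 < m) (hm1 : m ≤ 1) (h1 : t ∈ Set.Icc (0 : ℝ) 1) :
    ∃ K, 0 ≤ K ∧ ∀ (F : ℝ → ℝ), Pot F → Bd 2 C (deriv F) → ∀ h, 0 ≤ h → h ≤ 1 → ∀ x : ℝ × ℝ,
      T2 m t h (dbl F) x ≤ dbl F x + h / 2 * (deriv (deriv F) x.1 + deriv (deriv F) x.2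
        + m * (deriv F x.1 ^ 2 + deriv F x.2 ^ 2 + 2 * t * (deriv F x.1 * deriv F x.2))) + K * √h ^ 3 := by
  obtain ⟨K, hK0, hK⟩ := log_exp_expand (gaussSize (Fin 3)) (12 * |C| + 12)
  refine ⟨K / m, by positivity, fun F hF hC h hh0 hh1 x => ?_⟩
  set ε := √h with hε
  have hε0 : 0 ≤ ε := sqrt_nonneg h
  have hFc := hF.diff.continuous
  have hC0 : |C| = C := abs_of_nonneg hC.nonneg
  set a := deriv F x.1
  set b := deriv F x.2
  set a' := deriv (deriv F) x.1
  set b' := deriv (deriv F) x.2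
  have f1 := fun z => abs_cfst_le h1 z
  have f2 := fun z => abs_csnd_le h1 z
  have hs : ∀ z : Fin 3 → ℝ, 0 ≤ ∑ i, |z i| := fun z => sum_nonneg fun i _ => abs_nonneg _
  have hlin : ∀ z : Fin 3 → ℝ, ε * (2 * ∑ i, |z i|) ≤ ε * (12 * C + 12) * ((∑ i, |z i|) + 1) := fun z => by
    rw [mul_assoc]
    exact mul_le_mul_of_nonneg_left (by nlinarith [hs z, hC.nonneg]) hε0
  have hCe : ∀ z : Fin 3 → ℝ, ∀ c, 0 ≤ c → c ≤ 12 * C + 12 →
      c * exp (∑ i, |z i|) ≤ exp ((12 * C + 12) * ((∑ i, |z i|) + 1)) := fun z c h0 hc => by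
    have h3 : c ≤ exp (12 * C + 12) := by linarith [add_one_le_exp (12 * C + 12)]
    refine (mul_le_mul_of_nonneg_right h3 (exp_pos _).le).trans ?_
    rw [← exp_add]
    exact exp_le_exp.2 (by nlinarith [hs z, hC.nonneg])
  set u : (Fin 3 → ℝ) → ℝ := fun z => m * (dbl F (sh t h x z) - dbl F x)
  set L : (Fin 3 → ℝ) → ℝ := fun z => m * ε * (a * cfst t z + b * csnd t z)
  set Q : (Fin 3 → ℝ) → ℝ := fun z => m * ε ^ 2 / 2 * (a' * cfst t z ^ 2 + b' * csnd t z ^ 2)
  have hcm : Continuous (cfst t) ∧ Continuous (csnd t) :=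
    ⟨by unfold cfst; fun_prop, by unfold csnd; fun_prop⟩
  obtain ⟨hc1, hc2⟩ := hcm
  have hum : Continuous u := by
    have := continuous_sh (t := t) (a := h) x; simp only [u, dbl]; fun_prop
  have key := hK ε u L Q hε0 (sqrt_le_one.2 hh1) hum.measurable
    (by fun_prop : Continuous L).measurable (by fun_prop : Continuous Q).measurable ?_ ?_ ?_ ?_
    (by simp only [L, integral_const_mul, (form_moments h1 a b).1, mul_zero])
  · have hq : ∀ p q : ℝ, Integrable (fun z => (p * cfst t z + q * csnd t z) ^ 2) G3 := fun p q =>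
      stdG_int (by fun_prop) ⟨2 * (|p| + |q|) ^ 2, fun z => by
        rw [abs_pow]
        have a1 : |p * cfst t z + q * csnd t z| ≤ (|p| + |q|) * ∑ i, |z i| := by
          refine (abs_add_le _ _).trans ?_
          rw [abs_mul, abs_mul, add_mul]
          exact add_le_add (mul_le_mul_of_nonneg_left (f1 z) (abs_nonneg p))
            (mul_le_mul_of_nonneg_left (f2 z) (abs_nonneg q))
        refine (pow_le_pow_left₀ (abs_nonneg _) a1 2).trans ?_
        rw [mul_pow, mul_comm 2 ((|p| + |q|) ^ 2), mul_assoc _ (2 : ℝ)]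
        refine mul_le_mul_of_nonneg_left ?_ (sq_nonneg _)
        have := quadratic_le_exp_of_nonneg (hs z)
        have h4 : exp (∑ i, |z i|) ≤ exp (2 * ∑ i, |z i|) := exp_le_exp.2 (by linarith [hs z])
        linarith [hs z]⟩
    have e1 : ∫ z, Q z ∂G3 = m * h / 2 * (a' + b') := by
      have q1 := (form_moments h1 1 0).2
      have q2 := (form_moments h1 0 1).2
      simp only [one_mul, zero_mul, add_zero, zero_add] at q1 q2
      have i1 := hq 1 0
      have i2 := hq 0 1
      simp only [one_mul, zero_mul, add_zero, zero_add] at i1 i2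
      simp only [Q, integral_const_mul]
      rw [integral_add (i1.const_mul _) (i2.const_mul _), integral_const_mul, integral_const_mul, q1, q2,
        hε, sq_sqrt hh0]
      ring
    have e2 : ∫ z, L z ^ 2 ∂G3 = m ^ 2 * h * (a ^ 2 + b ^ 2 + 2 * t * (a * b)) := by
      simp only [L, mul_pow, integral_const_mul, (form_moments h1 a b).2]
      rw [hε, sq_sqrt hh0]; ring
    have e3 : ∫ z, exp (m * dbl F (sh t h x z)) ∂G3 = exp (m * dbl F x) * ∫ z, exp (u z) ∂G3 := by
      rw [← integral_const_mul]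
      refine integral_congr_ae (ae_of_all _ fun z => ?_)
      simp only [u, ← exp_add]; congr 1; ring
    rw [e1, e2] at key
    have hpos : 0 < ∫ z, exp (u z) ∂G3 :=
      (mul_pos_iff_of_pos_left (exp_pos _)).1 (e3 ▸ (lip2_dbl hF).den_pos h1 m x)
    rw [T2, e3, log_mul (exp_pos _).ne' hpos.ne', log_exp, div_le_iff₀ hm]
    have := (abs_le.1 key).2
    have e4 : (dbl F x + h / 2 * (a' + b' + m * (a ^ 2 + b ^ 2 + 2 * t * (a * b))) + K / m * ε ^ 3) * m
        = m * dbl F x + (m * h / 2 * (a' + b') + m ^ 2 * h * (a ^ 2 + b ^ 2 + 2 * t * (a * b)) / 2)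
          + K * ε ^ 3 := by field_simp
    linarith
  · intro z
    simp only [gaussSize, hC0, u, abs_mul, abs_of_pos hm]
    refine (mul_le_of_le_one_left (abs_nonneg _) hm1).trans (((lip2_dbl hF).sh_le h1 x z).trans ?_)
    rw [mul_comm 2 (√h), mul_assoc]
    exact hlin z
  · intro z
    simp only [gaussSize, hC0, L, abs_mul, abs_of_pos hm, abs_of_nonneg hε0]
    rw [mul_assoc]
    refine (mul_le_of_le_one_left (by positivity) hm1).trans ((mul_le_mul_of_nonneg_left ?_ hε0).trans (hlin z))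
    refine (abs_add_le _ _).trans ?_
    rw [abs_mul, abs_mul, two_mul]
    exact add_le_add ((mul_le_of_le_one_left (abs_nonneg _) (hF.dle _)).trans (f1 z))
      ((mul_le_of_le_one_left (abs_nonneg _) (hF.dle _)).trans (f2 z))
  · intro z
    simp only [gaussSize, hC0, Q, abs_mul, abs_div, abs_pow, abs_of_pos hm, abs_of_nonneg hε0, abs_two]
    have hz := quadratic_le_exp_of_nonneg (hs z)
    calc m * ε ^ 2 / 2 * |a' * cfst t z ^ 2 + b' * csnd t z ^ 2|
        ≤ ε ^ 2 / 2 * (C * (∑ i, |z i|) ^ 2 + C * (∑ i, |z i|) ^ 2) := by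
          refine mul_le_mul ?_ ((abs_add_le _ _).trans (add_le_add ?_ ?_)) (abs_nonneg _) (by positivity)
          · exact div_le_div_of_nonneg_right (mul_le_of_le_one_left (sq_nonneg _) hm1) two_pos.le
          all_goals rw [abs_mul, abs_pow]
          · exact mul_le_mul (hC.2.2.abs_le _) (pow_le_pow_left₀ (abs_nonneg _) (f1 z) 2) (sq_nonneg _) hC.nonneg
          · exact mul_le_mul (hC.2.2.abs_le _) (pow_le_pow_left₀ (abs_nonneg _) (f2 z) 2) (sq_nonneg _) hC.nonneg
      _ = ε ^ 2 * (C * (∑ i, |z i|) ^ 2) := by ring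
      _ ≤ ε ^ 2 * (2 * C * exp (∑ i, |z i|)) := by
          refine mul_le_mul_of_nonneg_left ?_ (sq_nonneg ε)
          rw [mul_comm 2 C, mul_assoc]
          exact mul_le_mul_of_nonneg_left (by linarith [hs z]) hC.nonneg
      _ ≤ _ := mul_le_mul_of_nonneg_left (hCe z (2 * C) (by linarith [hC.nonneg]) (by linarith [hC.nonneg]))
          (sq_nonneg ε)
  · intro z
    simp only [gaussSize, hC0]
    have e : u z - L z - Q z
        = m * (F (x.1 + ε * cfst t z) - F x.1 - a * (ε * cfst t z) - a' * (ε * cfst t z) ^ 2 / 2)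
          + m * (F (x.2 + ε * csnd t z) - F x.2 - b * (ε * csnd t z) - b' * (ε * csnd t z) ^ 2 / 2) := by
      simp only [u, L, Q, dbl, sh, ← hε]; ring
    rw [e]
    have hcomp : ∀ (p c : ℝ), |c| ≤ ∑ i, |z i| →
        |m * (F (p + ε * c) - F p - deriv F p * (ε * c) - deriv (deriv F) p * (ε * c) ^ 2 / 2)|
          ≤ ε ^ 3 * (6 * C * exp (∑ i, |z i|)) := fun p c hc => by
      rw [abs_mul, abs_of_pos hm]
      refine (mul_le_of_le_one_left (abs_nonneg _) hm1).trans ((taylor3 hF hC p _).trans ?_)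
      rw [abs_mul, abs_of_nonneg hε0, mul_pow]
      have := mul_le_mul_of_nonneg_left ((pow_le_pow_left₀ (abs_nonneg c) hc 3).trans (cube_le_exp (hs z)))
        (mul_nonneg hC.nonneg (pow_nonneg hε0 3))
      linarith
    refine (abs_add_le _ _).trans ((add_le_add (hcomp _ _ (f1 z)) (hcomp _ _ (f2 z))).trans ?_)
    rw [← mul_add, show 6 * C * exp (∑ i, |z i|) + 6 * C * exp (∑ i, |z i|) = 12 * C * exp (∑ i, |z i|) by ring]
    exact mul_le_mul_of_nonneg_left (hCe z (12 * C) (by linarith [hC.nonneg]) (by linarith)) (pow_nonneg hε0 3)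

/-- A short step loses a squared difference of the magnetisations. -/
theorem step_deficit (m t C : ℝ) (hm : 0 < m) (hm1 : m ≤ 1) (h1 : t ∈ Set.Icc (0 : ℝ) 1) :
    ∃ K, 0 ≤ K ∧ ∀ (F : ℝ → ℝ), Pot F → Bd 2 C (deriv F) → ∀ h, 0 ≤ h → h ≤ 1 → ∀ x : ℝ × ℝ,
      T2 (m / (1 + t)) t h (dbl F) x ≤ dbl (hT m h F) x
        - h * (m * t / (2 * (1 + t))) * (deriv F x.1 - deriv F x.2) ^ 2 + K * √h ^ 3 := by
  have ht : 0 < 1 + t := by linarith [h1.1]
  have hm' : 0 < m / (1 + t) := div_pos hm ht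
  have hm'1 : m / (1 + t) ≤ 1 := (div_le_one ht).2 (by linarith [h1.1])
  obtain ⟨K1, hK1, a1⟩ := T2_le (m / (1 + t)) t C hm' hm'1 h1
  obtain ⟨K2, hK2, a2⟩ := hT_ge m C hm hm1
  refine ⟨K1 + 2 * K2, by positivity, fun F hF hC h hh0 hh1 x => ?_⟩
  refine (a1 F hF hC h hh0 hh1 x).trans ?_
  have b1 := a2 F hF hC h hh0 hh1 x.1
  have b2 := a2 F hF hC h hh0 hh1 x.2
  set a := deriv F x.1
  set b := deriv F x.2
  have e : h / 2 * (m / (1 + t) * (a ^ 2 + b ^ 2 + 2 * t * (a * b)))
      = h / 2 * (m * a ^ 2) + h / 2 * (m * b ^ 2) - h * (m * t / (2 * (1 + t))) * (a - b) ^ 2 := by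
    field_simp; ring
  simp only [dbl] at b1 b2 ⊢
  linarith

end Vale.Agent.P146.Sup
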