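import Vale.Agent.P146.Sup.Interp
import Vale.Agent.P150.Guerra

/-!
# P146, superconcentration: two copies with fixed overlap

`guerra_of : InterpStmt → GuerraStmt`.  On the configurations of a bin, the couplings are interpolated to
fields of independent sites; the overlap constraint is then dropped against a Lagrange parameter.
-/

open MeasureTheory ProbabilityTheory Real Finset
open Vale.Agent.P157.Rsb (stdG gaussSize LinB Tame val cnd pairCnd linZ lowKer lev mass IsPath put)
open Vale.Agent.P157 (cubeLaw coin patterns)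
open Vale.Agent.P150 (Edge spin stdPi)

namespace Vale.Agent.P146.Sup

namespace Guerra

section Recursion

variable {k : ℕ} {ι X Y : Type} [Fintype ι] [MeasurableSpace X] [MeasurableSpace Y] {μ : Measure X}
  {ν : Measure Y} [IsProbabilityMeasure μ] [IsProbabilityMeasure ν] {H : (Fin k → ι → ℝ) → X → ℝ}
  {H' : (Fin k → ι → ℝ) → Y → ℝ}

/-- An inequality at the top passes to all levels. -/
theorem val_le (hH : LinB (gaussSize ι) H) (hH' : LinB (gaussSize ι) H') (c : ℝ)
    (h : ∀ z, val (stdG ι) μ H k z ≤ c + val (stdG ι) ν H' k z) (j : ℕ) (z : Fin k → ι → ℝ) :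
    val (stdG ι) μ H j z ≤ c + val (stdG ι) ν H' j z := by
  induction j using P157.Rsb.levels_induction (k := k) generalizing z with
  | htop j hj => simp only [P157.Rsb.val_of_le hj]; exact h z
  | hstep j hj hjk ih =>
    have hm := P157.Rsb.lev_pos (k := k) hj
    obtain ⟨hu, hp⟩ := P157.Rsb.integrable_val_step (γ := stdG ι) (μ := μ) hH (j := j) z (j - 1)
    obtain ⟨hv, hq⟩ := P157.Rsb.integrable_val_step (γ := stdG ι) (μ := ν) hH' (j := j) z (j - 1)
    rw [P157.Rsb.val_step hj hjk, P157.Rsb.val_step hj hjk]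
    have hle : ∫ y, exp (lev k j * val (stdG ι) μ H j (put z (j - 1) y)) ∂stdG ι
        ≤ exp (lev k j * c) * ∫ y, exp (lev k j * val (stdG ι) ν H' j (put z (j - 1) y)) ∂stdG ι := by
      rw [← integral_const_mul]
      refine integral_mono hu (hv.const_mul _) fun y => ?_
      rw [← exp_add, ← mul_add]
      exact exp_le_exp.2 (mul_le_mul_of_nonneg_left (ih _) hm.le)
    have hlog := log_le_log hp hle
    rw [log_mul (exp_pos _).ne' hq.ne', log_exp] at hlog
    rw [div_le_iff₀ hm, add_mul, div_mul_cancel₀ _ hm.ne', mul_comm c]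
    exact hlog

omit [IsProbabilityMeasure μ] in
/-- A Hamiltonian without fields. -/
theorem val_const {u : X → ℝ} (hH : ∀ z x, H z x = u x) (j : ℕ) (z : Fin k → ι → ℝ) :
    val (stdG ι) μ H j z = log (∫ x, exp (u x) ∂μ) := by
  induction j using P157.Rsb.levels_induction (k := k) generalizing z with
  | htop j hj => simp only [P157.Rsb.val_of_le hj, P157.Rsb.val_top, hH]
  | hstep j hj hjk ih =>
    rw [P157.Rsb.val_step hj hjk]
    simp only [ih, integral_const, probReal_univ, one_smul, log_exp]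
    rw [mul_div_cancel_left₀ _ (P157.Rsb.lev_pos hj).ne']

end Recursion

section Sites

variable {n k m : ℕ}

/-- The fields of one site. -/
def site (z : Fin k → Fin n × Fin m → ℝ) (i : Fin n) (a : Fin k) (c : Fin m) : ℝ := z a (i, c)

theorem site_put (z : Fin k → Fin n × Fin m → ℝ) (l : ℕ) (y : Fin n × Fin m → ℝ) (i : Fin n) :
    site (put z l y) i = put (site z i) l fun c => y (i, c) := by
  funext a c
  by_cases h : (a : ℕ) = l <;> simp [site, put, h]

/-- Independent sites. -/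
noncomputable def sitesH (h : (Fin k → Fin m → ℝ) → Bool × Bool → ℝ) (z : Fin k → Fin n × Fin m → ℝ)
    (p : (Fin n → Bool) × (Fin n → Bool)) : ℝ :=
  ∑ i, h (site z i) (p.1 i, p.2 i)

theorem integral_pairs (u : Fin n → Bool × Bool → ℝ) :
    ∫ p, ∏ i, u i (p.1 i, p.2 i) ∂(cubeLaw n).prod (cubeLaw n)
      = ∏ i, ∫ q, u i q ∂coin.prod coin := by
  have hφ := MeasureTheory.measurePreserving_arrowProdEquivProdArrow Bool Bool (Fin n)
    (fun _ => coin) (fun _ => coin)
  rw [cubeLaw, ← hφ.map_eq, integral_map hφ.measurable.aemeasurable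
    (measurable_of_finite _).aestronglyMeasurable]
  exact integral_fintype_prod_eq_prod (μ := fun _ : Fin n => coin.prod coin) (f := u)

theorem integral_sites (u : Fin n → (Fin m → ℝ) → ℝ) (hu : ∀ i, Measurable (u i)) :
    ∫ y, ∏ i, u i (fun c => y (i, c)) ∂stdG (Fin n × Fin m) = ∏ i, ∫ y, u i y ∂stdG (Fin m) := by
  have hp := P157.Rsb.measurePreserving_uncurry n m
  rw [← hp.map_eq, integral_map hp.measurable.aemeasurable
    (Measurable.aestronglyMeasurable (by fun_prop))]
  exact integral_fintype_prod_eq_prod (μ := fun _ : Fin n => stdG (Fin m)) (f := u)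

variable {h : (Fin k → Fin m → ℝ) → Bool × Bool → ℝ}

theorem val_sites (hh : LinB (gaussSize (Fin m)) h) (j : ℕ) (z : Fin k → Fin n × Fin m → ℝ) :
    val (stdG (Fin n × Fin m)) ((cubeLaw n).prod (cubeLaw n)) (sitesH h) j z
      = ∑ i, val (stdG (Fin m)) (coin.prod coin) h j (site z i) := by
  induction j using P157.Rsb.levels_induction (k := k) generalizing z with
  | htop j hj =>
    simp only [P157.Rsb.val_of_le hj, P157.Rsb.val_top, sitesH, exp_sum]
    rw [integral_pairs fun i q => exp (h (site z i) q),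
      log_prod fun i _ => (integral_exp_pos (P157.Rsb.integrable_exp_leaf hh _)).ne']
  | hstep j hj hjk ih =>
    simp only [P157.Rsb.val_step hj hjk, ih, site_put, mul_sum, exp_sum]
    rw [integral_sites (fun i y => exp (lev k j *
        val (stdG (Fin m)) (coin.prod coin) h j (put (site z i) (j - 1) y)))
      fun i => (((P157.Rsb.val_regular (γ := stdG (Fin m)) (μ := coin.prod coin) hh j).1.comp
        (P157.Rsb.measurable_put_right _ _)).const_mul _).exp,
      log_prod fun i _ => (P157.Rsb.integrable_val_step hh _ _).2.ne', sum_div]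

end Sites

section Means

variable {E ι X : Type} [Fintype E] [Fintype ι] [Fintype X] [MeasurableSpace X] [MeasurableSingletonClass X]
  {μ : Measure X} [IsProbabilityMeasure μ] {k : ℕ} (S : GSys E ι X k)

theorem le_gcnd {φ : X → ℝ} {c : ℝ} (h : ∀ x, c ≤ φ x) : c ≤ gcnd S μ φ := by
  have hg : ∀ g, c ≤ cnd (stdG ι) μ (S.ham g) (fun _ x => φ x) 0 (fun _ _ => 0) := fun g =>
    (P157.Rsb.cnd_const (linB_ham S g) c 0 _).symm.le.trans
      (P157.Rsb.cnd_mono (linB_ham S g) (tame_fn fun _ => c) (tame_fn φ) (fun _ x => h x) 0 _)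
  have := integral_mono (μ := stdPi E) (integrable_const c) (integrable_gcnd S φ) hg
  simpa [gcnd] using this

theorem gpair_le (j : ℕ) {ψ : X → X → ℝ} {c : ℝ} (h : ∀ x y, ψ x y ≤ c) : gpair S μ j ψ ≤ c := by
  have hg : ∀ g, jPair S μ g j ψ ≤ c := fun g => by
    have hL := linB_ham S g
    have hC : ∀ x y, |ψ x y| ≤ (∑ p : X × X, |ψ p.1 p.2|) + |c| ∧
        |c| ≤ (∑ p : X × X, |ψ p.1 p.2|) + |c| := fun x y =>
      ⟨(bd_fn₂ ψ x y).trans (le_add_of_nonneg_right (abs_nonneg _)), le_add_of_nonneg_left (by positivity)⟩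
    have hp : ∀ z, pairCnd (stdG ι) μ (S.ham g) (fun _ x _ y => ψ x y) j z ≤ c := fun z => by
      refine (P157.Rsb.pairCnd_mono hL (meas_fn₂ ψ) (meas_fn₂ fun _ _ => c) hC h j z).trans (le_of_eq ?_)
      simp only [pairCnd, P157.Rsb.cnd_const hL]
    exact (P157.Rsb.cnd_mono hL (P157.Rsb.tame_pair hL (meas_fn₂ ψ) (bd_fn₂ ψ) j) (tame_fn fun _ => c)
      (fun z _ => hp z) 0 _).trans (P157.Rsb.cnd_const hL c 0 _).le
  have := integral_mono (μ := stdPi E) (integrable_jPair S j ψ) (integrable_const c) hg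
  simpa [gpair, jPair] using this

end Means

/-! ### the two systems -/

variable {n K : ℕ} {β t v w lam : ℝ} {Q : ℕ → ℝ}

/-- The overlap, not normalised. -/
noncomputable def dot2 (x y : Fin n → Bool) : ℝ := ∑ i, spin (x i) * spin (y i)

/-- The configurations of the bin. -/
abbrev BinX (n : ℕ) (v w : ℝ) : Type := {p : (Fin n → Bool) × (Fin n → Bool) // p ∈ bin n v w}

/-- The couplings of the two copies. -/
noncomputable def srcSys (K n : ℕ) (β t v w : ℝ) : GSys (PairE n) (Fin n × Fin 3) (BinX n v w) K where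
  A e p := Sum.elim (fun e : Edge n => β / √n * √t *
      (spin (p.1.1 e.1.1) * spin (p.1.1 e.1.2) + spin (p.1.2 e.1.1) * spin (p.1.2 e.1.2)))
    (Sum.elim (fun e : Edge n => β / √n * √(1 - t) * (spin (p.1.1 e.1.1) * spin (p.1.1 e.1.2)))
      fun e : Edge n => β / √n * √(1 - t) * (spin (p.1.2 e.1.1) * spin (p.1.2 e.1.2))) e
  B _ _ _ := 0
  H _ := 0

/-- The fields of independent sites. -/
noncomputable def tgtSys (K n : ℕ) (β t v w : ℝ) (Q : ℕ → ℝ) :
    GSys (PairE n) (Fin n × Fin 3) (BinX n v w) K where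
  A _ _ := 0
  B a ic p := (twoSys K β t v Q 0).B a ic.2 (p.1.1 ic.1, p.1.2 ic.1)
  H _ := n * (β ^ 2 * (1 - Q K))

/-- The empty system. -/
def zeroSys (E ι X : Type) (K : ℕ) : GSys E ι X K where
  A _ _ := 0
  B _ _ _ := 0
  H _ := 0

theorem orth_src_tgt :
    Orth (zeroSys (PairE n) (Fin n × Fin 3) (BinX n v w) K) (srcSys K n β t v w) (tgtSys K n β t v w Q) :=
  ⟨fun e x y => by simp [zeroSys, tgtSys], fun a i x y => by simp [zeroSys, srcSys]⟩

theorem dot2_self (x : Fin n → Bool) : dot2 x x = n := by simp [dot2, P150.spin_mul_self]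

theorem edge_dot (x y : Fin n → Bool) :
    ∑ e : Edge n, spin (x e.1.1) * spin (x e.1.2) * (spin (y e.1.1) * spin (y e.1.2))
      = (dot2 x y ^ 2 - n) / 2 := by
  have h := P150.sum_edge (fun i j => spin (x i) * spin (x j) * (spin (y i) * spin (y j))) fun i j => by ring
  have h1 : ∀ i, spin (x i) * spin (x i) * (spin (y i) * spin (y i)) = 1 := fun i => by
    rw [P150.spin_mul_self, P150.spin_mul_self, one_mul]
  have h2 : dot2 x y ^ 2 = ∑ i, ∑ j, spin (x i) * spin (x j) * (spin (y i) * spin (y j)) := by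
    rw [dot2, sq, sum_mul_sum]
    exact sum_congr rfl fun i _ => sum_congr rfl fun j _ => by ring
  simp only [h1, sum_const, card_univ, Fintype.card_fin, nsmul_eq_mul, mul_one] at h
  rw [h2]; linarith

theorem kern_src (hn : 1 ≤ n) (ht0 : 0 ≤ t) (ht1 : t ≤ 1) (j : ℕ) (p q : BinX n v w) :
    kern (srcSys K n β t v w) j p q
      = β ^ 2 / (2 * n) * (dot2 p.1.1 q.1.1 ^ 2 + dot2 p.1.2 q.1.2 ^ 2
          + t * (dot2 p.1.1 q.1.2 ^ 2 + dot2 p.1.2 q.1.1 ^ 2) - (2 + 2 * t) * n) := by
  have hn0 : (n : ℝ) ≠ 0 := by exact_mod_cast (by omega : n ≠ 0)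
  have hb : (β / √n) ^ 2 = β ^ 2 / n := by rw [div_pow, sq_sqrt (Nat.cast_nonneg _)]
  have e0 : lowKer (srcSys K n β t v w).B (srcSys K n β t v w).B j p q = 0 := by simp [lowKer, srcSys]
  set s := fun (x : Fin n → Bool) (e : Edge n) => spin (x e.1.1) * spin (x e.1.2)
  have hs : ∀ x y, ∑ e, s x e * s y e = (dot2 x y ^ 2 - n) / 2 := edge_dot
  have e1 : ∀ e, β / √n * √t * (s p.1.1 e + s p.1.2 e) * (β / √n * √t * (s q.1.1 e + s q.1.2 e))
      = (β / √n) ^ 2 * t * (s p.1.1 e * s q.1.1 e + s p.1.1 e * s q.1.2 e + s p.1.2 e * s q.1.1 e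
        + s p.1.2 e * s q.1.2 e) := fun e => by
    linear_combination ((β / √n) ^ 2 * ((s p.1.1 e + s p.1.2 e) * (s q.1.1 e + s q.1.2 e)))
      * Real.mul_self_sqrt ht0
  have e2 : ∀ (x y : Fin n → Bool) e, β / √n * √(1 - t) * s x e * (β / √n * √(1 - t) * s y e)
      = (β / √n) ^ 2 * (1 - t) * (s x e * s y e) := fun x y e => by
    linear_combination ((β / √n) ^ 2 * (s x e * s y e)) * Real.mul_self_sqrt (by linarith : 0 ≤ 1 - t)
  rw [kern, e0, add_zero, Fintype.sum_sum_type, Fintype.sum_sum_type]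
  simp only [srcSys, Sum.elim_inl, Sum.elim_inr]
  simp only [s] at e1 e2 hs
  simp only [e1, e2, ← mul_sum, sum_add_distrib, hs, hb]
  field_simp
  ring

theorem sum_below (f : ℕ → ℝ) {j : ℕ} (hj : j ≤ K) :
    ∑ a : Fin K, (if (a : ℕ) < j then f (a + 1) - f a else 0) = f j - f 0 := by
  rw [Fin.sum_univ_eq_sum_range (fun a => if a < j then f (a + 1) - f a else 0) K, ← sum_filter,
    show (range K).filter (· < j) = range j by ext a; simp; omega, sum_range_sub f]

theorem kern_tgt (hQ : IsPath K Q) (hv0 : 0 ≤ v) (ht0 : 0 ≤ t) (ht1 : t ≤ 1) {j : ℕ} (hj : j ≤ K)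
    (p q : BinX n v w) :
    kern (tgtSys K n β t v w Q) j p q
      = β ^ 2 * (Q j * (dot2 p.1.1 q.1.1 + dot2 p.1.2 q.1.2)
          + t * min (Q j) v * (dot2 p.1.1 q.1.2 + dot2 p.1.2 q.1.1)) := by
  set S := dot2 p.1.1 q.1.1 + dot2 p.1.2 q.1.2 with hS
  set T := dot2 p.1.1 q.1.2 + dot2 p.1.2 q.1.1 with hT
  have key : ∀ a : Fin K, ∑ ic : Fin n × Fin 3, (tgtSys K n β t v w Q).B a ic p *
      (tgtSys K n β t v w Q).B a ic q
        = β ^ 2 * ((Q (a + 1) - Q a) * S + t * (min (Q (a + 1)) v - min (Q a) v) * T) := by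
    intro a
    have hm := hQ.2.1 a a.2
    set dc := t * (min (Q (a + 1)) v - min (Q a) v) with hdc
    have h1 : 0 ≤ min (Q (a + 1)) v - min (Q a) v := sub_nonneg.2 (min_le_min_right v hm)
    have h2 : min (Q (a + 1)) v - min (Q a) v ≤ Q (a + 1) - Q a := by
      simp only [min_def]; split_ifs <;> linarith
    have hdc0 : 0 ≤ dc := mul_nonneg ht0 h1
    have hdc1 : 0 ≤ Q (a + 1) - Q a - dc := by
      have := mul_le_of_le_one_left h1 ht1
      linarith
    have s1 : √dc ^ 2 = dc := sq_sqrt hdc0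
    have s2 : √(Q (a + 1) - Q a - dc) ^ 2 = Q (a + 1) - Q a - dc := sq_sqrt hdc1
    rw [Fintype.sum_prod_type]
    have e : ∀ i, ∑ c : Fin 3, (tgtSys K n β t v w Q).B a (i, c) p * (tgtSys K n β t v w Q).B a (i, c) q
        = β ^ 2 * ((Q (a + 1) - Q a) * (spin (p.1.1 i) * spin (q.1.1 i) + spin (p.1.2 i) * spin (q.1.2 i))
          + dc * (spin (p.1.1 i) * spin (q.1.2 i) + spin (p.1.2 i) * spin (q.1.1 i))) := fun i => by
      simp only [Fin.sum_univ_three, tgtSys, twoSys, Matrix.cons_val_zero, Matrix.cons_val_one,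
        Matrix.cons_val_two, Matrix.tail_cons, Matrix.head_cons, ← hdc]
      linear_combination (β ^ 2 * ((spin (p.1.1 i) + spin (p.1.2 i)) * (spin (q.1.1 i) + spin (q.1.2 i)))) * s1
        + (β ^ 2 * (spin (p.1.1 i) * spin (q.1.1 i) + spin (p.1.2 i) * spin (q.1.2 i))) * s2
    simp only [e, ← mul_sum, sum_add_distrib, hS, hT, dot2]
  have e0 : ∑ e, (tgtSys K n β t v w Q).A e p * (tgtSys K n β t v w Q).A e q = 0 := by simp [tgtSys]
  rw [kern, e0, zero_add, lowKer]
  simp only [key]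
  have e : ∀ a : Fin K, (if (a : ℕ) < j then
      β ^ 2 * ((Q (a + 1) - Q a) * S + t * (min (Q (a + 1)) v - min (Q a) v) * T) else 0)
      = (β ^ 2 * S) * (if (a : ℕ) < j then Q (a + 1) - Q a else 0)
        + (β ^ 2 * t * T) * (if (a : ℕ) < j then
            (fun l => min (Q l) v) (a + 1) - (fun l => min (Q l) v) a else 0) := fun a => by
    by_cases ha : (a : ℕ) < j
    · simp only [if_pos ha]; ring
    · simp [if_neg ha]
  rw [sum_congr rfl fun a _ => e a, sum_add_distrib, ← mul_sum, ← mul_sum, sum_below Q hj,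
    sum_below (fun l => min (Q l) v) hj]
  simp only [hQ.1, min_eq_left hv0]
  ring

/-- The rate of the interpolation is at least the penalty. -/
theorem le_bracket (hn : 1 ≤ n) (hQ : IsPath K Q) (hv0 : 0 ≤ v) (hvQ : v ≤ Q K) (ht0 : 0 ≤ t)
    (ht1 : t ≤ 1) (μ : Measure (BinX n v w)) [IsProbabilityMeasure μ] (θ : ℝ) :
    n * (β ^ 2 / 2 * (1 + t * v ^ 2 - mass K * ∑ j ∈ Icc 1 K, (Q j ^ 2 + t * min (Q j) v ^ 2)))
        - n * β ^ 2 * w ^ 2 / 2 - β ^ 2
      ≤ bracket μ (zeroSys (PairE n) (Fin n × Fin 3) (BinX n v w) K) (srcSys K n β t v w)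
          (tgtSys K n β t v w Q) θ := by
  have hn0 : (0 : ℝ) < n := by exact_mod_cast hn
  set P₀ := srcSys K n β t v w
  set P₁ := tgtSys K n β t v w Q
  set S := (zeroSys (PairE n) (Fin n × Fin 3) (BinX n v w) K).path P₀ P₁ θ
  have hD : ∀ x : BinX n v w, β ^ 2 * n / 2 * (1 + t * v ^ 2 - w ^ 2)
      ≤ (kern P₁ K x x - kern P₀ K x x) / 2 + P₁.H x - P₀.H x := fun x => by
    have hx : |ovr x.1.1 x.1.2 - v| ≤ w := by
      have := x.2
      simpa [bin] using this
    have hO : dot2 x.1.1 x.1.2 = n * ovr x.1.1 x.1.2 := by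
      rw [ovr, mul_div_cancel₀ _ hn0.ne']; rfl
    have hsym : dot2 x.1.2 x.1.1 = dot2 x.1.1 x.1.2 := sum_congr rfl fun i _ => mul_comm _ _
    rw [kern_src hn ht0 ht1, kern_tgt hQ hv0 ht0 ht1 le_rfl, dot2_self, dot2_self, hsym, hO,
      min_eq_right hvQ]
    simp only [P₀, P₁, srcSys, tgtSys]
    set R := ovr x.1.1 x.1.2
    have e : β ^ 2 * (Q K * ((n : ℝ) + n) + t * v * (n * R + n * R)) / 2
        - β ^ 2 / (2 * n) * ((n : ℝ) ^ 2 + n ^ 2 + t * ((n * R) ^ 2 + (n * R) ^ 2) - (2 + 2 * t) * n) / 2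
          + n * (β ^ 2 * (1 - Q K)) - 0
        = β ^ 2 * (n / 2 + n * t * (v * R - R ^ 2 / 2) + (1 + t) / 2) := by field_simp; ring
    rw [sub_div, e]
    have h1 : (R - v) ^ 2 ≤ w ^ 2 := by
      rw [← sq_abs (R - v)]; exact pow_le_pow_left₀ (abs_nonneg _) hx 2
    have h2 : t * (R - v) ^ 2 ≤ w ^ 2 := (mul_le_of_le_one_left (sq_nonneg _) ht1).trans h1
    nlinarith [mul_le_mul_of_nonneg_left h2 (mul_nonneg (sq_nonneg β) hn0.le),
      mul_nonneg (sq_nonneg β) ht0, sq_nonneg β]
  set b := fun j => β ^ 2 * (n * (Q j ^ 2 + t * min (Q j) v ^ 2)) with hb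
  have hJ : ∀ j ∈ Icc 0 K, gpair S μ j (fun x y => kern P₁ j x y - kern P₀ j x y) ≤ b j + 2 * β ^ 2 :=
    fun j hj => gpair_le S j fun x y => by
      rw [kern_src hn ht0 ht1, kern_tgt hQ hv0 ht0 ht1 (mem_Icc.1 hj).2, hb]
      set q := Q j
      set m := min (Q j) v
      have h4 : ∀ (a O : ℝ), a * O - O ^ 2 / (2 * n) ≤ n * a ^ 2 / 2 := fun a O => by
        have : 0 ≤ (O - n * a) ^ 2 / (2 * n) := by positivity
        have e : (O - n * a) ^ 2 / (2 * n) = O ^ 2 / (2 * n) - a * O + n * a ^ 2 / 2 := by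
          field_simp; ring
        linarith
      set a1 := dot2 x.1.1 y.1.1
      set a2 := dot2 x.1.2 y.1.2
      set c1 := dot2 x.1.1 y.1.2
      set c2 := dot2 x.1.2 y.1.1
      have e : β ^ 2 * (q * (a1 + a2) + t * m * (c1 + c2))
          - β ^ 2 / (2 * n) * (a1 ^ 2 + a2 ^ 2 + t * (c1 ^ 2 + c2 ^ 2) - (2 + 2 * t) * n)
          = β ^ 2 * ((q * a1 - a1 ^ 2 / (2 * n)) + (q * a2 - a2 ^ 2 / (2 * n))
            + t * ((m * c1 - c1 ^ 2 / (2 * n)) + (m * c2 - c2 ^ 2 / (2 * n))) + (1 + t)) := by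
        field_simp; ring
      rw [e, show β ^ 2 * (n * (q ^ 2 + t * m ^ 2)) + 2 * β ^ 2
        = β ^ 2 * ((n * q ^ 2 / 2 + n * q ^ 2 / 2) + t * (n * m ^ 2 / 2 + n * m ^ 2 / 2) + (1 + 1)) by ring]
      exact mul_le_mul_of_nonneg_left (add_le_add (add_le_add (add_le_add (h4 q a1) (h4 q a2))
        (mul_le_mul_of_nonneg_left (add_le_add (h4 m c1) (h4 m c2)) ht0)) (by linarith)) (sq_nonneg β)
  have hsum : mass K * ∑ j ∈ Icc 0 K, (b j + 2 * β ^ 2)
      = β ^ 2 * n * (mass K * ∑ j ∈ Icc 1 K, (Q j ^ 2 + t * min (Q j) v ^ 2)) + 2 * β ^ 2 := by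
    rw [sum_add_distrib, sum_const, nsmul_eq_mul, mul_add, ← mul_assoc (mass K) (#(Icc 0 K) : ℝ),
      P157.Rsb.mass_mul_card, one_mul, ← Finset.insert_Icc_add_one_left_eq_Icc (Nat.zero_le K),
      sum_insert (by simp)]
    simp only [hb, hQ.1, min_eq_left hv0, zero_add, ← mul_sum]
    ring
  have h1 := le_gcnd S (μ := μ) hD
  have h2 := mul_le_mul_of_nonneg_left (sum_le_sum hJ)
    (P157.Rsb.mass_pos (k := K)).le
  rw [hsum] at h2
  simp only [bracket]
  rw [div_mul_eq_mul_div]
  linarith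

theorem ham_src_zero (g : PairE n → ℝ) :
    ((zeroSys (PairE n) (Fin n × Fin 3) (BinX n v w) K).path (srcSys K n β t v w)
      (tgtSys K n β t v w Q) 0).ham g
      = fun _ (p : BinX n v w) =>
          β * P150.energy n (fstC t g) p.1.1 + β * P150.energy n (sndC t g) p.1.2 := by
  funext z p
  simp only [GSys.ham, GSys.path, zeroSys, linZ, cos_zero, sin_zero, zero_mul, one_mul, add_zero, zero_add,
    srcSys, mul_zero, sum_const_zero, Fintype.sum_sum_type, Sum.elim_inl, Sum.elim_inr, P150.energy, fstC,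
    sndC, mul_div_assoc', mul_sum, sum_div, zero_pow two_ne_zero]
  simp only [← sum_add_distrib]
  exact sum_congr rfl fun e _ => by ring

theorem ham_tgt_end (g : PairE n → ℝ) :
    ((zeroSys (PairE n) (Fin n × Fin 3) (BinX n v w) K).path (srcSys K n β t v w)
      (tgtSys K n β t v w Q) (π / 2)).ham g
      = fun z (p : BinX n v w) => linZ (tgtSys K n β t v w Q).B z p + n * (β ^ 2 * (1 - Q K)) := by
  funext z p
  simp only [GSys.ham, GSys.path, zeroSys, linZ, cos_pi_div_two, sin_pi_div_two, zero_mul, one_mul,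
    add_zero, zero_add, srcSys, tgtSys, mul_zero, sum_const_zero, one_pow, zero_pow two_ne_zero]

/-- The uniform law of a bin. -/
noncomputable def binLaw (n : ℕ) (v w : ℝ) [Nonempty (BinX n v w)] : Measure (BinX n v w) :=
  (PMF.uniformOfFintype (BinX n v w)).toMeasure

instance (n : ℕ) (v w : ℝ) [Nonempty (BinX n v w)] : IsProbabilityMeasure (binLaw n v w) := by
  unfold binLaw; infer_instance

theorem integral_binLaw [Nonempty (BinX n v w)] (u : (Fin n → Bool) × (Fin n → Bool) → ℝ) :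
    ∫ p, u p.1 ∂binLaw n v w = (∑ p ∈ bin n v w, u p) / #(bin n v w) := by
  rw [binLaw, PMF.integral_eq_sum, sum_div, ← sum_coe_sort (bin n v w) fun p => u p / #(bin n v w)]
  refine sum_congr rfl fun p _ => ?_
  simp [PMF.uniformOfFintype_apply, ENNReal.toReal_inv, div_eq_inv_mul]

end Guerra

open Guerra in
/-- The bound on two copies at overlap `v`. -/
theorem guerra_of (hI : InterpStmt) : GuerraStmt := by
  intro β n K t v w lam Q hn _ hQ hv0 _ hvQ ht0 ht1 _ hne
  have : Nonempty (BinX n v w) := ⟨⟨hne.choose, hne.choose_spec⟩⟩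
  set μ := binLaw n v w
  set P₀ := srcSys K n β t v w
  set P₁ := tgtSys K n β t v w Q
  set C := zeroSys (PairE n) (Fin n × Fin 3) (BinX n v w) K
  set c := n * (β ^ 2 / 2 * (1 + t * v ^ 2 - mass K * ∑ j ∈ Icc 1 K, (Q j ^ 2 + t * min (Q j) v ^ 2)))
    - n * β ^ 2 * w ^ 2 / 2 - β ^ 2 with hc
  have hd : ∀ θ, HasDerivAt (fun s => gval (C.path P₀ P₁ s) μ - c * sin s ^ 2)
      (2 * sin θ * cos θ * (bracket μ C P₀ P₁ θ - c)) θ := fun θ =>
    ((hI (PairE n) (Fin n × Fin 3) (BinX n v w) μ K C P₀ P₁ orth_src_tgt θ).sub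
      (((hasDerivAt_sin θ).fun_pow 2).const_mul c)).congr_deriv (by simp; ring)
  have hmono : MonotoneOn (fun s => gval (C.path P₀ P₁ s) μ - c * sin s ^ 2) (Set.Icc 0 (π / 2)) := by
    refine monotoneOn_of_hasDerivWithinAt_nonneg (convex_Icc _ _)
      (fun x _ => (hd x).continuousAt.continuousWithinAt) (fun x _ => (hd x).hasDerivWithinAt) fun x hx => ?_
    rw [interior_Icc, Set.mem_Ioo] at hx
    exact mul_nonneg (mul_nonneg (mul_nonneg zero_le_two
      (sin_nonneg_of_nonneg_of_le_pi hx.1.le (by linarith [pi_pos])))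
      (cos_nonneg_of_mem_Icc ⟨by linarith [pi_pos], by linarith⟩))
      (sub_nonneg.2 (le_bracket hn hQ hv0 hvQ ht0 ht1 μ x))
  have hp : (0 : ℝ) ≤ π / 2 := by positivity
  have hends := hmono (Set.left_mem_Icc.2 hp) (Set.right_mem_Icc.2 hp) hp
  simp only [sin_zero, sin_pi_div_two, one_pow, mul_one, zero_pow two_ne_zero, mul_zero, sub_zero] at hends
  have hcard : (0 : ℝ) < #(bin n v w) := by exact_mod_cast hne.card_pos
  set L := log (#(bin n v w) : ℝ) - 2 * n * log 2 with hL
  -- the random end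
  have h0 : binF β n t v w = gval (C.path P₀ P₁ 0) μ + L := by
    set Φ := fun (g : PairE n → ℝ) =>
      log (∑ p ∈ bin n v w, exp (β * P150.energy n (fstC t g) p.1 + β * P150.energy n (sndC t g) p.2))
    have hv : ∀ g : PairE n → ℝ, val (stdG (Fin n × Fin 3)) μ ((C.path P₀ P₁ 0).ham g) 0 (fun _ _ => 0)
        = Φ g - log (#(bin n v w) : ℝ) := fun g => by
      rw [ham_src_zero, val_const (u := fun p : BinX n v w =>
          β * P150.energy n (fstC t g) p.1.1 + β * P150.energy n (sndC t g) p.1.2) (fun _ _ => rfl) 0,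
        integral_binLaw (fun p => exp (β * P150.energy n (fstC t g) p.1 + β * P150.energy n (sndC t g) p.2)),
        log_div (sum_pos (fun p _ => exp_pos _) hne).ne' hcard.ne']
    have hi : Integrable Φ (stdPi (PairE n)) := by
      have hm : Integrable (fun g : PairE n → ℝ => |β / √n| * 3 * ∑ e, |g e|
          + (|log (#(bin n v w) : ℝ)| + 0)) (stdPi (PairE n)) :=
        ((integrable_finsetSum _ fun e _ => (P150.integrable_coord e).abs).const_mul _).add
          (integrable_const _)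
      refine hm.mono' (Measurable.aestronglyMeasurable (by
        simp only [Φ, P150.energy, fstC, sndC]; fun_prop)) (ae_of_all _ fun g => ?_)
      set G := ∑ e, |g e|
      have hb : ∀ p : (Fin n → Bool) × (Fin n → Bool),
          |β * P150.energy n (fstC t g) p.1 + β * P150.energy n (sndC t g) p.2| ≤ |β / √n| * 3 * G := by
        intro p
        have hs : ∀ (r : ℝ) (x : Fin n → Bool) (e : Edge n), |r * (spin (x e.1.1) * spin (x e.1.2))| = |r| :=
          fun r x e => by rw [abs_mul, abs_mul, P150.abs_spin, P150.abs_spin, mul_one, mul_one]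
        have ht2 : √t ≤ 1 := Real.sqrt_le_one.2 ht1
        have ht3 : √(1 - t) ≤ 1 := Real.sqrt_le_one.2 (by linarith)
        have e1 : ∀ (h : Edge n → ℝ) (x : Fin n → Bool),
            |β * P150.energy n h x| ≤ |β / √n| * ∑ e, |h e| := fun h x => by
          rw [P150.energy, mul_div_assoc', mul_comm β, mul_div_assoc, abs_mul, mul_comm]
          refine mul_le_mul_of_nonneg_left ((abs_sum_le_sum_abs _ _).trans ?_) (abs_nonneg _)
          simp only [hs, le_refl]
        have e2 : ∑ e, |fstC t g e| + ∑ e, |sndC t g e| ≤ 3 * G := by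
          have hg : ∀ (a b : ℝ), |√t * a + √(1 - t) * b| ≤ |a| + |b| := fun a b => by
            refine (abs_add_le _ _).trans (add_le_add ?_ ?_)
            · rw [abs_mul, abs_of_nonneg (sqrt_nonneg _)]; exact mul_le_of_le_one_left (abs_nonneg _) ht2
            · rw [abs_mul, abs_of_nonneg (sqrt_nonneg _)]; exact mul_le_of_le_one_left (abs_nonneg _) ht3
          refine (add_le_add (sum_le_sum fun e _ => hg _ _) (sum_le_sum fun e _ => hg _ _)).trans ?_
          simp only [G, Fintype.sum_sum_type, sum_add_distrib]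
          have i1 : 0 ≤ ∑ e : Edge n, |g (.inl e)| := by positivity
          have i2 : 0 ≤ ∑ e : Edge n, |g (.inr (.inl e))| := by positivity
          have i3 : 0 ≤ ∑ e : Edge n, |g (.inr (.inr e))| := by positivity
          linarith
        refine (abs_add_le _ _).trans ((add_le_add (e1 _ _) (e1 _ _)).trans ?_)
        rw [← mul_add, mul_assoc]
        exact mul_le_mul_of_nonneg_left e2 (abs_nonneg _)
      have hup : Φ g ≤ |β / √n| * 3 * G + log (#(bin n v w) : ℝ) := by
        refine (log_le_log (sum_pos (fun p _ => exp_pos _) hne)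
          (sum_le_card_nsmul _ _ _ fun p _ => exp_le_exp.2 (abs_le.1 (hb p)).2)).trans (le_of_eq ?_)
        rw [nsmul_eq_mul, log_mul hcard.ne' (exp_pos _).ne', log_exp, add_comm]
      have hlo : -(|β / √n| * 3 * G) + log (#(bin n v w) : ℝ) ≤ Φ g := by
        refine le_trans (le_of_eq ?_) (log_le_log (mul_pos hcard (exp_pos _))
          ((le_of_eq (nsmul_eq_mul _ _).symm).trans
            (card_nsmul_le_sum _ _ _ fun p _ => exp_le_exp.2 (abs_le.1 (hb p)).1)))
        rw [log_mul hcard.ne' (exp_pos _).ne', log_exp, add_comm]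
      rw [Real.norm_eq_abs, add_zero, abs_le]
      constructor <;> linarith [le_abs_self (log (#(bin n v w) : ℝ)), neg_abs_le (log (#(bin n v w) : ℝ))]
    simp only [binF, gval, hv, hL]
    rw [integral_sub hi (integrable_const _), integral_const, probReal_univ, one_smul]
    ring
  -- the field end
  set ts := twoSys K β t v Q lam
  set h2 := fun (z : Fin K → Fin 3 → ℝ) x => ts.ham (fun _ : Fin 0 => 0) z x
  have hh : LinB (gaussSize (Fin 3)) h2 := linB_ham ts _
  have hone : gval ts (coin.prod coin) = val (stdG (Fin 3)) (coin.prod coin) h2 0 (fun _ _ => 0) := by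
    have e : ∀ g, ts.ham g = h2 := fun g => by rw [Subsingleton.elim g fun _ => 0]
    simp only [gval, e, integral_const, probReal_univ, one_smul]
  have hsites : LinB (gaussSize (Fin n × Fin 3)) (sitesH (n := n) h2) := by
    have e : sitesH (n := n) h2 = fun z (p : (Fin n → Bool) × (Fin n → Bool)) =>
        linZ (fun a ic p => ts.B a ic.2 (p.1 ic.1, p.2 ic.1)) z p + ∑ i, ts.H (p.1 i, p.2 i) := by
      funext z p
      simp only [sitesH, h2, GSys.ham, linZ, zero_mul, sum_const_zero, add_zero, site, sum_add_distrib,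
        Fintype.sum_prod_type]
      rw [sum_comm]
    rw [e]
    exact P157.Rsb.linB_affine (bcoef_fn _) (measurable_of_finite _)
      (bd_fn fun p : (Fin n → Bool) × (Fin n → Bool) => ∑ i, ts.H (p.1 i, p.2 i))
  have h1 : gval (C.path P₀ P₁ (π / 2)) μ + L
      ≤ n * gval ts (coin.prod coin) - n * lam * v + n * |lam| * w := by
    set H1 := fun z (p : BinX n v w) => linZ P₁.B z p + n * (β ^ 2 * (1 - Q K)) with hH1
    have hg : gval (C.path P₀ P₁ (π / 2)) μ = val (stdG (Fin n × Fin 3)) μ H1 0 (fun _ _ => 0) := by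
      simp only [gval, C, P₀, P₁, ham_tgt_end, integral_const, probReal_univ, one_smul, hH1]
    have hL1 : LinB (gaussSize (Fin n × Fin 3)) H1 :=
      P157.Rsb.linB_affine (bcoef_fn _) measurable_const (fun _ => le_rfl)
    have htop : ∀ z, val (stdG (Fin n × Fin 3)) μ H1 K z ≤ (-L - n * lam * v + n * |lam| * w)
        + val (stdG (Fin n × Fin 3)) ((cubeLaw n).prod (cubeLaw n)) (sitesH h2) K z := by
      intro z
      set F := fun p : (Fin n → Bool) × (Fin n → Bool) =>
        ∑ ic : Fin n × Fin 3, ∑ a : Fin K, z a ic * (twoSys K β t v Q 0).B a ic.2 (p.1 ic.1, p.2 ic.1)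
      set Z := ∑ p, exp (sitesH h2 z p) with hZ
      have hZ0 : 0 < Z := sum_pos (fun p _ => exp_pos _) univ_nonempty
      have eF : ∀ p : BinX n v w, H1 z p = F p.1 + n * (β ^ 2 * (1 - Q K)) := fun p => by
        simp only [hH1, F, linZ, P₁, tgtSys]; rw [sum_comm]
      have eS : ∀ p, sitesH h2 z p = F p + n * (β ^ 2 * (1 - Q K)) + lam * dot2 p.1 p.2 := fun p => by
        simp only [sitesH, h2, GSys.ham, linZ, ts, twoSys, zero_mul, sum_const_zero, add_zero, site,
          sum_add_distrib, sum_const, card_univ, Fintype.card_fin, nsmul_eq_mul, F, Fintype.sum_prod_type,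
          dot2, mul_sum]
        rw [← add_assoc]
        congr 2
        refine sum_congr rfl fun i _ => ?_
        rw [sum_comm]
      have hle : ∑ p ∈ bin n v w, exp (F p + n * (β ^ 2 * (1 - Q K)))
          ≤ exp (-(n * lam * v) + n * |lam| * w) * Z := by
        refine le_trans (sum_le_sum fun p hp => ?_) (le_trans (le_of_eq (mul_sum _ _ _).symm)
          (mul_le_mul_of_nonneg_left (sum_le_sum_of_subset_of_nonneg (subset_univ _)
            fun _ _ _ => (exp_pos _).le) (exp_pos _).le))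
        rw [← exp_add, eS]
        refine exp_le_exp.2 ?_
        have hp' : |ovr p.1 p.2 - v| ≤ w := by simpa [bin] using hp
        have hn0 : (n : ℝ) ≠ 0 := by exact_mod_cast (by omega : n ≠ 0)
        have hO : dot2 p.1 p.2 = n * ovr p.1 p.2 := by rw [ovr, mul_div_cancel₀ _ hn0]; rfl
        have h5 : |lam * (ovr p.1 p.2 - v)| ≤ |lam| * w := by
          rw [abs_mul]; exact mul_le_mul_of_nonneg_left hp' (abs_nonneg _)
        rw [hO]
        nlinarith [mul_le_mul_of_nonneg_left (abs_le.1 h5).1 (Nat.cast_nonneg (α := ℝ) n)]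
      have i2 : ∫ p, exp (sitesH h2 z p) ∂(cubeLaw n).prod (cubeLaw n) = Z / (2 ^ n * 2 ^ n) := by
        rw [integral_prod _ Integrable.of_finite]
        simp only [P157.integral_cubeLaw, hZ, Fintype.sum_prod_type, sum_div, div_div]
      have i1 : ∫ p, exp (H1 z p) ∂μ
          = (∑ p ∈ bin n v w, exp (F p + n * (β ^ 2 * (1 - Q K)))) / #(bin n v w) := by
        simp only [eF]
        exact integral_binLaw fun p => exp (F p + n * (β ^ 2 * (1 - Q K)))
      have hpos : 0 < ∑ p ∈ bin n v w, exp (F p + n * (β ^ 2 * (1 - Q K))) :=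
        sum_pos (fun p _ => exp_pos _) hne
      have hlog := log_le_log hpos hle
      rw [log_mul (exp_pos _).ne' hZ0.ne', log_exp] at hlog
      rw [P157.Rsb.val_top, P157.Rsb.val_top, i1, i2, log_div hpos.ne' hcard.ne',
        log_div hZ0.ne' (by positivity), log_mul (by positivity) (by positivity), log_pow, hL]
      linarith
    have h := val_le (ν := (cubeLaw n).prod (cubeLaw n)) hL1 hsites _ htop 0 (fun _ _ => 0)
    rw [val_sites hh] at h
    have e : ∀ i : Fin n, site (fun (_ : Fin K) (_ : Fin n × Fin 3) => (0 : ℝ)) i = fun _ _ => 0 :=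
      fun i => rfl
    simp only [e, sum_const, card_univ, Fintype.card_fin, nsmul_eq_mul, ← hone, ← hg] at h
    linarith
  rw [h0]
  simp only [twoObj]
  rw [hc] at hends
  change _ ≤ (n : ℝ) * (gval ts (coin.prod coin) - lam * v
    - β ^ 2 / 2 * (1 + t * v ^ 2 - mass K * ∑ j ∈ Icc 1 K, (Q j ^ 2 + t * min (Q j) v ^ 2))) + _ + _ + _
  linarith [sq_nonneg β]

end Vale.Agent.P146.Sup
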