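import Vale.Agent.P146.Sup.Gain
import Vale.Agent.P146.Sup.Split
import Vale.Agent.P157.Cube2.SpinFacts
import Vale.Agent.P157.Cube2.LowTools

/-!
# P146, superconcentration: the lower half of the Parisi formula with a power rate
-/

open MeasureTheory ProbabilityTheory Real Finset
open Vale.Agent.P157.Rsb (IsPath mass)
open Vale.Agent.P157 (cubeLaw)
open Vale.Agent.P157.Cube2 (spinF_zero spinG)
open Vale.Agent.P157.Cube2.Low (spinG_congr)

namespace Vale.Agent.P146.Sup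

variable {β : ℝ} {k : ℕ}

theorem parisiP_congr {p q : ℕ → ℝ} (h : ∀ l ≤ k, p l = q l) : parisiP β k p = parisiP β k q := by
  unfold parisiP
  rw [spinG_congr (r := scale β p) (r' := scale β q) fun l hl => by simp [scale, h l hl],
    sum_congr rfl fun l hl => by rw [h l (mem_Icc.1 hl).2]]

/-- A minimiser is below every path. -/
theorem minPath_le {q r : ℕ → ℝ} (hq : IsMinPath β k q) (hr : IsPath k r) :
    parisiP β k q ≤ parisiP β k r := by
  let p : ℕ → ℝ := fun l => if l ≤ k then r l else q l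
  have hp : ∀ l ≤ k, p l = r l := fun l hl => if_pos hl
  refine (hq.2 p ⟨by rw [hp 0 (Nat.zero_le k)]; exact hr.1, fun j hj => ?_, by rw [hp k le_rfl]; exact hr.2.2⟩
    fun l hl => if_neg (by omega)).trans_eq (parisiP_congr hp)
  rw [hp j hj.le, hp (j + 1) hj]
  exact hr.2.1 j hj

theorem isPath_zero (k : ℕ) : IsPath k fun _ => 0 := ⟨rfl, fun _ _ => le_rfl, zero_le_one⟩

theorem parisiP_zero (β : ℝ) (k : ℕ) : parisiP β k (fun _ => 0) = β ^ 2 / 4 := by
  have h : scale β (fun _ => (0 : ℝ)) = fun _ => 0 := funext fun _ => by simp [scale]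
  simp [parisiP, h, spinG, spinF_zero]

theorem meanF_one (β : ℝ) : meanF β 1 = 0 := by
  have : IsEmpty (P150.Edge 1) := ⟨fun e => absurd e.2 (by rw [Fin.eq_zero e.1.1, Fin.eq_zero e.1.2]; exact lt_irrefl _)⟩
  have h : ∀ g, freeEnergy 1 β g = log 2 := fun g => by
    simp [freeEnergy, P150.energy]
  simp [meanF, h, P150.disorder]

theorem sum_inv_le_succ (n : ℕ) : ∑ m ∈ Ico 1 (n + 1), (1 : ℝ) / m ≤ 2 * √(n : ℝ) := by
  induction n with
  | zero => simp
  | succ n ih =>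
    rw [sum_Ico_succ_top (by omega)]
    push_cast
    have h1 := sq_sqrt (show (0 : ℝ) ≤ n by positivity)
    have h2 := sq_sqrt (show (0 : ℝ) ≤ (n : ℝ) + 1 by positivity)
    have s1 : √(n : ℝ) ≤ √((n : ℝ) + 1) := sqrt_le_sqrt (by linarith)
    have s2 : √((n : ℝ) + 1) ≤ (n : ℝ) + 1 := by
      rw [sqrt_le_left (by positivity)]
      nlinarith [Nat.cast_nonneg (α := ℝ) n]
    have h4 : (√((n : ℝ) + 1) - √(n : ℝ)) * (√((n : ℝ) + 1) + √(n : ℝ)) = 1 := by
      linear_combination h2 - h1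
    have h3 : (1 : ℝ) / ((n : ℝ) + 1) ≤ 2 * (√((n : ℝ) + 1) - √(n : ℝ)) := by
      rw [div_le_iff₀ (by positivity)]
      nlinarith [mul_le_mul_of_nonneg_left
        (show √((n : ℝ) + 1) + √(n : ℝ) ≤ 2 * ((n : ℝ) + 1) by linarith) (sub_nonneg.2 s1)]
    linarith

theorem sum_inv_le (n : ℕ) : ∑ m ∈ Ico 1 n, (1 : ℝ) / m ≤ 2 * √(n : ℝ) := by
  rcases Nat.eq_zero_or_pos n with rfl | hn
  · simp
  obtain ⟨p, rfl⟩ : ∃ p, n = p + 1 := ⟨n - 1, by omega⟩
  exact (sum_inv_le_succ p).trans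
    (mul_le_mul_of_nonneg_left (sqrt_le_sqrt (by exact_mod_cast Nat.le_succ p)) zero_le_two)

/-- One step of the telescoping sum. -/
theorem gain_ge (hI : InterpStmt) {σ : ℕ → ℝ} {q : ℕ → ℝ} (hq : IsMinPath β k q) {m : ℕ} (hm : 1 ≤ m)
    (hr : IsPath k (baseQ β m k σ)) {e : ℝ}
    (he : ∀ side θ, cavErr β m k σ side (baseQ β m k σ) θ ≤ e) :
    parisiP β k q - pertSq k σ - 2 * β ^ 2 * (e + 1 / m) ≤ pertF β (m + 1) k σ - pertF β m k σ := by
  set r := baseQ β m k σ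
  obtain ⟨g0, g1⟩ := (gain_of hI β k σ r).1 m hm
  have c0 := abs_le.1 (cavity_of hI β m k σ r false e hm hr (he false))
  have c1 := abs_le.1 (cavity_of hI β m k σ r true e hm hr (he true))
  have hs := split β m k σ r hr
  have hp := minPath_le hq hr
  rw [g0]
  have := (abs_le.1 g1).1
  have e1 : 2 * β ^ 2 * (e + 1 / (m : ℝ)) = 2 * (β ^ 2 * e + β ^ 2 / m) := by ring
  linarith [c0.1, c0.2, c1.1, c1.2]

/-- The lower half of the Parisi formula with a power rate. -/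
theorem rate_of (hI : InterpStmt) (hS : SyncStmt) : RateStmt := by
  intro β _
  obtain ⟨C, a, b, ha, hsync⟩ := hS β
  set c := min (a / (4 * (b + 1))) (1 / 2) with hc
  have hc0 : 0 < c := lt_min (by positivity) one_half_pos
  have hca : c * (4 * ((b : ℝ) + 1)) ≤ a := (le_div_iff₀ (by positivity)).1 (min_le_left _ _)
  have hc1 : c ≤ 1 / 2 := min_le_right _ _
  refine ⟨c / 2, β ^ 2 / 4 + 16 + 2 * β ^ 2 * (max C 0 * (1 + 3 ^ b)) + 4 * β ^ 2, by positivity,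
    fun n hn => ?_⟩
  have hn1 : (1 : ℝ) ≤ n := by exact_mod_cast hn
  have hn0 : (0 : ℝ) < n := by linarith
  set k := ⌈(n : ℝ) ^ c⌉₊ with hk
  have hnc : 1 ≤ (n : ℝ) ^ c := one_le_rpow hn1 hc0.le
  have hk1 : (n : ℝ) ^ c ≤ k := Nat.le_ceil _
  have hk2 : (k : ℝ) ≤ 2 * (n : ℝ) ^ c := by
    have := Nat.ceil_lt_add_one (show 0 ≤ (n : ℝ) ^ c by linarith)
    linarith
  have hk0 : 1 ≤ k := by exact_mod_cast hnc.trans hk1
  set η := (n : ℝ) ^ (-c) with hη
  obtain ⟨σ, hσ, e, he, hsum⟩ :=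
    hsync n k η hn hk0 (by positivity) (rpow_le_one_of_one_le_of_nonpos hn1 (by linarith))
  obtain ⟨q, hq, hqle⟩ := exists_isMinPath (β := β) (isPath_zero k)
  refine ⟨k, q, hk0, hq, ?_⟩
  rw [parisiP_zero] at hqle
  -- the telescoping sum
  have htel : ((n : ℝ) - 1) * (parisiP β k q - pertSq k σ)
      - 2 * β ^ 2 * (∑ m ∈ Ico 1 n, e m + ∑ m ∈ Ico 1 n, (1 : ℝ) / m)
      ≤ pertF β n k σ - pertF β 1 k σ := by
    rw [← sum_Ico_sub (fun m => pertF β m k σ) hn]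
    refine le_of_eq_of_le ?_ (sum_le_sum fun m hm => gain_ge hI hq (mem_Ico.1 hm).1 (he m hm).1 (he m hm).2)
    rw [sum_sub_distrib, sum_const, Nat.card_Ico, nsmul_eq_mul, Nat.cast_sub hn, ← mul_sum,
      sum_add_distrib, Nat.cast_one]
  have e1 := abs_le.1 ((gain_of hI β k σ (fun _ => 0)).2 1 le_rfl)
  have e2 := abs_le.1 ((gain_of hI β k σ (fun _ => 0)).2 n hn)
  rw [meanF_one, Nat.cast_one, one_mul] at e1
  -- the sizes of the errors
  have hp0 : ∀ x, x ≤ 1 - c / 2 → (n : ℝ) ^ x ≤ (n : ℝ) ^ (1 - c / 2) := fun x hx =>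
    rpow_le_rpow_of_exponent_le hn1 hx
  set N := (n : ℝ) ^ (1 - c / 2) with hN
  have hN1 : 1 ≤ N := one_le_rpow hn1 (by linarith)
  have hpS : (n : ℝ) * pertSq k σ ≤ 8 * N := by
    have h1 : pertSq k σ ≤ k * (4 * η ^ 2) := by
      refine (sum_le_sum (g := fun _ => 4 * η ^ 2) fun l _ => ?_).trans_eq (by simp)
      obtain ⟨h1, h2⟩ := hσ l
      nlinarith [show 0 ≤ η by positivity]
    refine (mul_le_mul_of_nonneg_left (h1.trans
      (mul_le_mul_of_nonneg_right hk2 (by positivity))) hn0.le).trans ?_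
    have e : (n : ℝ) * (2 * (n : ℝ) ^ c * (4 * η ^ 2)) = 8 * (n : ℝ) ^ (1 - c) := by
      rw [hη, ← rpow_natCast ((n : ℝ) ^ (-c)) 2, ← rpow_mul hn0.le,
        show 1 - c = 1 + c + -c * ((2 : ℕ) : ℝ) by push_cast; ring, rpow_add hn0, rpow_add hn0, rpow_one]
      ring
    rw [e]
    exact mul_le_mul_of_nonneg_left (hp0 _ (by linarith)) (by norm_num)
  have hb1 : (n : ℝ) * (1 / √(k : ℝ)) ≤ N := by
    have h1 : (n : ℝ) ^ (c / 2) ≤ √(k : ℝ) := by
      rw [sqrt_eq_rpow, show c / 2 = c * (1 / 2) by ring, rpow_mul hn0.le]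
      exact rpow_le_rpow (by positivity) hk1 (by norm_num)
    rw [hN, rpow_sub hn0, rpow_one, mul_one_div]
    exact div_le_div_of_nonneg_left hn0.le (by positivity) h1
  have hb2 : (n : ℝ) * ((((k : ℝ) + 1) / η) ^ b / (n : ℝ) ^ a) ≤ 3 ^ b * N := by
    have h1 : ((k : ℝ) + 1) / η ≤ 3 * (n : ℝ) ^ (2 * c) := by
      rw [hη, rpow_neg hn0.le, div_inv_eq_mul, show 2 * c = c + c by ring, rpow_add hn0, ← mul_assoc]
      exact mul_le_mul_of_nonneg_right (by linarith) (by positivity)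
    calc (n : ℝ) * ((((k : ℝ) + 1) / η) ^ b / (n : ℝ) ^ a)
        ≤ (n : ℝ) * ((3 * (n : ℝ) ^ (2 * c)) ^ b / (n : ℝ) ^ a) := by gcongr
      _ = 3 ^ b * (n : ℝ) ^ (1 + 2 * c * b - a) := by
          rw [mul_pow, ← rpow_natCast ((n : ℝ) ^ (2 * c)) b, ← rpow_mul hn0.le, rpow_sub hn0,
            rpow_add hn0, rpow_one]
          ring
      _ ≤ _ := mul_le_mul_of_nonneg_left
          (hp0 _ (by nlinarith [Nat.cast_nonneg (α := ℝ) b])) (by positivity)
  have hes : ∑ m ∈ Ico 1 n, e m ≤ max C 0 * (1 + 3 ^ b) * N := by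
    refine hsum.trans ?_
    rw [mul_assoc C, mul_assoc (max C 0)]
    refine (mul_le_mul_of_nonneg_right (le_max_left C 0) (by positivity)).trans
      (mul_le_mul_of_nonneg_left ?_ (le_max_right C 0))
    rw [mul_add]
    linarith
  have hh : ∑ m ∈ Ico 1 n, (1 : ℝ) / m ≤ 2 * N :=
    (sum_inv_le n).trans (mul_le_mul_of_nonneg_left
      (by rw [sqrt_eq_rpow]; exact hp0 _ (by linarith)) zero_le_two)
  have h2 : 2 * β ^ 2 * (∑ m ∈ Ico 1 n, e m + ∑ m ∈ Ico 1 n, (1 : ℝ) / m)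
      ≤ 2 * β ^ 2 * (max C 0 * (1 + 3 ^ b) * N + 2 * N) :=
    mul_le_mul_of_nonneg_left (add_le_add hes hh) (by positivity)
  have h3 : β ^ 2 / 4 ≤ β ^ 2 / 4 * N := le_mul_of_one_le_right (by positivity) hN1
  linarith [e1.1, e2.2]

end Vale.Agent.P146.Sup
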