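import Vale.Agent.P146.Sup.SyncLevel

/-!
# P146, superconcentration: one choice of the amplitudes

Averaged over a grid of amplitudes the increments of a monotone mean energy are small, so one point
of the grid makes the summed errors small.
-/

open MeasureTheory ProbabilityTheory Real Finset
open Vale.Agent.P157.Rsb Vale.Agent.P157.Rsb.Lf

namespace Vale.Agent.P146.Sup

/-- A point of the amplitude grid. -/
noncomputable def gridAmp (η : ℝ) (n : ℕ) (i : ℕ) : ℝ := η * (1 + ((i : ℝ) + 1 / 2) / n)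

/-- The amplitudes at a point of the product grid. -/
noncomputable def gridSig {n k : ℕ} (η : ℝ) (y : Fin k → Fin n) (l : ℕ) : ℝ :=
  if h : 1 ≤ l ∧ l ≤ k then gridAmp η n (y ⟨l - 1, by omega⟩) else η

theorem gridSig_at {n k : ℕ} (η : ℝ) (y : Fin k → Fin n) (a : Fin k) :
    gridSig η y ((a : ℕ) + 1) = gridAmp η n (y a) := by
  rw [gridSig, dif_pos ⟨by omega, by omega⟩]
  congr 4

theorem setAmp_gridSig {n k : ℕ} (η : ℝ) (y : Fin k → Fin n) (a : Fin k) (i : Fin n) (t : ℝ) :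
    setAmp (gridSig η (Function.update y a i)) a t = setAmp (gridSig η y) a t := by
  funext l
  by_cases h : l = (a : ℕ) + 1
  · simp [setAmp, h]
  · simp only [setAmp, Function.update_of_ne h]
    unfold gridSig
    split_ifs with h1
    · rw [Function.update_of_ne fun e => h (by have := congrArg Fin.val e; simp at this; omega)]
    · rfl

/-- The increments of a monotone function over a grid telescope. -/
theorem sum_shift_le {g : ℕ → ℝ} (hg : Monotone g) (n L : ℕ) :
    ∑ i ∈ range n, (g (i + L) - g i) ≤ L * (g (n + L) - g 0) := by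
  have h1 := sum_range_add g n L
  have h2 := sum_range_add g L n
  have e : ∑ i ∈ range n, (g (i + L) - g i) = ∑ i ∈ range L, (g (n + i) - g i) := by
    rw [sum_sub_distrib, sum_sub_distrib]
    rw [add_comm n L] at h1
    simp only [add_comm _ L] at *
    linarith
  rw [e]
  refine (sum_le_card_nsmul _ _ (g (n + L) - g 0) fun i hi => ?_).trans (le_of_eq (by simp))
  rw [mem_range] at hi
  linarith [hg (show n + i ≤ n + L by omega), hg (Nat.zero_le i)]

theorem sum_window_le {f : ℝ → ℝ} (hf : Monotone f) (hb : ∀ t, |f t| ≤ |t|) {η h : ℝ} {n : ℕ}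
    (hn : 1 ≤ n) (hη : 0 < η) (hη1 : η ≤ 1) (hh : 0 < h) (hh1 : h ≤ 1) (hnh : 1 ≤ h * n) :
    ∑ i : Fin n, (f (gridAmp η n i + h) - f (gridAmp η n i - h)) ≤ n * (42 * h / η) := by
  have hn0 : (0 : ℝ) < n := by exact_mod_cast hn
  set L := ⌈2 * h * n / η⌉₊
  have hL : 2 * h * n / η ≤ (L : ℝ) := Nat.le_ceil _
  have hL1 : (L : ℝ) ≤ 2 * h * n / η + 1 := (Nat.ceil_lt_add_one (by positivity)).le
  set g : ℕ → ℝ := fun j => f (gridAmp η n j - h)
  have hg : Monotone g := fun i j hij => hf (by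
    simp only [gridAmp]
    gcongr)
  rw [Fin.sum_univ_eq_sum_range fun i => f (gridAmp η n i + h) - f (gridAmp η n i - h)]
  refine (sum_le_sum (g := fun i => g (i + L) - g i) fun i _ => ?_).trans
    ((sum_shift_le hg n L).trans ?_)
  · refine sub_le_sub_right (hf ?_) _
    simp only [gridAmp, Nat.cast_add]
    have h1 : 2 * h ≤ η * ((L : ℝ) / n) := by
      rw [div_le_iff₀ hη] at hL
      rw [← mul_div_assoc, le_div_iff₀ hn0]
      linarith
    have e : η * (1 + ((i : ℝ) + L + 1 / 2) / n) = η * (1 + ((i : ℝ) + 1 / 2) / n) + η * ((L : ℝ) / n) := by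
      ring
    linarith
  · have hhalf : (1 / 2 : ℝ) / n ≤ 1 := by
      rw [div_le_one hn0]
      have : (1 : ℝ) ≤ n := by exact_mod_cast hn
      linarith
    have hLn : η * ((L : ℝ) / n) ≤ 3 := by
      calc η * ((L : ℝ) / n) ≤ η * ((2 * h * n / η + 1) / n) := by gcongr
        _ = 2 * h + η * (1 / n) := by field_simp
        _ ≤ 3 := by
          have : (1 : ℝ) / n ≤ 1 := by rw [div_le_one hn0]; exact_mod_cast hn
          nlinarith
    have habs : ∀ j : ℕ, η * ((j : ℝ) / n) ≤ 4 → |g j| ≤ 7 := fun j hj => by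
      refine (hb _).trans ?_
      simp only [gridAmp]
      have e : η * (1 + ((j : ℝ) + 1 / 2) / n) = η + η * ((j : ℝ) / n) + η * ((1 / 2 : ℝ) / n) := by ring
      have p1 : 0 ≤ η * ((j : ℝ) / n) := by positivity
      have p2 : 0 ≤ η * ((1 / 2 : ℝ) / n) := by positivity
      rw [abs_le]
      constructor <;> nlinarith
    have hgn : |g (n + L)| ≤ 7 := habs _ (by
      push_cast
      rw [add_div, div_self hn0.ne', mul_add, mul_one]
      linarith)
    have hg0 : |g 0| ≤ 7 := habs 0 (by simp)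
    calc (L : ℝ) * (g (n + L) - g 0) ≤ L * 14 :=
          mul_le_mul_of_nonneg_left (by linarith [(abs_le.1 hgn).2, (abs_le.1 hg0).1]) (Nat.cast_nonneg L)
      _ ≤ (2 * h * n / η + 1) * 14 := mul_le_mul_of_nonneg_right hL1 (by norm_num)
      _ ≤ (2 * h * n / η + h * n / η) * 14 := by
          gcongr
          rw [le_div_iff₀ hη]
          linarith
      _ = _ := by ring

/-- Averaging over a coordinate of the product grid. -/
theorem sum_grid_le {n k : ℕ} (a : Fin k) {F : (Fin k → Fin n) → ℝ} {c : ℝ}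
    (h : ∀ y, ∑ i : Fin n, F (Function.update y a i) ≤ n * c) :
    ∑ y, F y ≤ (Fintype.card (Fin k → Fin n) : ℝ) * c := by
  rcases Nat.eq_zero_or_pos n with rfl | hn
  · have : IsEmpty (Fin k → Fin 0) := ⟨fun y => (y a).elim0⟩
    simp
  have hn0 : (0 : ℝ) < n := by exact_mod_cast hn
  have hinv : Function.Involutive fun p : (Fin k → Fin n) × Fin n => (Function.update p.1 a p.2, p.1 a) :=
    fun p => by simp
  have e : ∑ p : (Fin k → Fin n) × Fin n, F (Function.update p.1 a p.2)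
      = ∑ p : (Fin k → Fin n) × Fin n, F p.1 :=
    Fintype.sum_equiv hinv.toPerm _ _ fun p => rfl
  simp only [Fintype.sum_prod_type, sum_const, card_univ, Fintype.card_fin, nsmul_eq_mul, ← mul_sum] at e
  refine le_of_mul_le_mul_left ?_ hn0
  rw [← e]
  refine (sum_le_sum fun y _ => h y).trans (le_of_eq ?_)
  rw [sum_const, card_univ, nsmul_eq_mul]
  ring

/-- The window used at volume `m`. -/
noncomputable def win (m : ℕ) : ℝ := (√(√(m : ℝ)))⁻¹

theorem sum_win_le {n : ℕ} (hn : 1 ≤ n) : ∑ m ∈ Ico 1 n, win m ≤ 2 * n / √(√(n : ℝ)) := by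
  have hs : ∀ n : ℕ, ∑ m ∈ Ico 1 (n + 1), (1 : ℝ) / √m ≤ 2 * √n := fun n => by
    induction n with
    | zero => simp
    | succ n ih =>
      rw [sum_Ico_succ_top (by omega)]
      push_cast
      set v := √(n : ℝ)
      set u := √((n : ℝ) + 1)
      have hu : 0 < u := Real.sqrt_pos.2 (by positivity)
      have eu : u * u = (n : ℝ) + 1 := Real.mul_self_sqrt (by positivity)
      have ev : v * v = (n : ℝ) := Real.mul_self_sqrt (Nat.cast_nonneg n)
      have h : 1 / u ≤ 2 * u - 2 * v := by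
        rw [div_le_iff₀ hu]
        nlinarith [sq_nonneg (u - v)]
      linarith
  have hn0 : (0 : ℝ) < n := by exact_mod_cast hn
  have hr : 0 < √(√(n : ℝ)) := Real.sqrt_pos.2 (Real.sqrt_pos.2 hn0)
  calc ∑ m ∈ Ico 1 n, win m ≤ ∑ m ∈ Ico 1 n, √(√(n : ℝ)) * (1 / √m) := sum_le_sum fun m hm => by
        rw [mem_Ico] at hm
        have hm0 : (0 : ℝ) < m := by exact_mod_cast hm.1
        have hmr : 0 < √(√(m : ℝ)) := Real.sqrt_pos.2 (Real.sqrt_pos.2 hm0)
        have hle : √(√(m : ℝ)) ≤ √(√(n : ℝ)) := Real.sqrt_le_sqrt (Real.sqrt_le_sqrt (by exact_mod_cast hm.2.le))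
        rw [win, mul_one_div, inv_eq_one_div, div_le_div_iff₀ hmr (Real.sqrt_pos.2 hm0), one_mul]
        calc √(m : ℝ) = √(√(m : ℝ)) * √(√(m : ℝ)) := (Real.mul_self_sqrt (sqrt_nonneg _)).symm
          _ ≤ _ := mul_le_mul_of_nonneg_right hle hmr.le
    _ ≤ √(√(n : ℝ)) * (2 * √n) := by
        rw [← mul_sum]
        exact mul_le_mul_of_nonneg_left ((sum_le_sum_of_subset_of_nonneg
          (Ico_subset_Ico_right (Nat.le_succ n)) fun i _ _ => by positivity).trans (hs n)) hr.le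
    _ = _ := by
        rw [eq_div_iff hr.ne']
        linear_combination (2 * √(n : ℝ)) * Real.mul_self_sqrt (sqrt_nonneg (n : ℝ))
          + 2 * Real.mul_self_sqrt hn0.le

/-- One choice of the amplitudes makes all cavity systems replica symmetric at every branch level. -/
theorem sync_of (hI : InterpStmt) : SyncStmt := fun β => by
  set C1 := 15 * β ^ 2 + 1
  set C0 := 3 / 2 + 2 * (1 + 3 * C1) + 84
  have hC1 : 0 < C1 := by positivity
  have hC0 : 0 < C0 := by positivity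
  refine ⟨8 + 2 * C0, 1 / 4, 3, by norm_num, fun n k η hn hk hη hη1 => ?_⟩
  have hn0 : (0 : ℝ) < n := by exact_mod_cast hn
  have hK0 : (0 : ℝ) < (k : ℝ) + 1 := by positivity
  have : Nonempty (Fin k → Fin n) := ⟨fun _ => ⟨0, hn⟩⟩
  set T := ((k : ℝ) + 1) / η with hT
  have hT0 : 0 < T := by positivity
  have hT1 : 1 ≤ T := by
    rw [hT, le_div_iff₀ hη]
    linarith [show (0 : ℝ) ≤ k from Nat.cast_nonneg k]
  set G : (Fin k → Fin n) → ℕ → ℝ := fun y m => 8 / √((k : ℝ) + 1)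
    + 3 / 2 * √((k : ℝ) + 1) * ((k : ℝ) + 1) / (η * √m)
    + 2 / η * ∑ a : Fin k, (((k : ℝ) + 1) ^ 2 / (m * win m) + pInc β m (gridSig η y) a (win m)
        + 3 * (15 * β ^ 2 + 1) / (√m * win m))
  have hw : ∀ m ∈ Ico 1 n, 0 < win m ∧ win m ≤ 1 ∧ 1 ≤ win m * n ∧
      1 / (√(m : ℝ) * win m) ≤ win m ∧ 1 / ((m : ℝ) * win m) ≤ win m ∧ 1 / √(m : ℝ) ≤ win m := by
    intro m hm
    rw [mem_Ico] at hm
    have hm1 : (1 : ℝ) ≤ m := by exact_mod_cast hm.1
    have hmn : (m : ℝ) ≤ n := by exact_mod_cast hm.2.le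
    set v := √(√(m : ℝ)) with hv
    have hs1 : 1 ≤ √(m : ℝ) := Real.one_le_sqrt.2 hm1
    have hv1 : 1 ≤ v := Real.one_le_sqrt.2 hs1
    have hv0 : 0 < v := by linarith
    have e2 : √(m : ℝ) = v * v := (Real.mul_self_sqrt (sqrt_nonneg _)).symm
    have e4 : (m : ℝ) = v * v * (v * v) := by
      rw [← e2]; exact (Real.mul_self_sqrt (by linarith)).symm
    rw [show win m = v⁻¹ from rfl, e2]
    refine ⟨inv_pos.2 hv0, inv_le_one_of_one_le₀ hv1, ?_, ?_, ?_, ?_⟩
    · rw [← div_eq_inv_mul, le_div_iff₀ hv0, one_mul]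
      nlinarith [mul_le_mul_of_nonneg_left hv1 hv0.le, mul_pos hv0 hv0]
    · rw [inv_eq_one_div]; field_simp; exact le_rfl
    · rw [e4, inv_eq_one_div]
      field_simp
      nlinarith [mul_le_mul_of_nonneg_left hv1 hv0.le]
    · rw [inv_eq_one_div, div_le_div_iff₀ (by positivity) hv0]
      nlinarith
  have havg : ∀ m ∈ Ico 1 n, ∑ y, G y m
      ≤ (Fintype.card (Fin k → Fin n) : ℝ) * (8 / √k + C0 * T ^ 3 * win m) := by
    intro m hm
    obtain ⟨w0, w1, w2, w3, w4, w5⟩ := hw m hm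
    have hm1 : 1 ≤ m := (mem_Ico.1 hm).1
    have hp : ∀ a : Fin k, ∑ y, pInc β m (gridSig η y) a (win m)
        ≤ (Fintype.card (Fin k → Fin n) : ℝ) * (42 * win m / η) := fun a => by
      refine sum_grid_le a fun y => ?_
      simp only [pInc, gridSig_at, Function.update_self, setAmp_gridSig]
      refine sum_window_le (pbar_mono β hm1 (gridSig η y) a) (fun t => ?_) hn hη hη1 w0 w1 w2
      exact (abs_pbar_le β hm1 _ a).trans (le_of_eq (by rw [setAmp_self]))
    set c := (Fintype.card (Fin k → Fin n) : ℝ)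
    have hc : 0 ≤ c := Nat.cast_nonneg _
    have hk0 : (0 : ℝ) ≤ k := Nat.cast_nonneg k
    have hk1 : (1 : ℝ) ≤ k := by exact_mod_cast hk
    simp only [G, sum_add_distrib, ← mul_sum, sum_const, card_univ, nsmul_eq_mul, Fintype.card_fin]
    rw [sum_comm]
    refine (add_le_add le_rfl (mul_le_mul_of_nonneg_left (add_le_add (add_le_add le_rfl
      (sum_le_sum fun a _ => hp a)) le_rfl) (by positivity))).trans ?_
    rw [sum_const, card_univ, nsmul_eq_mul, Fintype.card_fin]
    have b1 : 8 / √((k : ℝ) + 1) ≤ 8 / √k := by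
      gcongr
      linarith
    have b2 : 3 / 2 * √((k : ℝ) + 1) * ((k : ℝ) + 1) / (η * √m) ≤ 3 / 2 * T ^ 3 * win m := by
      have h1 : √((k : ℝ) + 1) ≤ (k : ℝ) + 1 := by
        rw [Real.sqrt_le_left hK0.le]
        nlinarith
      have h2 : √((k : ℝ) + 1) * ((k : ℝ) + 1) / η ≤ T ^ 3 := by
        rw [mul_div_assoc, ← hT]
        calc √((k : ℝ) + 1) * T ≤ ((k : ℝ) + 1) * T := mul_le_mul_of_nonneg_right h1 hT0.le
          _ ≤ T * T * T := by
            refine mul_le_mul_of_nonneg_right ?_ hT0.le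
            have : (k : ℝ) + 1 ≤ T := by rw [hT, le_div_iff₀ hη]; nlinarith
            nlinarith
          _ = _ := by ring
      calc _ = 3 / 2 * (√((k : ℝ) + 1) * ((k : ℝ) + 1) / η) * (1 / √m) := by field_simp
        _ ≤ _ := by gcongr
    have b3 : 2 / η * ((k : ℝ) * (((k : ℝ) + 1) ^ 2 / (m * win m)
        + 3 * (15 * β ^ 2 + 1) / (√m * win m) + 42 * win m / η)) ≤ (2 * (1 + 3 * C1) + 84) * T ^ 3 * win m := by
      have hKT : (k : ℝ) + 1 ≤ T := by rw [hT, le_div_iff₀ hη]; nlinarith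
      have h3 : ((k : ℝ) + 1) ^ 2 / (m * win m) ≤ T ^ 2 * win m := by
        rw [div_eq_mul_one_div]
        gcongr
      have h4 : 3 * (15 * β ^ 2 + 1) / (√(m : ℝ) * win m) ≤ 3 * C1 * T ^ 2 * win m := by
        rw [div_eq_mul_one_div, mul_assoc (3 * C1)]
        refine mul_le_mul le_rfl (w3.trans (le_mul_of_one_le_left w0.le (one_le_pow₀ hT1)))
          (by positivity) (by positivity)
      have h5 : 42 * win m / η ≤ 42 * T ^ 2 * win m := by
        rw [show 42 * win m / η = 42 * (1 / η) * win m by ring]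
        gcongr
        calc 1 / η ≤ T := by rw [hT]; gcongr; linarith
          _ ≤ T ^ 2 := by nlinarith
      calc _ ≤ 2 / η * (((k : ℝ) + 1) * ((1 + 3 * C1 + 42) * T ^ 2 * win m)) := by
            refine mul_le_mul_of_nonneg_left (mul_le_mul (by linarith) (by linarith) ?_ hK0.le) (by positivity)
            positivity
        _ = _ := by rw [hT]; field_simp; ring
    have b := mul_le_mul_of_nonneg_left (add_le_add (add_le_add b1 b2) b3) hc
    simp only [C0] at b ⊢
    linear_combination b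
  have hsum := sum_le_sum havg
  rw [sum_comm] at hsum
  obtain ⟨y, -, hy⟩ := exists_le_of_sum_le (s := (univ : Finset (Fin k → Fin n)))
    (f := fun y => ∑ m ∈ Ico 1 n, G y m) (g := fun _ => ∑ m ∈ Ico 1 n, (8 / √(k : ℝ) + C0 * T ^ 3 * win m))
    univ_nonempty (hsum.trans (le_of_eq (by rw [← mul_sum, sum_const, card_univ, nsmul_eq_mul])))
  have hσ : ∀ l : Fin k, η ≤ gridSig η y ((l : ℕ) + 1) ∧ gridSig η y ((l : ℕ) + 1) ≤ 2 * η := fun l => by
    rw [gridSig_at, gridAmp]
    have h0 : 0 ≤ (((y l : ℕ) : ℝ) + 1 / 2) / n := by positivity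
    have h1 : (((y l : ℕ) : ℝ) + 1 / 2) / n ≤ 1 := by
      rw [div_le_one hn0]
      have : ((y l : ℕ) : ℝ) + 1 ≤ n := by exact_mod_cast (y l).2
      linarith
    constructor <;> nlinarith
  refine ⟨gridSig η y, hσ, G y, fun m hm => ?_, ?_⟩
  · have hm1 : 1 ≤ m := (mem_Ico.1 hm).1
    exact ⟨isPath_baseQ β hm1 _, fun side θ =>
      cavErr_le hI β hm1 _ hη (fun l => (hσ l).1) (hw m hm).1 side θ⟩
  · refine hy.trans ?_
    rw [sum_add_distrib, sum_const, Nat.card_Ico, nsmul_eq_mul, ← mul_sum]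
    have e : √(√(n : ℝ)) = (n : ℝ) ^ (1 / 4 : ℝ) := by
      rw [Real.sqrt_eq_rpow, Real.sqrt_eq_rpow, ← rpow_mul hn0.le]
      norm_num
    have h1 := mul_le_mul_of_nonneg_left (sum_win_le hn) (by positivity : 0 ≤ C0 * T ^ 3)
    rw [e] at h1
    have h2 : ((n - 1 : ℕ) : ℝ) * (8 / √(k : ℝ)) ≤ (n : ℝ) * (8 / √(k : ℝ)) :=
      mul_le_mul_of_nonneg_right (by exact_mod_cast Nat.sub_le n 1) (by positivity)
    have h3 : C0 * T ^ 3 * (2 * (n : ℝ) / (n : ℝ) ^ (1 / 4 : ℝ))
        = 2 * C0 * n * (T ^ 3 / (n : ℝ) ^ (1 / 4 : ℝ)) := by ring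
    have h4 : 0 ≤ 2 * C0 * n * (1 / √(k : ℝ)) := by positivity
    have h5 : 0 ≤ 8 * (n : ℝ) * (T ^ 3 / (n : ℝ) ^ (1 / 4 : ℝ)) := by positivity
    have h6 : (n : ℝ) * (8 / √(k : ℝ)) = 8 * n * (1 / √(k : ℝ)) := by ring
    nlinarith

end Vale.Agent.P146.Sup
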