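import Vale.Agent.P146.Sup.Assembly
import Vale.Agent.P146.Sup.Guerra
import Vale.Agent.P146.Sup.Sync
import Vale.Agent.P146.Sup.Rate
import Vale.Agent.P146.Sup.CaseI
import Vale.Agent.P146.Sup.CaseII
import Vale.Agent.P146.Sup.CaseIIOne

/-!
# P146, superconcentration: all interfaces discharged
-/

namespace Vale.Agent.P146.Sup

theorem superStmt : SuperStmt :=
  super_of (rate_of interp (sync_of interp)) (guerra_of interp) caseI (caseII_of corr)

end Vale.Agent.P146.Sup
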