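import Vale.Agent.P146.Sup.Pins
import Vale.Agent.P157.Rsb.CavPair

/-!
# P146, superconcentration: generic facts on finite systems
-/

open MeasureTheory ProbabilityTheory Real Finset
open Vale.Agent.P157.Rsb
open Vale.Agent.P150 (stdPi)

namespace Vale.Agent.P146.Sup

variable {E ι X : Type} [Fintype E] [Fintype ι] [Fintype X] [MeasurableSpace X]
  [MeasurableSingletonClass X] {k : ℕ} {μ : Measure X} [IsProbabilityMeasure μ]

theorem bcoef_of_fintype (d : Fin k → ι → X → ℝ) : BCoef d := by
  refine ⟨∑ a, ∑ i, ∑ x, |d a i x|, by positivity, fun a i => ⟨measurable_of_countable _, fun x => ?_⟩⟩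
  refine le_trans ?_ (single_le_sum (f := fun a => ∑ i, ∑ x, |d a i x|) (fun _ _ => by positivity)
    (mem_univ a))
  refine le_trans ?_ (single_le_sum (f := fun i => ∑ x, |d a i x|) (fun _ _ => by positivity)
    (mem_univ i))
  exact single_le_sum (f := fun x => |d a i x|) (fun _ _ => abs_nonneg _) (mem_univ x)

theorem ham_linB (S : GSys E ι X k) (g : E → ℝ) : LinB (gaussSize ι) (S.ham g) := by
  have h := linB_affine (k := k) (bcoef_of_fintype S.B)
    (H0 := fun x => (∑ e, g e * S.A e x) + S.H x) (measurable_of_countable _)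
    (B0 := ∑ x, |(∑ e, g e * S.A e x) + S.H x|)
    (fun x => single_le_sum (f := fun x => |(∑ e, g e * S.A e x) + S.H x|)
      (fun _ _ => abs_nonneg _) (mem_univ x))
  have e : S.ham g = fun z x => linZ S.B z x + ((∑ e, g e * S.A e x) + S.H x) := by
    funext z x; simp only [GSys.ham, add_assoc]
  rw [e]; exact h

theorem measurable_ham (S : GSys E ι X k) :
    Measurable fun p : ((E → ℝ) × (Fin k → ι → ℝ)) × X => S.ham p.1.1 p.1.2 p.2 := by
  refine measurable_from_prod_countable_left fun x => ?_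
  unfold GSys.ham linZ
  fun_prop

omit [IsProbabilityMeasure μ] in
theorem measurable_val_root (S : GSys E ι X k) :
    Measurable fun g => val (stdG ι) μ (S.ham g) 0 (fun _ _ => 0) :=
  (val_measurable_param (γ := stdG ι) (μ := μ) (measurable_ham S) 0).comp
    (measurable_id.prodMk measurable_const)

/-- The size of the coefficient of a coupling. -/
noncomputable def amax (S : GSys E ι X k) (e : E) : ℝ := ∑ x, |S.A e x|

theorem val_root_lip (S : GSys E ι X k) (g : E → ℝ) :
    |val (stdG ι) μ (S.ham g) 0 (fun _ _ => 0) - val (stdG ι) μ (S.ham 0) 0 (fun _ _ => 0)|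
      ≤ ∑ e, |g e| * amax S e := by
  refine val_close (ham_linB S 0) (ham_linB S g) (fun z x => ?_) 0 _
  simp only [GSys.ham, Pi.zero_apply, zero_mul, sum_const_zero, add_zero]
  rw [show linZ S.B z x + (∑ e, g e * S.A e x) + S.H x - (linZ S.B z x + S.H x)
    = ∑ e, g e * S.A e x by ring]
  refine (abs_sum_le_sum_abs _ _).trans (sum_le_sum fun e _ => ?_)
  rw [abs_mul]
  exact mul_le_mul_of_nonneg_left
    (single_le_sum (f := fun x => |S.A e x|) (fun _ _ => abs_nonneg _) (mem_univ x)) (abs_nonneg _)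

theorem integrable_val_root (S : GSys E ι X k) :
    Integrable (fun g => val (stdG ι) μ (S.ham g) 0 (fun _ _ => 0)) (stdPi E) := by
  have hi : ∀ e : E, Integrable (fun g : E → ℝ => |g e| * amax S e) (stdPi E) := fun e => by
    refine Integrable.mul_const ?_ _
    have h : MeasurePreserving (fun g : E → ℝ => g e) (stdPi E) P150.std := by
      unfold stdPi; exact measurePreserving_eval (fun _ : E => P150.std) e
    exact (h.integrable_comp_of_integrable P150.integrable_id_std).abs
  refine ((integrable_const |val (stdG ι) μ (S.ham 0) 0 (fun _ _ => 0)|).add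
    (integrable_finsetSum univ fun e _ => hi e)).mono'
    (measurable_val_root S).aestronglyMeasurable (ae_of_all _ fun g => ?_)
  simp only [Real.norm_eq_abs, Pi.add_apply]
  have h1 := val_root_lip (μ := μ) S g
  have h2 := abs_sub_abs_le_abs_sub (val (stdG ι) μ (S.ham g) 0 (fun _ _ => 0))
    (val (stdG ι) μ (S.ham 0) 0 (fun _ _ => 0))
  linarith

theorem abs_pair_root_le (S : GSys E ι X k) (g : E → ℝ) (j : ℕ) {ψ : X → X → ℝ} {C : ℝ}
    (hC : ∀ x y, |ψ x y| ≤ C) :
    |cnd (stdG ι) μ (S.ham g)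
      (fun z _ => pairCnd (stdG ι) μ (S.ham g) (fun _ x _ y => ψ x y) j z) 0 (fun _ _ => 0)| ≤ C :=
  cnd_abs_le (ham_linB S g) (tame_pair (ham_linB S g) (measurable_of_countable _) hC j).meas
    (fun z _ => abs_pairCnd_le (ham_linB S g) (measurable_of_countable _) hC j z) 0 _

omit [IsProbabilityMeasure μ] in
theorem measurable_pair_root (S : GSys E ι X k) (j : ℕ) (ψ : X → X → ℝ) :
    Measurable fun g => cnd (stdG ι) μ (S.ham g)
      (fun z _ => pairCnd (stdG ι) μ (S.ham g) (fun _ x _ y => ψ x y) j z) 0 (fun _ _ => 0) := by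
  have h1 := measurable_pairCnd_prod (γ := stdG ι) (μ := μ) (G := E → ℝ) (H := fun g => S.ham g)
    (ψ := fun _ => ψ) (measurable_ham S)
    ((measurable_of_countable (fun p : X × X => ψ p.1 p.2)).comp
      ((measurable_snd.comp measurable_fst).prodMk measurable_snd)) j
  exact (cnd_measurable_param (γ := stdG ι) (μ := μ) (H := fun g => S.ham g)
    (φ := fun g z _ => pairCnd (stdG ι) μ (S.ham g) (fun _ x _ y => ψ x y) j z) (measurable_ham S)
    (h1.comp measurable_fst) 0).comp (measurable_id.prodMk measurable_const)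

omit [MeasurableSpace X] [MeasurableSingletonClass X] in
/-- A bound valid for all pairs of configurations. -/
theorem abs_le_sup (ψ : X → X → ℝ) (x y : X) : |ψ x y| ≤ ∑ a, ∑ b, |ψ a b| :=
  (single_le_sum (f := fun b => |ψ x b|) (fun _ _ => abs_nonneg _) (mem_univ y)).trans
    (single_le_sum (f := fun a => ∑ b, |ψ a b|) (fun _ _ => by positivity) (mem_univ x))

theorem integrable_pair_root (S : GSys E ι X k) (j : ℕ) (ψ : X → X → ℝ) :
    Integrable (fun g => cnd (stdG ι) μ (S.ham g)
      (fun z _ => pairCnd (stdG ι) μ (S.ham g) (fun _ x _ y => ψ x y) j z) 0 (fun _ _ => 0))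
      (stdPi E) :=
  (integrable_const (∑ a, ∑ b, |ψ a b|)).mono' (measurable_pair_root S j ψ).aestronglyMeasurable
    (ae_of_all _ fun g => abs_pair_root_le S g j (abs_le_sup ψ))

theorem gpair_mono (S : GSys E ι X k) (j : ℕ) {ψ φ : X → X → ℝ} (h : ∀ x y, ψ x y ≤ φ x y) :
    gpair S μ j ψ ≤ gpair S μ j φ := by
  refine integral_mono (integrable_pair_root S j ψ) (integrable_pair_root S j φ) fun g => ?_
  have hm : ∀ χ : X → X → ℝ, Measurable (Function.uncurry χ) := fun χ => measurable_of_countable _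
  refine cnd_mono (ham_linB S g) (tame_pair (ham_linB S g) (hm ψ) (abs_le_sup ψ) j)
    (tame_pair (ham_linB S g) (hm φ) (abs_le_sup φ) j) (fun z _ => ?_) 0 _
  exact pairCnd_mono (ham_linB S g) (hm ψ) (hm φ) (C := (∑ a, ∑ b, |ψ a b|) + ∑ a, ∑ b, |φ a b|)
    (fun x y => ⟨(abs_le_sup ψ x y).trans (le_add_of_nonneg_right (by positivity)),
      (abs_le_sup φ x y).trans (le_add_of_nonneg_left (by positivity))⟩) h j z

theorem gpair_affine (S : GSys E ι X k) (j : ℕ) (a b : ℝ) (ψ : X → X → ℝ) :
    gpair S μ j (fun x y => a * ψ x y + b) = a * gpair S μ j ψ + b := by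
  have e : ∀ g, cnd (stdG ι) μ (S.ham g)
      (fun z _ => pairCnd (stdG ι) μ (S.ham g) (fun _ x _ y => a * ψ x y + b) j z) 0 (fun _ _ => 0)
      = a * cnd (stdG ι) μ (S.ham g)
        (fun z _ => pairCnd (stdG ι) μ (S.ham g) (fun _ x _ y => ψ x y) j z) 0 (fun _ _ => 0) + b :=
      fun g => by
    have hH := ham_linB S g
    have hb : ∀ z, pairCnd (stdG ι) μ (S.ham g) (fun _ x _ y => a * ψ x y + b) j z
        = a * pairCnd (stdG ι) μ (S.ham g) (fun _ x _ y => ψ x y) j z + b := fun z => by
      rw [pairCnd_add hH (ψ := fun x y => a * ψ x y) (φ := fun _ _ => b)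
        (measurable_of_countable _) (measurable_of_countable _)
        (C := (∑ x, ∑ y, |a * ψ x y|) + |b|)
        (fun x y => ⟨(abs_le_sup (fun x y => a * ψ x y) x y).trans
          (le_add_of_nonneg_right (abs_nonneg _)), le_add_of_nonneg_left (by positivity)⟩) j z,
        pairCnd_const_mul]
      simp only [pairCnd, fun (c : ℝ) (z : Fin k → ι → ℝ) => cnd_const (μ := μ) hH c j z]
    simp only [hb]
    have ht := tame_pair (μ := μ) hH (measurable_of_countable (Function.uncurry ψ)) (abs_le_sup ψ) j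
    rw [cnd_add hH (ht.const_mul a) (tame_of_bdd measurable_const (B := |b|) fun _ => le_rfl),
      cnd_const_mul, cnd_const hH]
  simp only [gpair, e]
  rw [integral_add ((integrable_pair_root S j ψ).const_mul a) (integrable_const b), integral_const_mul]
  simp

theorem gpair_abs_le (S : GSys E ι X k) (j : ℕ) {ψ φ : X → X → ℝ} {a b : ℝ}
    (h : ∀ x y, |ψ x y| ≤ a * φ x y + b) : |gpair S μ j ψ| ≤ a * gpair S μ j φ + b := by
  rw [abs_le]
  constructor
  · have := gpair_mono (μ := μ) S j (ψ := fun x y => -a * φ x y + -b) (φ := ψ) fun x y => by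
      linarith [(abs_le.1 (h x y)).1]
    rw [gpair_affine] at this
    linarith
  · have := gpair_mono (μ := μ) S j (ψ := ψ) (φ := fun x y => a * φ x y + b) fun x y =>
      (abs_le.1 (h x y)).2
    rwa [gpair_affine] at this

theorem gcnd_const (S : GSys E ι X k) (c : ℝ) : gcnd S μ (fun _ => c) = c := by
  simp [gcnd, cnd_const (ham_linB S _)]

theorem gcnd_abs_le (S : GSys E ι X k) {φ : X → ℝ} {C : ℝ} (h : ∀ x, |φ x| ≤ C) :
    |gcnd S μ φ| ≤ C := by
  refine (norm_integral_le_of_norm_le_const (μ := stdPi E) (f := fun g =>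
    cnd (stdG ι) μ (S.ham g) (fun _ x => φ x) 0 (fun _ _ => 0)) (C := C) (ae_of_all _ fun g => ?_)).trans
    (by simp)
  exact cnd_abs_le (φ := fun _ x => φ x) (ham_linB S g) ((measurable_of_countable φ).comp measurable_snd)
    (fun _ x => h x) 0 _

end Vale.Agent.P146.Sup
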