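import Vale.Agent.P146.Sup.Maps
import Vale.Agent.P146.Sup.Cavity

/-!
# P146, superconcentration: the perturbed model as a cavity system
-/

open MeasureTheory ProbabilityTheory Real Finset
open Vale.Agent.P157.Rsb (stdG linZ lowKer mass mass_pos FieldIdx)
open Vale.Agent.P157 (cubeLaw coin integral_cubeLaw)
open Vale.Agent.P150 (Edge spin stdPi)

namespace Vale.Agent.P146.Sup

section

variable {E ι X : Type} [Fintype E] [Fintype ι] [Fintype X] [MeasurableSpace X]
  [MeasurableSingletonClass X] {k : ℕ} {μ : Measure X} [IsProbabilityMeasure μ]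

/-- The system without random part. -/
def zeroSys : GSys E ι X k := ⟨fun _ _ => 0, fun _ _ _ => 0, fun _ => 0⟩

/-- Compensated fields change the mean value by at most half of their variance. -/
theorem field_bound (hI : InterpStmt) (C P : GSys E ι X k) (hA : ∀ e x, P.A e x = 0)
    (hB : ∀ a i x y, C.B a i x * P.B a i y = 0) {D : ℝ}
    (hD : ∀ j ∈ Icc 0 k, ∀ x y, |kern P j x y| ≤ D) (hH : ∀ x, kern P k x x / 2 + P.H x = 0) :
    |gval (C.path zeroSys P (π / 2)) μ - gval (C.path zeroSys P 0) μ| ≤ D / 2 := by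
  refine gval_diff_le hI _ _ _
    ⟨fun e x y => by simp [zeroSys, hA], fun a i x y => by simp [zeroSys, hB]⟩ fun θ => ?_
  have hz : ∀ j x y, kern (zeroSys : GSys E ι X k) j x y = 0 := fun j x y => by
    simp [kern, zeroSys, lowKer]
  set S := C.path zeroSys P θ
  have h0 : (fun x => (kern P k x x - kern (zeroSys : GSys E ι X k) k x x) / 2 + P.H x
      - (zeroSys : GSys E ι X k).H x) = fun _ => (0 : ℝ) := by
    funext x
    simp only [hz, sub_zero]
    simp only [zeroSys, sub_zero]
    exact hH x
  rw [bracket, h0, gcnd_const, zero_sub, abs_neg, abs_mul,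
    abs_of_nonneg (div_nonneg (mass_pos (k := k)).le zero_le_two)]
  calc mass k / 2 * |∑ j ∈ Icc 0 k, gpair S μ j fun x y => kern P j x y - kern zeroSys j x y|
      ≤ mass k / 2 * ∑ _j ∈ Icc 0 k, D :=
        mul_le_mul_of_nonneg_left ((abs_sum_le_sum_abs _ _).trans (sum_le_sum fun j hj =>
          (gpair_abs_le S j (ψ := fun x y => kern P j x y - kern zeroSys j x y)
            (φ := fun _ _ => 0) (a := 0) (b := D) fun x y => by
            simpa [hz] using hD j hj x y).trans_eq (by simp)))
          (div_nonneg (mass_pos (k := k)).le zero_le_two)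
    _ = D / 2 := by
        rw [sum_const, Nat.card_Icc, nsmul_eq_mul, mass]
        push_cast
        field_simp

end

variable {β : ℝ} {m n k : ℕ} {σ r : ℕ → ℝ}

theorem abs_spin_mul (a b : Bool) : |spin a * spin b| = 1 := by rw [abs_mul, spin_abs, spin_abs, one_mul]

theorem lowKer_le {ι X : Type} [Fintype ι] (B : Fin k → ι → X → ℝ) {c : Fin k → ℝ} {j : ℕ} {x y : X}
    (h : ∀ a, |∑ i, B a i x * B a i y| ≤ c a) : |lowKer B B j x y| ≤ ∑ a, c a := by
  refine (abs_sum_le_sum_abs _ _).trans (sum_le_sum fun a _ => ?_)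
  split_ifs
  · exact h a
  · rw [abs_zero]; exact (abs_nonneg _).trans (h a)

/-- The perturbation of `n` spins costs at most `n` times the squared amplitudes. -/
theorem pertF_meanF (hI : InterpStmt) (β : ℝ) (n k : ℕ) (σ : ℕ → ℝ) :
    |pertF β n k σ - meanF β n| ≤ n * pertSq k σ := by
  set C : GSys (Edge n) (Fin n) (Fin n → Bool) k := pertSys β n k (fun _ => 0) with hC
  set P : GSys (Edge n) (Fin n) (Fin n → Bool) k :=
    ⟨fun _ _ => 0, (pertSys β n k σ).B, (pertSys β n k σ).H⟩ with hP
  have hk : ∀ j x y, |kern P j x y| ≤ n * pertSq k σ := fun j x y => by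
    simp only [kern, hP, mul_zero, sum_const_zero, zero_add]
    refine (lowKer_le _ (c := fun a => n * σ (a + 1) ^ 2) fun a => ?_).trans_eq (by
      rw [pertSq, mul_sum])
    refine (abs_sum_le_sum_abs _ _).trans (le_of_eq ?_)
    simp [pertSys, mul_mul_mul_comm, abs_mul, spin_abs, sq]
  have hd : ∀ x, kern P k x x / 2 + P.H x = 0 := fun x => by
    have : kern P k x x = n * pertSq k σ := by
      simp only [kern, hP, mul_zero, sum_const_zero, zero_add, lowKer, pertSys, Fin.is_lt, if_true,
        pertSq, mul_sum]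
      exact sum_congr rfl fun a _ => by simp [mul_mul_mul_comm, spin_mul_self, sq]
    rw [this]
    simp only [hP, pertSys]
    ring
  have h := field_bound (μ := cubeLaw n) hI C P (fun _ _ => rfl)
    (fun a i x y => by simp [hC, pertSys]) (fun j _ => hk j) hd
  have e1 : gval (C.path zeroSys P (π / 2)) (cubeLaw n) = pertF β n k σ :=
    gval_congr fun g z x => by
      simp [GSys.ham, GSys.path, hC, hP, pertSys, zeroSys, linZ, pertSq]
  have e0 : gval (C.path zeroSys P 0) (cubeLaw n) = meanF β n := by
    have hh : ∀ g z x, (C.path zeroSys P 0).ham g z x = β * P150.energy n g x := fun g z x => by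
      simp only [GSys.ham, GSys.path, hC, hP, pertSys, zeroSys, linZ, pertSq, cos_zero, sin_zero,
        P150.energy, zero_mul, mul_zero, add_zero, ne_eq, OfNat.ofNat_ne_zero, not_false_eq_true,
        zero_pow, sum_const_zero, zero_add, neg_zero, zero_div, mul_sum, sum_div]
      exact sum_congr rfl fun e _ => by ring
    have hF : Integrable (freeEnergy n β) (stdPi (Edge n)) := by
      have hb := (integrable_val_root (μ := cubeLaw n) (C.path zeroSys P 0)).add
        (integrable_const (n * log 2))
      refine hb.congr (ae_of_all _ fun g => ?_)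
      rw [Pi.add_apply, val_no_field (hh g) 0, integral_cubeLaw,
        log_div (sum_pos (fun x _ => exp_pos _) univ_nonempty).ne' (by positivity), log_pow,
        sub_add_cancel, freeEnergy]
    have e : ∀ g, Vale.Agent.P157.Rsb.val (stdG (Fin n)) (cubeLaw n)
        ((C.path zeroSys P 0).ham g) 0 (fun _ _ => 0) = freeEnergy n β g - n * log 2 := fun g => by
      rw [val_no_field (hh g) 0, integral_cubeLaw,
        log_div (sum_pos (fun x _ => exp_pos _) univ_nonempty).ne' (by positivity), log_pow, freeEnergy]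
    simp only [gval, e]
    rw [integral_sub hF (integrable_const _), meanF, integral_const, probReal_univ, one_smul]
    rfl
  rw [e1, e0] at h
  have h0 : 0 ≤ (n : ℝ) * pertSq k σ :=
    mul_nonneg (Nat.cast_nonneg n) (sum_nonneg fun _ _ => sq_nonneg _)
  linarith

/-- The correction of the temperature completes the old couplings. -/
theorem gain_false (hm : 1 ≤ m) :
    pertF β m k σ = gval (cavSys β m k σ false r 0) (cavLaw m) := by
  have hm0 : (0 : ℝ) < m := by exact_mod_cast hm
  set c₁ := √(m : ℝ) / √((m : ℝ) + 1) with hc₁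
  set c₂ := 1 / √((m : ℝ) + 1) with hc₂
  let L : (CavE m → ℝ) → Edge m → ℝ := fun g e => c₁ * g (.inl e) + c₂ * g (.inr (.inr e))
  have hc : c₁ ^ 2 + c₂ ^ 2 = 1 := by
    rw [hc₁, hc₂, div_pow, div_pow, sq_sqrt hm0.le, sq_sqrt (by positivity), one_pow]
    field_simp
  have hL : MeasurePreserving L (stdPi (CavE m)) (stdPi (Edge m)) := by
    have h1 : MeasurePreserving (fun g : CavE m → ℝ => ((fun e => g (.inl e), fun e => g (.inr (.inr e))) :
        (Edge m → ℝ) × (Edge m → ℝ))) (stdPi (CavE m)) ((stdPi (Edge m)).prod (stdPi (Edge m))) :=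
      ((MeasurePreserving.id _).prod (mp_comp_inj P150.std
        (f := (Sum.inr : Edge m → Fin m ⊕ Edge m)) Sum.inr_injective)).comp
        (measurePreserving_sumPiEquivProdPi (fun _ : CavE m => P150.std))
    exact (mp_mix hc).comp h1
  refine (gval_map hL (F := fun y i => y (.inl i)) (mp_comp_inj _ Sum.inl_injective) rfl
    (G := Prod.fst) measurePreserving_fst fun g z x => ?_).symm
  have hs : √(m : ℝ) ≠ 0 := sqrt_ne_zero'.2 hm0
  have hs1 : √((m : ℝ) + 1) ≠ 0 := sqrt_ne_zero'.2 (by positivity)
  simp only [cavSys, GSys.ham, GSys.path, baseSys, randPart, detPart, pertSys, linZ, cos_zero,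
    sin_zero, one_mul, zero_mul, add_zero, mul_zero, Bool.false_eq_true, if_false, one_pow, ne_eq,
    OfNat.ofNat_ne_zero, not_false_eq_true, zero_pow, Fintype.sum_sum_type, Sum.elim_inl, Sum.elim_inr,
    sum_const_zero, zero_add, L]
  rw [← sum_add_distrib]
  congr 2
  refine sum_congr rfl fun e _ => ?_
  rw [hc₁, hc₂]
  field_simp

/-- The edges of one more spin. -/
noncomputable def edgeSucc (m : ℕ) : Edge m ⊕ Fin m ≃ Edge (m + 1) :=
  Equiv.ofBijective
    (Sum.elim (fun e => ⟨(e.1.1.castSucc, e.1.2.castSucc), Fin.castSucc_lt_castSucc_iff.2 e.2⟩)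
      fun i => ⟨(i.castSucc, Fin.last m), Fin.castSucc_lt_last i⟩)
    ⟨by
      rintro (e | i) (e' | i') h
      · simp only [Sum.elim_inl, Subtype.mk.injEq, Prod.mk.injEq, Fin.castSucc_inj] at h
        exact congrArg Sum.inl (Subtype.ext (Prod.ext h.1 h.2))
      · simp only [Sum.elim_inl, Sum.elim_inr, Subtype.mk.injEq, Prod.mk.injEq] at h
        exact absurd h.2 (Fin.castSucc_lt_last _).ne
      · simp only [Sum.elim_inl, Sum.elim_inr, Subtype.mk.injEq, Prod.mk.injEq] at h
        exact absurd h.2.symm (Fin.castSucc_lt_last _).ne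
      · simp only [Sum.elim_inr, Subtype.mk.injEq, Prod.mk.injEq, Fin.castSucc_inj] at h
        rw [h.1],
    by
      rintro ⟨⟨a, b⟩, hab⟩
      rcases Fin.eq_castSucc_or_eq_last a with ⟨a', rfl⟩ | rfl
      · rcases Fin.eq_castSucc_or_eq_last b with ⟨b', rfl⟩ | rfl
        · exact ⟨.inl ⟨(a', b'), Fin.castSucc_lt_castSucc_iff.1 hab⟩, rfl⟩
        · exact ⟨.inr a', rfl⟩
      · exact absurd hab (Fin.le_last b).not_gt⟩

theorem edgeSucc_inl (m : ℕ) (e : Edge m) :
    (edgeSucc m (.inl e)).1 = (e.1.1.castSucc, e.1.2.castSucc) := rfl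

theorem edgeSucc_inr (m : ℕ) (i : Fin m) : (edgeSucc m (.inr i)).1 = (i.castSucc, Fin.last m) := rfl

/-- The new spin without its field is the cavity system. -/
theorem gain_true (hI : InterpStmt) :
    |pertF β (m + 1) k σ - gval (cavSys β m k σ true r 0) (cavLaw m)| ≤ pertSq k σ := by
  set C : GSys (Edge (m + 1)) (Fin (m + 1)) (Fin (m + 1) → Bool) k :=
    ⟨(pertSys β (m + 1) k σ).A, fun a i x => if i = Fin.last m then 0 else σ (a + 1) * spin (x i),
      fun _ => -(pertSq k σ) / 2 * m⟩ with hC
  set P : GSys (Edge (m + 1)) (Fin (m + 1)) (Fin (m + 1) → Bool) k :=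
    ⟨fun _ _ => 0, fun a i x => if i = Fin.last m then σ (a + 1) * spin (x i) else 0,
      fun _ => -(pertSq k σ) / 2⟩ with hP
  have hsum : ∀ (a : Fin k) x y, ∑ i, P.B a i x * P.B a i y
      = σ (a + 1) ^ 2 * (spin (x (Fin.last m)) * spin (y (Fin.last m))) := fun a x y => by
    simp [hP, ite_mul]; ring
  have hk : ∀ j x y, |kern P j x y| ≤ pertSq k σ := fun j x y => by
    simp only [kern, show ∀ e z, P.A e z = 0 from fun _ _ => rfl, mul_zero, sum_const_zero, zero_add]
    refine (lowKer_le _ (c := fun a => σ (a + 1) ^ 2) fun a => ?_).trans_eq rfl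
    rw [hsum, abs_mul, abs_spin_mul, mul_one, abs_of_nonneg (sq_nonneg _)]
  have hd : ∀ x, kern P k x x / 2 + P.H x = 0 := fun x => by
    have : kern P k x x = pertSq k σ := by
      simp only [kern, show ∀ e z, P.A e z = 0 from fun _ _ => rfl, mul_zero, sum_const_zero, zero_add,
        lowKer, Fin.is_lt, if_true, pertSq]
      exact sum_congr rfl fun a _ => by rw [hsum, spin_mul_self, mul_one]
    rw [this]
    simp only [hP]
    ring
  have h := field_bound (μ := cubeLaw (m + 1)) hI C P (fun _ _ => rfl)
    (fun a i x y => by by_cases hi : i = Fin.last m <;> simp [hC, hP, hi]) (fun j _ => hk j) hd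
  have e1 : gval (C.path zeroSys P (π / 2)) (cubeLaw (m + 1)) = pertF β (m + 1) k σ :=
    gval_congr fun g z x => by
      simp only [GSys.ham, GSys.path, hC, hP, pertSys, zeroSys, linZ, cos_pi_div_two, sin_pi_div_two,
        mul_zero, add_zero, one_mul, one_pow, ne_eq, OfNat.ofNat_ne_zero, not_false_eq_true,
        zero_pow]
      congr 1
      · congr 1
        refine sum_congr rfl fun a _ => sum_congr rfl fun i _ => ?_
        split_ifs <;> simp
      · push_cast; ring
  have e0 : gval (C.path zeroSys P 0) (cubeLaw (m + 1)) = gval (cavSys β m k σ true r 0) (cavLaw m) := by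
    symm
    let ρ : Edge (m + 1) → CavE m := fun e => Sum.map id Sum.inl ((edgeSucc m).symm e)
    have hρ : Function.Injective ρ :=
      (Sum.map_injective.2 ⟨Function.injective_id, Sum.inl_injective⟩).comp
        (edgeSucc m).symm.injective
    let τ : Fin (m + 1) → FieldIdx m := Fin.snoc (fun i => Sum.inl i) (Sum.inr ())
    have hτ : Function.Injective τ := by
      intro i i' h
      induction i using Fin.lastCases with
      | last =>
        induction i' using Fin.lastCases with
        | last => rfl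
        | cast b => simp [τ] at h
      | cast a =>
        induction i' using Fin.lastCases with
        | last => simp [τ] at h
        | cast b => simp only [τ, Fin.snoc_castSucc, Sum.inl.injEq] at h; rw [h]
    refine gval_map (L := fun g => g ∘ ρ) (mp_comp_inj P150.std hρ) (F := fun y => y ∘ τ)
      (mp_comp_inj _ hτ) rfl (mp_snoc m) fun g z x => ?_
    simp only [cavSys, GSys.ham, GSys.path, baseSys, randPart, detPart, hC, hP, zeroSys, pertSys, linZ,
      cos_zero, sin_zero, one_mul, zero_mul, add_zero, mul_zero, if_true, one_pow, ne_eq,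
      OfNat.ofNat_ne_zero, not_false_eq_true, zero_pow, Function.comp_apply]
    congr 1
    congr 1
    · refine sum_congr rfl fun a _ => ?_
      rw [Fintype.sum_sum_type, Fin.sum_univ_castSucc]
      simp [τ, (Fin.castSucc_lt_last _).ne]
    · rw [← (edgeSucc m).sum_comp fun e => g (ρ e) *
        (β / √((m + 1 : ℕ) : ℝ) * (spin ((Fin.snoc x.1 x.2 : Fin (m + 1) → Bool) e.1.1)
          * spin ((Fin.snoc x.1 x.2 : Fin (m + 1) → Bool) e.1.2))),
        Fintype.sum_sum_type, Fintype.sum_sum_type, Fintype.sum_sum_type]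
      simp [ρ, edgeSucc_inl, edgeSucc_inr]
  rw [e1, e0] at h
  have h0 : 0 ≤ pertSq k σ := sum_nonneg fun _ _ => sq_nonneg _
  linarith

/-- The perturbed model is the cavity system with the random one-site terms. -/
theorem gain_of (hI : InterpStmt) : GainStmt := fun β k σ _ =>
  ⟨fun _ hm => ⟨gain_false hm, gain_true hI⟩, fun n _ => pertF_meanF hI β n k σ⟩

end Vale.Agent.P146.Sup
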