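import Vale.Agent.P146.Sup.Pins
import Vale.Agent.P157.Rsb.CavPair
import Vale.Agent.P157.Rsb.Upd

/-!
# P146, superconcentration: Gaussian interpolation of systems

`interp : InterpStmt`.  The value is differentiated under the mean over the couplings; the couplings and
the fields are then integrated by parts, which leaves the kernels at the diagonal and at the pairs of
leaves of every branch level.
-/

open MeasureTheory ProbabilityTheory Real Finset
open Vale.Agent.P157.Rsb (stdG gaussSize LinB Tame BCoef Family val cnd pairCnd linZ lowKer lev mass cndDer)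
open Vale.Agent.P150 (stdPi)

namespace Vale.Agent.P146.Sup

variable {E ι X : Type} [Fintype E] [Fintype ι] [Fintype X] [MeasurableSpace X] [MeasurableSingletonClass X]
  {μ : Measure X} [IsProbabilityMeasure μ] {k : ℕ}

section Basic

omit [Fintype E] [Fintype ι] [MeasurableSpace X] [MeasurableSingletonClass X] in
theorem bd_fn (a : X → ℝ) : ∀ x, |a x| ≤ ∑ y, |a y| :=
  fun x => single_le_sum (fun y _ => abs_nonneg (a y)) (mem_univ x)

omit [Fintype E] [Fintype ι] [MeasurableSpace X] [MeasurableSingletonClass X] in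
theorem bd_fn₂ (ψ : X → X → ℝ) : ∀ x y, |ψ x y| ≤ ∑ p : X × X, |ψ p.1 p.2| :=
  fun x y => bd_fn (fun p : X × X => ψ p.1 p.2) (x, y)

theorem meas_fn₂ (ψ : X → X → ℝ) : Measurable (Function.uncurry ψ) := measurable_of_finite _

theorem tame_fn (a : X → ℝ) : Tame (gaussSize ι) fun (_ : Fin k → ι → ℝ) x => a x :=
  P157.Rsb.tame_of_bdd (measurable_of_finite a) (bd_fn a)

theorem bcoef_fn (d : Fin k → ι → X → ℝ) : BCoef d :=
  ⟨∑ a, ∑ i, ∑ x, |d a i x|, by positivity, fun a i => ⟨measurable_of_finite _, fun x =>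
    (bd_fn (d a i) x).trans ((single_le_sum (f := fun i => ∑ x, |d a i x|) (fun j _ => by positivity)
      (mem_univ i)).trans (single_le_sum (f := fun a => ∑ i, ∑ x, |d a i x|) (fun j _ => by positivity)
      (mem_univ a)))⟩⟩

theorem tame_linZ (d : Fin k → ι → X → ℝ) : Tame (gaussSize ι) (linZ d) :=
  (P157.Rsb.linB_affine (bcoef_fn d) (H0 := fun _ => (0 : ℝ)) measurable_const (B0 := (0 : ℝ))
    fun _ => by simp).tame.congr
    fun z x => by simp

/-- The part of the Hamiltonian free of the fields. -/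
noncomputable def GSys.out (S : GSys E ι X k) (g : E → ℝ) (x : X) : ℝ := ∑ e, g e * S.A e x + S.H x

omit [Fintype X] [MeasurableSpace X] [MeasurableSingletonClass X] in
theorem ham_eq (S : GSys E ι X k) (g : E → ℝ) : S.ham g = fun z x => linZ S.B z x + S.out g x := by
  funext z x; simp only [GSys.ham, GSys.out, add_assoc]

theorem linB_ham (S : GSys E ι X k) (g : E → ℝ) : LinB (gaussSize ι) (S.ham g) := by
  rw [ham_eq]; exact P157.Rsb.linB_affine (bcoef_fn _) (measurable_of_finite _) (bd_fn _)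

theorem measurable_gham (S : GSys E ι X k) :
    Measurable fun q : ((E → ℝ) × (Fin k → ι → ℝ)) × X => S.ham q.1.1 q.1.2 q.2 := by
  have hA : ∀ e, Measurable fun q : ((E → ℝ) × (Fin k → ι → ℝ)) × X => S.A e q.2 := fun e =>
    (measurable_of_finite _).comp measurable_snd
  have hB : ∀ a i, Measurable fun q : ((E → ℝ) × (Fin k → ι → ℝ)) × X => S.B a i q.2 := fun a i =>
    (measurable_of_finite _).comp measurable_snd
  have hH : Measurable fun q : ((E → ℝ) × (Fin k → ι → ℝ)) × X => S.H q.2 :=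
    (measurable_of_finite _).comp measurable_snd
  simp only [GSys.ham, linZ]
  fun_prop

theorem measurable_gcnd (S : GSys E ι X k) (φ : X → ℝ) (l : ℕ) (z : Fin k → ι → ℝ) :
    Measurable fun g => cnd (stdG ι) μ (S.ham g) (fun _ x => φ x) l z :=
  P157.Rsb.cnd_measurable_param_at (H := fun g => S.ham g) (φ := fun _ _ x => φ x) (measurable_gham S)
    ((measurable_of_finite φ).comp measurable_snd) l z

theorem abs_cnd_fn (S : GSys E ι X k) (g : E → ℝ) {φ : X → ℝ} {B : ℝ} (hB : ∀ x, |φ x| ≤ B) (l : ℕ)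
    (z : Fin k → ι → ℝ) : |cnd (stdG ι) μ (S.ham g) (fun _ x => φ x) l z| ≤ B :=
  P157.Rsb.cnd_abs_le (φ := fun (_ : Fin k → ι → ℝ) x => φ x) (linB_ham S g)
    ((measurable_of_finite φ).comp measurable_snd) (fun _ x => hB x) l z

theorem integrable_gcnd (S : GSys E ι X k) (φ : X → ℝ) :
    Integrable (fun g => cnd (stdG ι) μ (S.ham g) (fun _ x => φ x) 0 fun _ _ => 0) (stdPi E) :=
  Integrable.of_bound (measurable_gcnd S φ 0 _).aestronglyMeasurable _
    (ae_of_all _ fun g => abs_cnd_fn S g (bd_fn φ) 0 _)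

/-- The mean over two leaves at fixed couplings. -/
noncomputable def jPair (S : GSys E ι X k) (μ : Measure X) (g : E → ℝ) (j : ℕ) (ψ : X → X → ℝ) : ℝ :=
  cnd (stdG ι) μ (S.ham g) (fun z _ => pairCnd (stdG ι) μ (S.ham g) (fun _ x _ y => ψ x y) j z) 0
    fun _ _ => 0

theorem abs_jPair (S : GSys E ι X k) (g : E → ℝ) (j : ℕ) {ψ : X → X → ℝ} {B : ℝ}
    (hB : ∀ x y, |ψ x y| ≤ B) : |jPair S μ g j ψ| ≤ B :=
  P157.Rsb.cnd_abs_le (linB_ham S g) (P157.Rsb.tame_pair (linB_ham S g) (meas_fn₂ ψ) hB j).meas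
    (fun z _ => P157.Rsb.abs_pairCnd_le (linB_ham S g) (meas_fn₂ ψ) hB j z) 0 _

theorem measurable_jPair (S : GSys E ι X k) (j : ℕ) (ψ : X → X → ℝ) :
    Measurable fun g => jPair S μ g j ψ := by
  have hψ : Measurable fun p : ((E → ℝ) × X) × X => ψ p.1.2 p.2 :=
    (meas_fn₂ ψ).comp ((measurable_snd.comp measurable_fst).prodMk measurable_snd)
  have h := P157.Rsb.measurable_pairCnd_prod (γ := stdG ι) (μ := μ) (H := fun g => S.ham g)
    (ψ := fun _ => ψ) (measurable_gham S) hψ j
  exact P157.Rsb.cnd_measurable_param_at (H := fun g => S.ham g)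
    (φ := fun g z _ => pairCnd (stdG ι) μ (S.ham g) (fun _ x _ y => ψ x y) j z) (measurable_gham S)
    (h.comp measurable_fst) 0 _

theorem integrable_jPair (S : GSys E ι X k) (j : ℕ) (ψ : X → X → ℝ) :
    Integrable (fun g => jPair S μ g j ψ) (stdPi E) :=
  Integrable.of_bound (measurable_jPair S j ψ).aestronglyMeasurable _
    (ae_of_all _ fun g => abs_jPair S g j (bd_fn₂ ψ))

theorem jPair_add (S : GSys E ι X k) (g : E → ℝ) (j : ℕ) (ψ φ : X → X → ℝ) :
    jPair S μ g j (fun x y => ψ x y + φ x y) = jPair S μ g j ψ + jPair S μ g j φ := by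
  have hL := linB_ham S g
  simp only [jPair]
  rw [← P157.Rsb.cnd_add hL (P157.Rsb.tame_pair hL (meas_fn₂ ψ) (bd_fn₂ ψ) j)
    (P157.Rsb.tame_pair hL (meas_fn₂ φ) (bd_fn₂ φ) j)]
  congr 1
  funext z _
  exact P157.Rsb.pairCnd_add hL (meas_fn₂ ψ) (meas_fn₂ φ)
    (C := (∑ p : X × X, |ψ p.1 p.2|) + ∑ p : X × X, |φ p.1 p.2|)
    (fun x y => ⟨(bd_fn₂ ψ x y).trans (le_add_of_nonneg_right (by positivity)),
      (bd_fn₂ φ x y).trans (le_add_of_nonneg_left (by positivity))⟩) j z

theorem jPair_zero (S : GSys E ι X k) (g : E → ℝ) (j : ℕ) :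
    jPair S μ g j (fun _ _ => 0) = 0 := by
  simp only [jPair, pairCnd, P157.Rsb.cnd_const (linB_ham S g)]

theorem jPair_sum (S : GSys E ι X k) (g : E → ℝ) (j : ℕ) {σ : Type} (s : Finset σ)
    (ψ : σ → X → X → ℝ) :
    jPair S μ g j (fun x y => ∑ i ∈ s, ψ i x y) = ∑ i ∈ s, jPair S μ g j (ψ i) := by
  induction s using Finset.cons_induction with
  | empty => simpa using jPair_zero S g j
  | cons a t ha ih => simp only [sum_cons, jPair_add, ih]

omit [Fintype X] [MeasurableSingletonClass X] in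
theorem jPair_prod (S : GSys E ι X k) (g : E → ℝ) (j : ℕ) (a b : X → ℝ) :
    cnd (stdG ι) μ (S.ham g) (fun z _ => cnd (stdG ι) μ (S.ham g) (fun _ x => a x) j z
      * cnd (stdG ι) μ (S.ham g) (fun _ x => b x) j z) 0 (fun _ _ => 0)
      = jPair S μ g j fun x y => a x * b y := by
  simp only [jPair, P157.Rsb.cnd_mul_cnd]

end Basic

section Parts

variable (S T : GSys E ι X k)

/-- The kernel of the velocity against the system. -/
noncomputable def cross (T S : GSys E ι X k) (j : ℕ) (x y : X) : ℝ :=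
  ∑ e, T.A e x * S.A e y + lowKer T.B S.B j x y

omit [Fintype E] [Fintype X] [MeasurableSpace X] [MeasurableSingletonClass X] in
theorem lowKer_zero (d v : Fin k → ι → X → ℝ) (x y : X) : lowKer d v 0 x y = 0 := by simp [lowKer]

omit [Fintype E] [Fintype X] [MeasurableSpace X] [MeasurableSingletonClass X] in
theorem lowKer_top (d v : Fin k → ι → X → ℝ) (x y : X) :
    lowKer d v k x y = ∑ a, ∑ i, d a i x * v a i y := by
  simp [lowKer, Fin.is_lt]

/-- The fields integrated by parts. -/
theorem cnd_fields (g : E → ℝ) :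
    cnd (stdG ι) μ (S.ham g) (linZ T.B) 0 (fun _ _ => 0)
      = cnd (stdG ι) μ (S.ham g) (fun _ x => lowKer T.B S.B k x x) 0 (fun _ _ => 0)
        - mass k * ∑ j ∈ Icc 0 k, jPair S μ g j (lowKer T.B S.B j) := by
  classical
  have h := P157.Rsb.cnd_linZ_zero (μ := μ) (bcoef_fn S.B) (bcoef_fn T.B) (measurable_of_finite (S.out g))
    (bd_fn (S.out g)) (fun (_ : Fin k) (_ : ι) => (0 : ℝ))
  simp only [← ham_eq] at h
  rw [h]
  congr 1
  · simp only [lowKer_top]
  · have h0 : jPair S μ g 0 (lowKer T.B S.B 0) = 0 := by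
      rw [show lowKer T.B S.B 0 = fun (_ _ : X) => (0 : ℝ) from funext₂ (lowKer_zero _ _)]
      exact jPair_zero S g 0
    rw [← Finset.insert_Icc_add_one_left_eq_Icc (Nat.zero_le k), sum_insert (by simp), h0, zero_add]
    rfl

/-- The velocity at fixed couplings. -/
noncomputable def speed (μ : Measure X) (g : E → ℝ) : ℝ :=
  cnd (stdG ι) μ (S.ham g) (T.ham g) 0 fun _ _ => 0

theorem speed_eq (g : E → ℝ) :
    speed S T μ g = cnd (stdG ι) μ (S.ham g) (linZ T.B) 0 (fun _ _ => 0)
      + (∑ e, g e * cnd (stdG ι) μ (S.ham g) (fun _ x => T.A e x) 0 (fun _ _ => 0)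
      + cnd (stdG ι) μ (S.ham g) (fun _ x => T.H x) 0 (fun _ _ => 0)) := by
  have hL := linB_ham S g
  rw [speed, ham_eq T g, P157.Rsb.cnd_add hL (tame_linZ T.B) (tame_fn (T.out g))]
  simp only [GSys.out]
  rw [P157.Rsb.cnd_add hL (tame_fn fun x => ∑ e, g e * T.A e x) (tame_fn T.H),
    P157.Rsb.cnd_finsum hL _ (fun e _ => (tame_fn (T.A e)).const_mul (g e))]
  simp only [P157.Rsb.cnd_const_mul]

/-- The derivative of a mean in one coupling. -/
noncomputable def coupDer (μ : Measure X) (a : X → ℝ) (e : E) (g : E → ℝ) : ℝ :=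
  cnd (stdG ι) μ (S.ham g) (fun _ x => a x * S.A e x) 0 (fun _ _ => 0)
    - mass k * ∑ j ∈ Icc 0 k, jPair S μ g j fun x y => a x * S.A e y

theorem cndDer_coup (a : X → ℝ) (e : E) (g : E → ℝ) :
    cndDer (stdG ι) μ (S.ham g) (fun _ x => a x) (fun _ x => S.A e x) (fun _ _ => 0) 0 (fun _ _ => 0)
      = coupDer S μ a e g := by
  have hL := linB_ham S g
  have h0 : jPair S μ g 0 (fun x y => a x * S.A e y)
      = cnd (stdG ι) μ (S.ham g) (fun _ x => a x) 0 (fun _ _ => 0)
        * cnd (stdG ι) μ (S.ham g) (fun _ x => S.A e x) 0 (fun _ _ => 0) := by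
    rw [← jPair_prod]
    exact P157.Rsb.cnd_const_fun hL
      (c := fun z => cnd (stdG ι) μ (S.ham g) (fun _ x => a x) 0 z
        * cnd (stdG ι) μ (S.ham g) (fun _ x => S.A e x) 0 z)
      (fun z z' h => by simp only [P157.Rsb.cnd_upto 0 z z' h]) _
  simp only [cndDer, coupDer, zero_add, jPair_prod]
  rw [← Finset.insert_Icc_add_one_left_eq_Icc (Nat.zero_le k), sum_insert (by simp), h0,
    P157.Rsb.lev_one]
  simp only [zero_add]
  ring

theorem coup_ibp (a : X → ℝ) (e : E) :
    ∫ g, g e * cnd (stdG ι) μ (S.ham g) (fun _ x => a x) 0 (fun _ _ => 0) ∂stdPi E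
      = ∫ g, coupDer S μ a e g ∂stdPi E := by
  classical
  have hm : Measurable fun g => coupDer S μ a e g := by
    unfold coupDer
    exact (measurable_gcnd S _ 0 _).sub ((Finset.measurable_sum _ fun j _ => measurable_jPair S j _).const_mul _)
  have hb : ∀ g, |coupDer S μ a e g|
      ≤ (∑ y, |a y * S.A e y|) + mass k * ∑ j ∈ Icc 0 k, ∑ p : X × X, |a p.1 * S.A e p.2| := fun g => by
    refine (abs_sub _ _).trans (add_le_add (abs_cnd_fn S g (bd_fn _) 0 _) ?_)
    rw [abs_mul, abs_of_pos P157.Rsb.mass_pos]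
    exact mul_le_mul_of_nonneg_left ((abs_sum_le_sum_abs _ _).trans
      (sum_le_sum fun j _ => abs_jPair S g j (bd_fn₂ fun x y => a x * S.A e y))) P157.Rsb.mass_pos.le
  refine P150.gauss_ibp e (measurable_gcnd S a 0 _) hm (fun g => abs_cnd_fn S g (bd_fn a) 0 _) hb ?_
  intro g t
  have key : ∀ y z x, S.ham (Function.update g e y) z x = S.ham g z x + (y - g e) * S.A e x := by
    intro y z x
    have : ∀ c, Function.update g e y c * S.A c x
        = g c * S.A c x + if c = e then (y - g e) * S.A e x else 0 := fun c => by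
      by_cases hc : c = e
      · subst hc; simp; ring
      · simp [hc]
    simp only [GSys.ham, this, sum_add_distrib, sum_ite_eq', mem_univ, if_true]
    ring
  obtain ⟨A, hA, hAb⟩ := (linB_ham S g).bound
  set B := ∑ x, |S.A e x| with hB
  set Ba := ∑ x, |a x| with hBa
  set M := A + (|t - g e| + 1) * B + Ba + B with hM
  have hM0 : 0 ≤ M := by positivity
  have hexp : ∀ z : Fin k → ι → ℝ, 1 ≤ exp (M * (gaussSize ι).tot z) := fun z =>
    one_le_exp (mul_nonneg hM0 ((gaussSize ι).tot_nonneg z))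
  have hF : Family (gaussSize ι) (fun y => S.ham (Function.update g e y)) (fun _ _ x => a x)
      (fun _ _ x => S.A e x) (fun _ _ _ => (0 : ℝ)) t 1 := by
    refine ⟨one_pos, fun y => (linB_ham S _).meas, fun _ => (measurable_of_finite _).comp measurable_snd,
      fun _ => (measurable_of_finite _).comp measurable_snd, fun _ => measurable_const,
      ⟨M, hM0, fun y hy z x => ?_⟩, fun y _ z x => ?_, fun y _ z x => hasDerivAt_const _ _⟩
    · have hz := (gaussSize ι).tot_nonneg z
      have h1 : |y - g e| ≤ |t - g e| + 1 := by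
        have := abs_add_le (y - t) (t - g e)
        rw [sub_add_sub_cancel] at this
        linarith
      have h2 : |(y - g e) * S.A e x| ≤ (|t - g e| + 1) * B := by
        rw [abs_mul]; exact mul_le_mul h1 (bd_fn _ x) (abs_nonneg _) (by positivity)
      have hB0 : 0 ≤ (|t - g e| + 1) * B := by positivity
      have hBa0 : 0 ≤ Ba := by positivity
      have hB1 : 0 ≤ B := by positivity
      refine ⟨?_, ?_, ?_, by rw [abs_zero]; positivity⟩
      · rw [key]
        refine ((abs_add_le _ _).trans (add_le_add (hAb z x) h2)).trans ?_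
        rw [hM]
        nlinarith
      · exact (bd_fn _ x).trans ((show B ≤ M by linarith).trans (le_mul_of_one_le_right hM0 (hexp z)))
      · exact (bd_fn _ x).trans ((show Ba ≤ M by linarith).trans (le_mul_of_one_le_right hM0 (hexp z)))
    · simp only [key]
      exact ((((hasDerivAt_id y).sub_const (g e)).mul_const (S.A e x)).const_add _).congr_deriv (by ring)
  have h := P157.Rsb.hasDerivAt_cnd (μ := μ) hF (j := 0) (Nat.zero_le k) (fun _ _ => 0)
  rw [cndDer_coup] at h
  exact h

/-- The mean velocity: the diagonal minus the pairs of leaves. -/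
theorem speed_mean :
    ∫ g, speed S T μ g ∂stdPi E = gcnd S μ (fun x => cross T S k x x + T.H x)
      - mass k * ∑ j ∈ Icc 0 k, gpair S μ j (cross T S j) := by
  set Z := fun g => cnd (stdG ι) μ (S.ham g) (fun _ x => lowKer T.B S.B k x x) 0 (fun _ _ => 0)
    - mass k * ∑ j ∈ Icc 0 k, jPair S μ g j (lowKer T.B S.B j) with hZdef
  set U := fun g => cnd (stdG ι) μ (S.ham g) (fun _ x => T.H x) 0 (fun _ _ => 0) with hUdef
  have hZ : Integrable Z (stdPi E) := (integrable_gcnd S _).sub
    ((integrable_finsetSum _ fun j _ => integrable_jPair S j _).const_mul _)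
  have hU : Integrable U (stdPi E) := integrable_gcnd S _
  have hd : ∀ e, Integrable (fun g => coupDer S μ (T.A e) e g) (stdPi E) := fun e =>
    (integrable_gcnd S _).sub ((integrable_finsetSum _ fun j _ => integrable_jPair S j _).const_mul _)
  have hg : ∀ e, Integrable (fun g => g e * cnd (stdG ι) μ (S.ham g) (fun _ x => T.A e x) 0 (fun _ _ => 0))
      (stdPi E) := fun e => (P150.integrable_coord e).mul_bdd
        (measurable_gcnd S _ 0 _).aestronglyMeasurable (ae_of_all _ fun g => abs_cnd_fn S g (bd_fn _) 0 _)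
  have e1 : ∫ g, speed S T μ g ∂stdPi E = ∫ g, (Z g + ((∑ e, coupDer S μ (T.A e) e g) + U g)) ∂stdPi E := by
    simp only [speed_eq, cnd_fields]
    rw [integral_add hZ ((integrable_finsetSum _ fun e _ => hg e).fun_add hU),
      integral_add (integrable_finsetSum _ fun e _ => hg e) hU,
      integral_add hZ ((integrable_finsetSum _ fun e _ => hd e).fun_add hU),
      integral_add (integrable_finsetSum _ fun e _ => hd e) hU,
      integral_finsetSum _ fun e _ => hg e, integral_finsetSum _ fun e _ => hd e]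
    simp only [coup_ibp, hZdef, hUdef]
  have e2 : ∀ g, Z g + ((∑ e, coupDer S μ (T.A e) e g) + U g)
      = cnd (stdG ι) μ (S.ham g) (fun _ x => cross T S k x x + T.H x) 0 (fun _ _ => 0)
        - mass k * ∑ j ∈ Icc 0 k, jPair S μ g j (cross T S j) := fun g => by
    have hL := linB_ham S g
    have c1 : cnd (stdG ι) μ (S.ham g) (fun _ x => cross T S k x x + T.H x) 0 (fun _ _ => 0)
        = (∑ e, cnd (stdG ι) μ (S.ham g) (fun _ x => T.A e x * S.A e x) 0 (fun _ _ => 0))
          + cnd (stdG ι) μ (S.ham g) (fun _ x => lowKer T.B S.B k x x) 0 (fun _ _ => 0) + U g := by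
      rw [P157.Rsb.cnd_add hL (tame_fn fun x => cross T S k x x) (tame_fn T.H)]
      simp only [cross, hUdef]
      rw [P157.Rsb.cnd_add hL (tame_fn fun x => ∑ e, T.A e x * S.A e x)
          (tame_fn fun x => lowKer T.B S.B k x x),
        P157.Rsb.cnd_finsum hL _ (fun e _ => tame_fn fun x => T.A e x * S.A e x)]
    have c2 : ∀ j, jPair S μ g j (cross T S j)
        = (∑ e, jPair S μ g j fun x y => T.A e x * S.A e y) + jPair S μ g j (lowKer T.B S.B j) := fun j => by
      rw [show cross T S j = fun x y => (∑ e, T.A e x * S.A e y) + lowKer T.B S.B j x y from rfl,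
        jPair_add, jPair_sum]
    simp only [c1, c2, coupDer, hZdef, sum_sub_distrib, sum_add_distrib, ← mul_sum]
    rw [sum_comm (s := (univ : Finset E))]
    ring
  rw [e1]
  simp only [e2]
  rw [integral_sub (integrable_gcnd S _)
      ((integrable_finsetSum _ fun j _ => integrable_jPair S j _).const_mul _),
    integral_const_mul, integral_finsetSum _ fun j _ => integrable_jPair S j _]
  rfl

end Parts

section Path

/-- All coefficients are at most `M`. -/
def GSys.Le (S : GSys E ι X k) (M : ℝ) : Prop :=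
  (∀ e x, |S.A e x| ≤ M) ∧ (∀ a i x, |S.B a i x| ≤ M) ∧ ∀ x, |S.H x| ≤ M

omit [MeasurableSpace X] [MeasurableSingletonClass X] in
theorem exists_le (S : GSys E ι X k) : ∃ M, 0 ≤ M ∧ S.Le M := by
  set a := ∑ p : E × X, |S.A p.1 p.2| with ha
  set b := ∑ p : (Fin k × ι) × X, |S.B p.1.1 p.1.2 p.2| with hb
  set h := ∑ x, |S.H x| with hh
  have h1 : 0 ≤ a := by positivity
  have h2 : 0 ≤ b := by positivity
  have h3 : 0 ≤ h := by positivity
  exact ⟨a + b + h, by linarith,
    fun e x => (bd_fn (fun p : E × X => S.A p.1 p.2) (e, x)).trans (by linarith),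
    fun i j x => (bd_fn (fun p : (Fin k × ι) × X => S.B p.1.1 p.1.2 p.2) ((i, j), x)).trans (by linarith),
    fun x => (bd_fn S.H x).trans (by linarith)⟩

omit [Fintype X] [MeasurableSpace X] [MeasurableSingletonClass X] in
theorem abs_lowKer_le {d v : Fin k → ι → X → ℝ} {M : ℝ} (hd : ∀ a i x, |d a i x| ≤ M)
    (hv : ∀ a i x, |v a i x| ≤ M) (l : ℕ) (x y : X) :
    |lowKer d v l x y| ≤ ((k * Fintype.card ι : ℕ) : ℝ) * (M * M) := by
  unfold lowKer
  refine (abs_sum_le_sum_abs _ _).trans ?_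
  calc ∑ a : Fin k, |if (a : ℕ) < l then ∑ i, d a i x * v a i y else 0|
      ≤ ∑ _a : Fin k, ∑ _i : ι, M * M := by
        refine sum_le_sum fun a _ => ?_
        by_cases ha : (a : ℕ) < l
        · rw [if_pos ha]
          refine (abs_sum_le_sum_abs _ _).trans (sum_le_sum fun i _ => ?_)
          rw [abs_mul]
          exact mul_le_mul (hd a i x) (hv a i y) (abs_nonneg _) ((abs_nonneg _).trans (hd a i x))
        · rw [if_neg ha, abs_zero]; exact sum_nonneg fun _ _ => mul_self_nonneg M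
    _ = _ := by simp [mul_assoc]

variable {S T : ℝ → GSys E ι X k} {M : ℝ}

/-- The derivative of the mean value of a family. -/
theorem hasDerivAt_gval (hM0 : 0 ≤ M) (hS : ∀ s, (S s).Le M) (hT : ∀ s, (T s).Le M)
    (dA : ∀ s e x, HasDerivAt (fun r => (S r).A e x) ((T s).A e x) s)
    (dB : ∀ s a i x, HasDerivAt (fun r => (S r).B a i x) ((T s).B a i x) s)
    (dH : ∀ s x, HasDerivAt (fun r => (S r).H x) ((T s).H x) s) (θ : ℝ) :
    HasDerivAt (fun s => gval (S s) μ) (∫ g, speed (S θ) (T θ) μ g ∂stdPi E) θ := by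
  have hd : ∀ g s z, HasDerivAt (fun r => val (stdG ι) μ ((S r).ham g) 0 z)
      (cnd (stdG ι) μ ((S s).ham g) ((T s).ham g) 0 z) s := by
    intro g s z
    set G := ∑ e, |g e| with hG
    set A := M * (G + 2) with hA
    have hG0 : 0 ≤ G := by positivity
    have hA0 : 0 ≤ A := by positivity
    have hb : ∀ (U : GSys E ι X k), U.Le M → ∀ z x,
        |U.ham g z x| ≤ A * (1 + (gaussSize ι).tot z) := fun U hU z x => by
      have h1 := P157.Rsb.abs_linZ_le hU.2.1 z x
      have h2 : |∑ e, g e * U.A e x| ≤ M * G := by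
        rw [hG, mul_sum]
        refine (abs_sum_le_sum_abs _ _).trans (sum_le_sum fun e _ => ?_)
        rw [abs_mul, mul_comm M]
        exact mul_le_mul_of_nonneg_left (hU.1 e x) (abs_nonneg _)
      have h3 := hU.2.2 x
      have ht := (gaussSize ι).tot_nonneg z
      refine ((abs_add_le _ _).trans (add_le_add ((abs_add_le _ _).trans (add_le_add h1 h2)) h3)).trans ?_
      rw [hA]
      nlinarith [mul_nonneg (mul_nonneg hM0 hG0) ht, mul_nonneg hM0 ht]
    have hF : Family (gaussSize ι) (fun r => (S r).ham g) (fun _ _ _ => (0 : ℝ))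
        (fun r => (T r).ham g) (fun _ _ _ => (0 : ℝ)) s 1 := by
      refine ⟨one_pos, fun r => (linB_ham (S r) g).meas, fun r => (linB_ham (T r) g).meas,
        fun _ => measurable_const, fun _ => measurable_const,
        ⟨A + 1, by linarith, fun r _ z x => ?_⟩, fun r _ z x => ?_, fun r _ z x => hasDerivAt_const _ _⟩
      · have ht := (gaussSize ι).tot_nonneg z
        refine ⟨(hb _ (hS r) z x).trans (mul_le_mul_of_nonneg_right (by linarith) (by linarith)),
          (hb _ (hT r) z x).trans ?_, by rw [abs_zero]; positivity, by rw [abs_zero]; positivity⟩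
        refine mul_le_mul (by linarith) ?_ (by linarith) (by linarith)
        calc 1 + (gaussSize ι).tot z ≤ exp ((gaussSize ι).tot z) := by
              linarith [add_one_le_exp ((gaussSize ι).tot z)]
          _ ≤ _ := exp_le_exp.2 (le_mul_of_one_le_left ht (by linarith))
      · simp only [GSys.ham, linZ]
        exact ((HasDerivAt.fun_sum fun a _ => HasDerivAt.fun_sum fun i _ => (dB r a i x).const_mul _).fun_add
          (HasDerivAt.fun_sum fun e _ => (dA r e x).const_mul _)).fun_add (dH r x)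
    exact P157.Rsb.hasDerivAt_val hF 0 z
  set W := 2 * (((k * Fintype.card ι : ℕ) : ℝ) * (M * M)) + M with hW
  have hbound : ∀ s g, |speed (S s) (T s) μ g| ≤ W + M * ∑ e, |g e| := by
    intro s g
    have hk := abs_lowKer_le (hT s).2.1 (hS s).2.1
    have b1 : |cnd (stdG ι) μ ((S s).ham g) (linZ (T s).B) 0 (fun _ _ => 0)|
        ≤ 2 * (((k * Fintype.card ι : ℕ) : ℝ) * (M * M)) := by
      rw [cnd_fields, two_mul]
      refine (abs_sub _ _).trans (add_le_add (abs_cnd_fn (S s) g (fun x => hk k x x) 0 _) ?_)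
      rw [abs_mul, abs_of_pos P157.Rsb.mass_pos]
      refine (mul_le_mul_of_nonneg_left (abs_sum_le_sum_abs _ _) P157.Rsb.mass_pos.le).trans
        (P157.Rsb.mass_sum_le subset_rfl (by positivity) fun j _ => abs_jPair (S s) g j (hk j))
    have b2 : |∑ e, g e * cnd (stdG ι) μ ((S s).ham g) (fun _ x => (T s).A e x) 0 (fun _ _ => 0)|
        ≤ M * ∑ e, |g e| := by
      rw [mul_sum]
      refine (abs_sum_le_sum_abs _ _).trans (sum_le_sum fun e _ => ?_)
      rw [abs_mul, mul_comm M]
      exact mul_le_mul_of_nonneg_left (abs_cnd_fn (S s) g ((hT s).1 e) 0 _) (abs_nonneg _)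
    have b3 : |cnd (stdG ι) μ ((S s).ham g) (fun _ x => (T s).H x) 0 (fun _ _ => 0)| ≤ M :=
      abs_cnd_fn (S s) g (hT s).2.2 0 _
    rw [speed_eq, hW]
    linarith [(abs_add_le _ _).trans (add_le_add b1 ((abs_add_le _ _).trans (add_le_add b2 b3)))]
  have hI1 : Integrable (fun g : E → ℝ => ∑ e, |g e|) (stdPi E) :=
    integrable_finsetSum _ fun e _ => (P150.integrable_coord e).abs
  have hVm : ∀ r, Measurable fun g => val (stdG ι) μ ((S r).ham g) 0 (fun _ _ => 0) := fun r =>
    P157.Rsb.val_measurable_param_at (H := fun g => (S r).ham g) (measurable_gham _) 0 _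
  have hVi : Integrable (fun g => val (stdG ι) μ ((S θ).ham g) 0 (fun _ _ => 0)) (stdPi E) := by
    refine ((integrable_const |val (stdG ι) μ ((S θ).ham 0) 0 (fun _ _ => 0)|).add (hI1.const_mul M)).mono'
      (hVm θ).aestronglyMeasurable (ae_of_all _ fun g => ?_)
    have h := P157.Rsb.val_close (γ := stdG ι) (μ := μ) (linB_ham (S θ) 0) (linB_ham (S θ) g)
      (L := M * ∑ e, |g e|) (fun z x => by
        simp only [GSys.ham, Pi.zero_apply, zero_mul, sum_const_zero, add_zero]
        rw [show linZ (S θ).B z x + ∑ e, g e * (S θ).A e x + (S θ).H x - (linZ (S θ).B z x + (S θ).H x)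
          = ∑ e, g e * (S θ).A e x by ring, mul_sum]
        refine (abs_sum_le_sum_abs _ _).trans (sum_le_sum fun e _ => ?_)
        rw [abs_mul, mul_comm M]
        exact mul_le_mul_of_nonneg_left ((hS θ).1 e x) (abs_nonneg _)) 0 (fun _ _ => 0)
    rw [Real.norm_eq_abs, Pi.add_apply]
    linarith [abs_sub_abs_le_abs_sub (val (stdG ι) μ ((S θ).ham g) 0 (fun _ _ => 0))
      (val (stdG ι) μ ((S θ).ham 0) 0 (fun _ _ => 0))]
  have hFm : Measurable fun g => speed (S θ) (T θ) μ g :=
    P157.Rsb.cnd_measurable_param_at (H := fun g => (S θ).ham g) (φ := fun g => (T θ).ham g)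
      (measurable_gham _) (measurable_gham _) 0 _
  exact (hasDerivAt_integral_of_dominated_loc_of_deriv_le (μ := stdPi E)
    (F := fun r g => val (stdG ι) μ ((S r).ham g) 0 (fun _ _ => 0))
    (F' := fun r g => speed (S r) (T r) μ g) (bound := fun g => W + M * ∑ e, |g e|)
    (Metric.ball_mem_nhds θ one_pos) (Filter.Eventually.of_forall fun r => (hVm r).aestronglyMeasurable)
    hVi hFm.aestronglyMeasurable (ae_of_all _ fun g r _ => hbound r g)
    ((integrable_const W).add (hI1.const_mul M))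
    (ae_of_all _ fun g r _ => hd g r _)).2

/-- The velocity of a trigonometric path. -/
noncomputable def GSys.vel (P₀ P₁ : GSys E ι X k) (θ : ℝ) : GSys E ι X k where
  A e x := -sin θ * P₀.A e x + cos θ * P₁.A e x
  B a i x := -sin θ * P₀.B a i x + cos θ * P₁.B a i x
  H x := 2 * sin θ * cos θ * (P₁.H x - P₀.H x)

omit [Fintype X] [MeasurableSpace X] [MeasurableSingletonClass X] in
theorem cross_path {C P₀ P₁ : GSys E ι X k} (ho : Orth C P₀ P₁) (θ : ℝ) (j : ℕ) (x y : X) :
    cross (GSys.vel P₀ P₁ θ) (C.path P₀ P₁ θ) j x y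
      = sin θ * cos θ * (kern P₁ j x y - kern P₀ j x y) := by
  obtain ⟨oA, oB⟩ := ho
  have alg : ∀ {c0 a0 a1 c1 b0 b1 : ℝ}, c1 * a0 = 0 → c1 * a1 = 0 → a0 * b1 = 0 → b0 * a1 = 0 →
      (-sin θ * a0 + cos θ * a1) * (c1 + cos θ * b0 + sin θ * b1)
        = sin θ * cos θ * (a1 * b1 - a0 * b0) + c0 * 0 := fun h1 h2 h3 h4 => by
    linear_combination (-sin θ) * h1 + cos θ * h2 + (-(sin θ ^ 2)) * h3 + (cos θ ^ 2) * h4
  simp only [cross, kern, lowKer, GSys.vel, GSys.path]
  rw [mul_sub, mul_add, mul_add, mul_sum, mul_sum, mul_sum, mul_sum, add_sub_add_comm, ← sum_sub_distrib,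
    ← sum_sub_distrib]
  congr 1
  · refine sum_congr rfl fun e _ => ?_
    rw [alg (c0 := 0) (oA e y x).1 (oA e y x).2.1 (oA e x y).2.2 (oA e y x).2.2]
    ring
  · refine sum_congr rfl fun a _ => ?_
    by_cases ha : (a : ℕ) < j
    · simp only [if_pos ha]
      rw [mul_sum, mul_sum, ← sum_sub_distrib]
      refine sum_congr rfl fun i _ => ?_
      rw [alg (c0 := 0) (oB a i y x).1 (oB a i y x).2.1 (oB a i x y).2.2 (oB a i y x).2.2]
      ring
    · simp [if_neg ha]

omit [Fintype E] [Fintype ι] [MeasurableSpace X] [MeasurableSingletonClass X] [Fintype X] in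
theorem path_bound {C P₀ P₁ : GSys E ι X k} {a b c : ℝ} (hC : C.Le a) (h₀ : P₀.Le b) (h₁ : P₁.Le c)
    (θ : ℝ) : (C.path P₀ P₁ θ).Le (a + b + c) := by
  have t : ∀ {r u v : ℝ}, |r| ≤ 1 → |u| ≤ v → |r * u| ≤ v := fun hr hu => by
    rw [abs_mul]
    exact (mul_le_of_le_one_left (abs_nonneg _) hr).trans hu
  have hc := abs_cos_le_one θ
  have hs := abs_sin_le_one θ
  have hc2 : |cos θ ^ 2| ≤ 1 := by rw [abs_pow]; exact pow_le_one₀ (abs_nonneg _) hc
  have hs2 : |sin θ ^ 2| ≤ 1 := by rw [abs_pow]; exact pow_le_one₀ (abs_nonneg _) hs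
  exact ⟨fun e x => (abs_add_three _ _ _).trans
      (add_le_add (add_le_add (hC.1 e x) (t hc (h₀.1 e x))) (t hs (h₁.1 e x))),
    fun j i x => (abs_add_three _ _ _).trans
      (add_le_add (add_le_add (hC.2.1 j i x) (t hc (h₀.2.1 j i x))) (t hs (h₁.2.1 j i x))),
    fun x => (abs_add_three _ _ _).trans
      (add_le_add (add_le_add (hC.2.2 x) (t hc2 (h₀.2.2 x))) (t hs2 (h₁.2.2 x)))⟩

omit [Fintype E] [Fintype ι] [MeasurableSpace X] [MeasurableSingletonClass X] [Fintype X] in
theorem vel_le {P₀ P₁ : GSys E ι X k} {b c : ℝ} (h₀ : P₀.Le b) (h₁ : P₁.Le c) (θ : ℝ) :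
    (GSys.vel P₀ P₁ θ).Le (2 * (b + c)) := by
  have hc := abs_cos_le_one θ
  have hs : |-sin θ| ≤ 1 := by rw [abs_neg]; exact abs_sin_le_one θ
  have t : ∀ {u v : ℝ}, |u| ≤ b → |v| ≤ c → |-sin θ * u + cos θ * v| ≤ 2 * (b + c) := fun hu hv => by
    refine (abs_add_le _ _).trans ?_
    rw [abs_mul, abs_mul]
    linarith [mul_le_of_le_one_left (abs_nonneg _) hs |>.trans hu,
      mul_le_of_le_one_left (abs_nonneg _) hc |>.trans hv, (abs_nonneg _).trans hu, (abs_nonneg _).trans hv]
  refine ⟨fun e x => t (h₀.1 e x) (h₁.1 e x), fun j i x => t (h₀.2.1 j i x) (h₁.2.1 j i x), fun x => ?_⟩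
  have h2 : |2 * sin θ * cos θ| ≤ 2 := by
    rw [abs_mul, abs_mul, abs_two]
    nlinarith [abs_sin_le_one θ, abs_cos_le_one θ, abs_nonneg (sin θ), abs_nonneg (cos θ)]
  simp only [GSys.vel]
  rw [abs_mul]
  exact mul_le_mul h2 ((abs_sub _ _).trans (by linarith [h₀.2.2 x, h₁.2.2 x])) (abs_nonneg _) zero_le_two

end Path

/-- The derivative of the mean value along a path. -/
theorem interp : InterpStmt := by
  intro E ι X _ _ _ _ _ μ _ k C P₀ P₁ ho θ
  obtain ⟨a, ha, hC⟩ := exists_le C
  obtain ⟨b, hb, h₀⟩ := exists_le P₀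
  obtain ⟨c, hc, h₁⟩ := exists_le P₁
  have mono : ∀ {U : GSys E ι X k} {m m' : ℝ}, U.Le m → m ≤ m' → U.Le m' := fun h hm =>
    ⟨fun e x => (h.1 e x).trans hm, fun j i x => (h.2.1 j i x).trans hm, fun x => (h.2.2 x).trans hm⟩
  have key := hasDerivAt_gval (μ := μ) (S := fun s => C.path P₀ P₁ s) (T := fun s => GSys.vel P₀ P₁ s)
    (M := 2 * (a + b + c)) (by linarith) (fun s => mono (path_bound hC h₀ h₁ s) (by linarith))
    (fun s => mono (vel_le h₀ h₁ s) (by linarith))
    (fun s e x => ((((hasDerivAt_cos s).mul_const _).const_add _).fun_add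
      ((hasDerivAt_sin s).mul_const _)).congr_deriv (by simp [GSys.vel]))
    (fun s j i x => ((((hasDerivAt_cos s).mul_const _).const_add _).fun_add
      ((hasDerivAt_sin s).mul_const _)).congr_deriv (by simp [GSys.vel]))
    (fun s x => (((((hasDerivAt_cos s).fun_pow 2).mul_const _).const_add _).fun_add
      (((hasDerivAt_sin s).fun_pow 2).mul_const _)).congr_deriv (by simp [GSys.vel]; ring)) θ
  refine key.congr_deriv ?_
  rw [speed_mean]
  have e1 : gcnd (C.path P₀ P₁ θ) μ (fun x => cross (GSys.vel P₀ P₁ θ) (C.path P₀ P₁ θ) k x x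
      + (GSys.vel P₀ P₁ θ).H x) = 2 * sin θ * cos θ * gcnd (C.path P₀ P₁ θ) μ
        (fun x => (kern P₁ k x x - kern P₀ k x x) / 2 + P₁.H x - P₀.H x) := by
    simp only [gcnd, ← integral_const_mul, ← P157.Rsb.cnd_const_mul]
    congr 1; funext g; congr 1; funext _ x
    rw [cross_path ho]; simp only [GSys.vel]; ring
  have e2 : ∀ j, gpair (C.path P₀ P₁ θ) μ j (cross (GSys.vel P₀ P₁ θ) (C.path P₀ P₁ θ) j)
      = sin θ * cos θ * gpair (C.path P₀ P₁ θ) μ j fun x y => kern P₁ j x y - kern P₀ j x y := fun j => by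
    simp only [gpair, ← integral_const_mul, ← P157.Rsb.cnd_const_mul, ← P157.Rsb.pairCnd_const_mul,
      ← cross_path ho θ j]
  simp only [bracket, e1, e2, ← mul_sum]
  ring

end Vale.Agent.P146.Sup
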