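import Vale.Agent.P146.Sup.GBase

/-!
# P146, superconcentration: changes of variables in the mean values
-/

open MeasureTheory ProbabilityTheory Real Finset
open Vale.Agent.P157.Rsb
open Vale.Agent.P157 (cubeLaw coin)
open Vale.Agent.P150 (Edge stdPi)

namespace Vale.Agent.P146.Sup

/-- Reading some of the coordinates, each once, preserves independent copies of a law. -/
theorem mp_comp_inj {ι ι' α : Type} [Fintype ι] [Fintype ι'] [MeasurableSpace α] (ν : Measure α)
    [IsProbabilityMeasure ν] {f : ι' → ι} (hf : Function.Injective f) :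
    MeasurePreserving (fun g : ι → α => g ∘ f) (Measure.pi fun _ => ν) (Measure.pi fun _ => ν) := by
  classical
  have hm : Measurable fun g : ι → α => g ∘ f :=
    measurable_pi_lambda _ fun i => measurable_pi_apply (f i)
  refine ⟨hm, (Measure.pi_eq fun s hs => ?_).symm⟩
  rw [Measure.map_apply hm (MeasurableSet.univ_pi hs)]
  have e : (fun g : ι → α => g ∘ f) ⁻¹' Set.univ.pi s
      = Set.univ.pi (Function.extend f s fun _ => Set.univ) := by
    ext g
    simp only [Set.mem_preimage, Set.mem_univ_pi, Function.comp_apply]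
    refine ⟨fun h i => ?_, fun h i => by simpa [hf.extend_apply] using h (f i)⟩
    by_cases hi : ∃ a, f a = i
    · obtain ⟨a, rfl⟩ := hi
      rw [hf.extend_apply]; exact h a
    · rw [Function.extend_apply' _ _ _ hi]; trivial
  rw [e, Measure.pi_pi]
  refine (Finset.prod_subset (subset_univ (univ.image f)) fun i _ hi => ?_).symm.trans ?_
  · rw [Function.extend_apply' _ _ _ fun ⟨a, ha⟩ => hi (mem_image.2 ⟨a, mem_univ a, ha⟩), measure_univ]
  · rw [prod_image fun a _ b _ h => hf h]
    exact prod_congr rfl fun a _ => by rw [hf.extend_apply]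

section

variable {E ι X : Type} [Fintype E] [Fintype ι] [Fintype X] [MeasurableSpace X]
  [MeasurableSingletonClass X] {k : ℕ} {μ : Measure X} [IsProbabilityMeasure μ]
  {E' ι' X' : Type} [Fintype E'] [Fintype ι'] [Fintype X'] [MeasurableSpace X']
  [MeasurableSingletonClass X'] {μ' : Measure X'} [IsProbabilityMeasure μ']

omit [Fintype X] [MeasurableSingletonClass X] [IsProbabilityMeasure μ] in
/-- Measure preserving changes of all variables keep the mean value. -/
theorem gval_map {S : GSys E ι X k} {T : GSys E' ι' X' k} {L : (E → ℝ) → E' → ℝ}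
    (hL : MeasurePreserving L (stdPi E) (stdPi E')) {F : (ι → ℝ) → ι' → ℝ}
    (hF : MeasurePreserving F (stdG ι) (stdG ι')) (hF0 : F 0 = 0) {G : X → X'}
    (hG : MeasurePreserving G μ μ')
    (h : ∀ g z x, S.ham g z x = T.ham (L g) (fun i => F (z i)) (G x)) :
    gval S μ = gval T μ' := by
  have e : ∀ g, val (stdG ι) μ (S.ham g) 0 (fun _ _ => 0)
      = val (stdG ι') μ' (T.ham (L g)) 0 (fun _ _ => 0) := fun g => by
    rw [show S.ham g = fun z x => T.ham (L g) (fun i => F (z i)) (G x) from funext₂ (h g),
      (val_map hF hG (ham_linB T (L g)) 0 _).1]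
    simp only [show F (fun _ => 0) = 0 from hF0]
    rfl
  simp only [gval, e]
  rw [← hL.map_eq, integral_map hL.measurable.aemeasurable
    (measurable_val_root T).aestronglyMeasurable]

omit [Fintype X] [MeasurableSingletonClass X] [IsProbabilityMeasure μ] in
/-- Systems with the same Hamiltonian have the same mean value. -/
theorem gval_congr {S T : GSys E ι X k} (h : ∀ g z x, S.ham g z x = T.ham g z x) :
    gval S μ = gval T μ := by
  simp only [gval, show ∀ g, S.ham g = T.ham g from fun g => funext₂ (h g)]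

end

/-- Without fields the recursion is trivial. -/
theorem val_no_field {k : ℕ} {Z X : Type} [MeasurableSpace Z] [MeasurableSpace X] {γ : Measure Z}
    [IsProbabilityMeasure γ] {μ : Measure X} {H : (Fin k → Z) → X → ℝ} {h : X → ℝ}
    (hH : ∀ z x, H z x = h x) (j : ℕ) :
    ∀ z, val γ μ H j z = log (∫ x, exp (h x) ∂μ) := by
  induction j using levels_induction (k := k) with
  | htop j hj => intro z; simp only [val_of_le hj, val_top, hH]
  | hstep j hj hjk ih =>
    intro z
    rw [val_step hj hjk]
    simp only [ih, integral_const, probReal_univ, one_smul, log_exp]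
    exact mul_div_cancel_left₀ _ (lev_pos hj).ne'

/-- Coordinates of a sum of two independent standard families, normalised. -/
theorem mp_mix {ι : Type} [Fintype ι] {c₁ c₂ : ℝ} (hc : c₁ ^ 2 + c₂ ^ 2 = 1) :
    MeasurePreserving (fun w : (ι → ℝ) × (ι → ℝ) => fun i => c₁ * w.1 i + c₂ * w.2 i)
      ((Measure.pi fun _ => gaussianReal 0 1).prod (Measure.pi fun _ => gaussianReal 0 1))
      (Measure.pi fun _ => gaussianReal 0 1) := by
  have h1 : MeasurePreserving (fun w : ℝ × ℝ => c₁ * w.1 + c₂ * w.2)
      ((gaussianReal 0 1).prod (gaussianReal 0 1)) (gaussianReal 0 1) := by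
    refine ⟨by fun_prop, ?_⟩
    rw [show (fun w : ℝ × ℝ => c₁ * w.1 + c₂ * w.2)
        = (fun w : ℝ × ℝ => w.1 + w.2) ∘ Prod.map (c₁ * ·) (c₂ * ·) from rfl,
      ← Measure.map_map (by fun_prop) (by fun_prop),
      ← Measure.map_prod_map _ _ (by fun_prop) (by fun_prop)]
    simp only [gaussianReal_map_const_mul, mul_zero, mul_one]
    rw [show ((gaussianReal 0 _).prod (gaussianReal 0 _)).map (fun w : ℝ × ℝ => w.1 + w.2)
      = Measure.conv _ _ from rfl, gaussianReal_conv_gaussianReal]
    congr 1
    · simp
    · ext; simp [hc]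
  exact (measurePreserving_pi _ _ fun _ : ι => h1).comp
    ((measurePreserving_arrowProdEquivProdArrow ℝ ℝ ι (fun _ => gaussianReal 0 1)
      (fun _ => gaussianReal 0 1)).symm _)

/-- The cube is the smaller cube times a coin. -/
theorem mp_snoc (m : ℕ) :
    MeasurePreserving (fun p : (Fin m → Bool) × Bool => (Fin.snoc p.1 p.2 : Fin (m + 1) → Bool))
      ((cubeLaw m).prod coin) (cubeLaw (m + 1)) := by
  refine ⟨measurable_of_countable _, (Measure.pi_eq fun s hs => ?_).symm⟩
  rw [Measure.map_apply (measurable_of_countable _) (MeasurableSet.univ_pi hs)]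
  have e : (fun p : (Fin m → Bool) × Bool => (Fin.snoc p.1 p.2 : Fin (m + 1) → Bool)) ⁻¹' Set.univ.pi s
      = (Set.univ.pi fun i : Fin m => s i.castSucc) ×ˢ s (Fin.last m) := by
    ext p
    simp only [Set.mem_preimage, Set.mem_univ_pi, Set.mem_prod, Fin.forall_fin_succ',
      Fin.snoc_castSucc, Fin.snoc_last]
  rw [e, Measure.prod_prod, cubeLaw, Measure.pi_pi, Fin.prod_univ_castSucc]

end Vale.Agent.P146.Sup
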