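import Vale.Agent.P146.Sup.Var

/-!
# P146, superconcentration: from the free energy of a bin to the weight of the overlap

The weight of a bin is the exponential of a Lipschitz function whose mean is the gap between the
restricted and the free values; a second moment bound makes the weight small.
-/

open MeasureTheory ProbabilityTheory Real Finset
open Vale.Agent.P150 (Edge spin pairA press stdPi)

namespace Vale.Agent.P146.Sup

variable {n : ℕ}

theorem continuous_fstC (t : ℝ) : Continuous (fstC (n := n) t) := by unfold fstC; fun_prop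

theorem continuous_sndC (t : ℝ) : Continuous (sndC (n := n) t) := by unfold sndC; fun_prop

theorem measurePreserving_copy {t : ℝ} (h0 : 0 ≤ t) (h1 : t ≤ 1) :
    MeasurePreserving (fstC (n := n) t) (stdPi (PairE n)) (stdPi (Edge n)) ∧
      MeasurePreserving (sndC (n := n) t) (stdPi (PairE n)) (stdPi (Edge n)) := by
  have hp : MeasurePreserving (fun p : (Edge n → ℝ) × (Edge n → ℝ) => mix t p.1 p.2)
      ((stdPi (Edge n)).prod (stdPi (Edge n))) (stdPi (Edge n)) :=
    measurePreserving_fst.comp (P166.measurePreserving_pair (√t) (√(1 - t))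
      (by rw [sq_sqrt h0, sq_sqrt (by linarith)]; ring))
  have e1 := measurePreserving_sumPiEquivProdPi fun _ : PairE n => P150.std
  have e2 := measurePreserving_sumPiEquivProdPi fun _ : Edge n ⊕ Edge n => P150.std
  exact ⟨hp.comp (((MeasurePreserving.id (stdPi (Edge n))).prod (measurePreserving_fst.comp e2)).comp e1),
    hp.comp (((MeasurePreserving.id (stdPi (Edge n))).prod (measurePreserving_snd.comp e2)).comp e1)⟩

/-- The log weight of a set of pairs. -/
noncomputable def restF (β t : ℝ) (B : Finset ((Fin n → Bool) × (Fin n → Bool))) (g : PairE n → ℝ) : ℝ :=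
  log (∑ p ∈ B, exp (β * P150.energy n (fstC t g) p.1 + β * P150.energy n (sndC t g) p.2))

theorem copy_dist_le {t : ℝ} (h0 : 0 ≤ t) (h1 : t ≤ 1) (g g' : PairE n → ℝ) :
    ∑ e, |fstC t g e - fstC t g' e| ≤ ∑ p, |g p - g' p| ∧
      ∑ e, |sndC t g e - sndC t g' e| ≤ ∑ p, |g p - g' p| := by
  have hs : ∀ x y : ℝ, |√t * x + √(1 - t) * y| ≤ |x| + |y| := fun x y => by
    refine (abs_add_le _ _).trans (add_le_add ?_ ?_) <;>
      rw [abs_mul, abs_of_nonneg (sqrt_nonneg _)] <;>
      refine mul_le_of_le_one_left (abs_nonneg _) (sqrt_le_one.2 ?_)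
    · exact h1
    · linarith
  simp only [Fintype.sum_sum_type, ← add_assoc]
  constructor
  · refine (sum_le_sum fun e _ => ?_).trans
      ((sum_add_distrib).trans_le (le_add_of_nonneg_right (sum_nonneg fun e _ => abs_nonneg _)))
    simp only [fstC]
    exact le_of_eq_of_le (by congr 1; ring) (hs _ _)
  · refine (sum_le_sum fun e _ => ?_).trans ((sum_add_distrib).trans_le (add_le_add_left
      (le_add_of_nonneg_right (sum_nonneg fun e _ => abs_nonneg (g (.inr (.inl e)) - g' (.inr (.inl e)))))
      _ |>.trans' le_rfl))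
    simp only [sndC]
    exact le_of_eq_of_le (by congr 1; ring) (hs _ _)

theorem energy_lip (β : ℝ) (g g' : Edge n → ℝ) (x : Fin n → Bool) :
    β * P150.energy n g x ≤ β * P150.energy n g' x + |β / √n| * ∑ e, |g e - g' e| := by
  have e : β * P150.energy n g x - β * P150.energy n g' x
      = ∑ e, β / √n * (g e - g' e) * pairA n x e := by
    unfold P150.energy pairA
    rw [← mul_sub, ← sub_div, ← sum_sub_distrib, mul_div_assoc', mul_sum, sum_div]
    exact sum_congr rfl fun e _ => by ring
  rw [mul_sum, ← sub_le_iff_le_add', e]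
  refine sum_le_sum fun e _ => (le_abs_self _).trans (le_of_eq ?_)
  rw [abs_mul, abs_mul]
  rcases sq_eq_one_iff.1 (P150.pairA_sq n x e) with h | h <;> simp [h]

theorem restF_lip {β t : ℝ} (h0 : 0 ≤ t) (h1 : t ≤ 1) {B : Finset ((Fin n → Bool) × (Fin n → Bool))}
    (hB : B.Nonempty) (g g' : PairE n → ℝ) :
    |restF β t B g - restF β t B g'| ≤ 2 * |β / √n| * ∑ p, |g p - g' p| := by
  have key : ∀ g g' : PairE n → ℝ, restF β t B g ≤ restF β t B g' + 2 * |β / √n| * ∑ p, |g p - g' p| := by
    intro g g'
    obtain ⟨d1, d2⟩ := copy_dist_le h0 h1 g g'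
    have hpos : ∀ h, 0 < ∑ p ∈ B, exp (β * P150.energy n (fstC t h) p.1 + β * P150.energy n (sndC t h) p.2) :=
      fun h => sum_pos (fun _ _ => exp_pos _) hB
    unfold restF
    rw [← log_exp (2 * |β / √n| * ∑ p, |g p - g' p|), ← log_mul (hpos g').ne' (exp_pos _).ne']
    refine log_le_log (hpos g) ?_
    rw [sum_mul]
    refine sum_le_sum fun p _ => ?_
    rw [← exp_add]
    refine exp_le_exp.2 ?_
    have a1 := energy_lip β (fstC t g) (fstC t g') p.1
    have a2 := energy_lip β (sndC t g) (sndC t g') p.2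
    have b := abs_nonneg (β / √n)
    nlinarith [mul_le_mul_of_nonneg_left d1 b, mul_le_mul_of_nonneg_left d2 b]
  have h := key g' g
  simp only [abs_sub_comm (g' _)] at h
  exact abs_le.2 ⟨by linarith, by linarith [key g g']⟩

theorem continuous_gibbsPair (β t : ℝ) (x y : Fin n → Bool) :
    Continuous fun g => P150.gibbs n β (fstC t g) x * P150.gibbs n β (sndC t g) y :=
  ((continuous_gibbs β x).comp (continuous_fstC t)).mul ((continuous_gibbs β y).comp (continuous_sndC t))

theorem gibbs_le_one (β : ℝ) (g : Edge n → ℝ) (x : Fin n → Bool) : P150.gibbs n β g x ≤ 1 :=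
  (single_le_sum (fun y _ => gibbs_nonneg β g y) (mem_univ x)).trans_eq (sum_gibbs β g)

theorem integrable_pairMean (β t : ℝ) (φ : ℝ → ℝ) :
    Integrable (fun g => ∑ x, ∑ y, P150.gibbs n β (fstC t g) x * P150.gibbs n β (sndC t g) y * φ (ovr x y))
      (stdPi (PairE n)) := by
  refine integrable_finsetSum _ fun x _ => integrable_finsetSum _ fun y _ => Integrable.mul_const
    (Integrable.of_bound (continuous_gibbsPair β t x y).aestronglyMeasurable 1 (ae_of_all _ fun g => ?_)) _
  rw [norm_eq_abs, abs_of_nonneg (mul_nonneg (gibbs_nonneg _ _ _) (gibbs_nonneg _ _ _))]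
  exact mul_le_one₀ (gibbs_le_one _ _ _) (gibbs_nonneg _ _ _) (gibbs_le_one _ _ _)

theorem abs_ovr_le (hn : 1 ≤ n) (x y : Fin n → Bool) : |ovr x y| ≤ 1 := by
  rw [ovr, abs_div, Nat.abs_cast, div_le_one (by exact_mod_cast hn : (0 : ℝ) < n)]
  refine (abs_sum_le_sum_abs _ _).trans (le_of_eq ?_)
  simp [abs_mul, P150.abs_spin]

theorem pairMean_mono (β t : ℝ) {φ ψ : ℝ → ℝ} (hn : 1 ≤ n) (h : ∀ r, |r| ≤ 1 → φ r ≤ ψ r) :
    pairMean β n t φ ≤ pairMean β n t ψ :=
  integral_mono (integrable_pairMean β t φ) (integrable_pairMean β t ψ) fun _ =>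
    sum_le_sum fun x _ => sum_le_sum fun y _ => mul_le_mul_of_nonneg_left (h _ (abs_ovr_le hn x y))
      (mul_nonneg (gibbs_nonneg β _ x) (gibbs_nonneg β _ y))

theorem pairMean_add (β t : ℝ) (φ ψ : ℝ → ℝ) :
    pairMean β n t (fun r => φ r + ψ r) = pairMean β n t φ + pairMean β n t ψ := by
  unfold pairMean
  rw [← integral_add (integrable_pairMean β t φ) (integrable_pairMean β t ψ)]
  simp only [mul_add, sum_add_distrib]

theorem pairMean_sum {ι : Type*} (β t : ℝ) (s : Finset ι) (φ : ι → ℝ → ℝ) :
    pairMean β n t (fun r => ∑ i ∈ s, φ i r) = ∑ i ∈ s, pairMean β n t (φ i) := by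
  unfold pairMean
  rw [← integral_finsetSum _ fun i _ => integrable_pairMean β t (φ i)]
  refine integral_congr_ae (ae_of_all _ fun g => ?_)
  simp only [mul_sum]
  conv_lhs => enter [2, x]; rw [sum_comm]
  rw [sum_comm]

theorem pairMean_const (β t c : ℝ) : pairMean β n t (fun _ => c) = c := by
  unfold pairMean
  simp [← sum_mul, ← mul_sum, sum_gibbs]

theorem gibbs_not (β : ℝ) (g : Edge n → ℝ) (y : Fin n → Bool) :
    P150.gibbs n β g (fun i => !y i) = P150.gibbs n β g y := by
  simp [P150.gibbs, P150.energy, P150.spin_not]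

theorem pairMean_flip (β t : ℝ) (φ : ℝ → ℝ) : pairMean β n t (fun r => φ (-r)) = pairMean β n t φ := by
  unfold pairMean
  refine integral_congr_ae (ae_of_all _ fun g => sum_congr rfl fun x _ => ?_)
  let σ : (Fin n → Bool) ≃ (Fin n → Bool) := Equiv.piCongrRight fun _ => Equiv.boolNot
  have hσ : ∀ y, σ y = fun i => !y i := fun y => rfl
  rw [← σ.sum_comp]
  refine sum_congr rfl fun y _ => ?_
  have e : ovr x (σ y) = -ovr x y := by
    simp [ovr, hσ, P150.spin_not, neg_div]
  rw [hσ] at e ⊢
  simp only [e, neg_neg, gibbs_not]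

/-- The indicator of an interval. -/
noncomputable def near (u w r : ℝ) : ℝ := if |r - u| ≤ w then 1 else 0

theorem bin_weight_eq {β t u w : ℝ} (hb : (bin n u w).Nonempty) (g : PairE n → ℝ) :
    ∑ x, ∑ y, P150.gibbs n β (fstC t g) x * P150.gibbs n β (sndC t g) y * near u w (ovr x y)
      = exp (restF β t (bin n u w) g - freeEnergy n β (fstC t g) - freeEnergy n β (sndC t g)) := by
  classical
  have hp : ∀ g : Edge n → ℝ, 0 < ∑ x, exp (β * P150.energy n g x) := fun g =>
    sum_pos (fun _ _ => exp_pos _) univ_nonempty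
  have hB : bin n u w = univ.filter fun p : (Fin n → Bool) × (Fin n → Bool) => |ovr p.1 p.2 - u| ≤ w := by
    ext p; simp [bin]
  rw [restF, freeEnergy, freeEnergy, exp_sub, exp_sub, exp_log (sum_pos (fun _ _ => exp_pos _) hb),
    exp_log (hp _), exp_log (hp _), ← Fintype.sum_prod_type', hB, sum_filter, div_div, sum_div]
  refine sum_congr rfl fun p _ => ?_
  simp only [near, P150.gibbs]
  split_ifs
  · rw [mul_one, exp_add, div_mul_div_comm]
  · simp

theorem bin_weight_le {β t u w δ : ℝ} (hn : 1 ≤ n) (h0 : 0 ≤ t) (h1 : t ≤ 1) (hδ : 0 < δ)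
    (hgap : binF β n t u w - 2 * meanF β n ≤ -(2 * δ) ∨ ¬(bin n u w).Nonempty) :
    pairMean β n t (near u w) ≤ 1 / δ + 48 * β ^ 2 * n / δ ^ 2 := by
  classical
  rcases (bin n u w).eq_empty_or_nonempty with he | hb
  · have hz : ∀ x y : Fin n → Bool, near u w (ovr x y) = 0 := fun x y => by
      have : (x, y) ∉ bin n u w := by simp [he]
      simp only [bin, mem_filter, mem_univ, true_and] at this
      simp [near, this]
    simp only [pairMean, hz, mul_zero, sum_const_zero, integral_zero]
    positivity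
  replace hgap := hgap.resolve_right (not_not.2 hb)
  set P := stdPi (PairE n)
  obtain ⟨m1, m2⟩ := measurePreserving_copy (n := n) h0 h1
  set X := fun g => restF β t (bin n u w) g - freeEnergy n β (fstC t g) - freeEnergy n β (sndC t g)
  have hL : ∀ g g', |X g - X g'| ≤ 4 * |β / √n| * ∑ p, |g p - g' p| := fun g g' => by
    obtain ⟨d1, d2⟩ := copy_dist_le h0 h1 g g'
    have a1 := abs_le.1 (restF_lip (β := β) h0 h1 hb g g')
    have a2 := abs_le.1 ((press_lip β (fstC t g) (fstC t g')).trans (mul_le_mul_of_nonneg_left d1 (abs_nonneg _)))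
    have a3 := abs_le.1 ((press_lip β (sndC t g) (sndC t g')).trans (mul_le_mul_of_nonneg_left d2 (abs_nonneg _)))
    simp only [X, freeEnergy_eq]
    exact abs_le.2 ⟨by linarith, by linarith⟩
  have hXc : Continuous X := by
    simp only [X, freeEnergy_eq, restF]
    refine ((Continuous.log ?_ fun g => (sum_pos (fun _ _ => exp_pos _) hb).ne').sub
      ((continuous_press β).comp (continuous_fstC t))).sub ((continuous_press β).comp (continuous_sndC t))
    unfold P150.energy fstC sndC
    fun_prop
  have hFi : Integrable (freeEnergy n β) (stdPi (Edge n)) := by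
    rw [show freeEnergy n β = fun g => press (pairA n) (cf β n) g from funext (freeEnergy_eq β)]
    exact P150.integrable_press (P150.pairA_sq n) _
  have hRi : Integrable (restF β t (bin n u w)) P :=
    (P150.memLp_lipschitz (by
      refine (Continuous.log ?_ fun g => (sum_pos (fun _ _ => exp_pos _) hb).ne').measurable
      unfold P150.energy fstC sndC
      fun_prop) (restF_lip h0 h1 hb)).integrable one_le_two
  have hF : ∀ {φ : (PairE n → ℝ) → Edge n → ℝ}, MeasurePreserving φ P (stdPi (Edge n)) →
      ∫ g, freeEnergy n β (φ g) ∂P = meanF β n + n * log 2 := fun {φ} hφ => by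
    have e : ∫ g, freeEnergy n β (φ g) ∂P = ∫ g, freeEnergy n β g ∂stdPi (Edge n) := by
      rw [← hφ.map_eq, integral_map hφ.measurable.aemeasurable (by rw [hφ.map_eq]; exact hFi.aestronglyMeasurable)]
    rw [e, meanF, sub_add_cancel]
    rfl
  have hμ : ∫ g, X g ∂P ≤ -(2 * δ) := by
    refine le_of_eq_of_le ?_ hgap
    simp only [X]
    have h12 : Integrable (fun g => restF β t (bin n u w) g - freeEnergy n β (fstC t g)) P :=
      hRi.sub (m1.integrable_comp_of_integrable hFi)
    have h2 : Integrable (fun g => freeEnergy n β (sndC t g)) P := m2.integrable_comp_of_integrable hFi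
    have h1' : Integrable (fun g => freeEnergy n β (fstC t g)) P := m1.integrable_comp_of_integrable hFi
    rw [integral_sub h12 h2, integral_sub hRi h1', hF m1, hF m2, binF]
    simp only [restF]
    ring
  set μ := ∫ g, X g ∂P
  have hv := P150.variance_lipschitz_le hXc.measurable hL
  have hsq : Integrable (fun g => (X g - μ) ^ 2) P :=
    ((P150.memLp_lipschitz hXc.measurable hL).sub (memLp_const μ)).integrable_sq
  have hW : ∀ g, ∑ x, ∑ y, P150.gibbs n β (fstC t g) x * P150.gibbs n β (sndC t g) y * near u w (ovr x y)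
      ≤ 1 / δ + (X g - μ) ^ 2 / δ ^ 2 := fun g => by
    have hs : 0 ≤ (X g - μ) ^ 2 / δ ^ 2 := by positivity
    rcases lt_or_ge (X g) (-δ) with h | h
    · rw [bin_weight_eq hb]
      have e1 : exp (X g) ≤ exp (-δ) := exp_le_exp.2 h.le
      have e2 : exp (-δ) ≤ 1 / δ := by
        rw [exp_neg, one_div, inv_le_inv₀ (exp_pos _) hδ]
        linarith [add_one_le_exp δ]
      simp only [X] at e1 hs ⊢
      linarith
    · have e1 : 1 ≤ (X g - μ) ^ 2 / δ ^ 2 := by
        rw [one_le_div (by positivity)]
        exact pow_le_pow_left₀ hδ.le (by linarith) 2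
      have e2 : ∑ x, ∑ y, P150.gibbs n β (fstC t g) x * P150.gibbs n β (sndC t g) y * near u w (ovr x y) ≤ 1 := by
        calc _ ≤ ∑ x, ∑ y, P150.gibbs n β (fstC t g) x * P150.gibbs n β (sndC t g) y :=
              sum_le_sum fun x _ => sum_le_sum fun y _ => mul_le_of_le_one_right
                (mul_nonneg (gibbs_nonneg _ _ _) (gibbs_nonneg _ _ _)) (by simp only [near]; split_ifs <;> norm_num)
          _ = 1 := by simp [← sum_mul_sum, sum_gibbs]
      have : 0 ≤ 1 / δ := by positivity
      linarith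
  refine (integral_mono (integrable_pairMean β t _) ((integrable_const _).add (hsq.div_const _)) hW).trans ?_
  simp only [Pi.add_apply]
  rw [integral_add (integrable_const _) (hsq.div_const _), integral_div (δ ^ 2) fun g => (X g - μ) ^ 2]
  simp only [integral_const, probReal_univ, one_smul]
  refine add_le_add le_rfl (div_le_div_of_nonneg_right (hv.trans ?_) (by positivity))
  rw [mul_pow, sq_abs, div_pow, sq_sqrt (Nat.cast_nonneg n)]
  have hcard : (Fintype.card (PairE n) : ℝ) ≤ 3 * (n : ℝ) ^ 2 := by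
    have := Fintype.card_subtype_le fun p : Fin n × Fin n => p.1 < p.2
    simp only [Fintype.card_prod, Fintype.card_fin] at this
    have h2 : Fintype.card (PairE n) ≤ 3 * (n * n) := by simp only [PairE, Fintype.card_sum]; linarith
    rw [sq]; exact_mod_cast h2
  calc (Fintype.card (PairE n) : ℝ) * (4 ^ 2 * (β ^ 2 / n))
      ≤ 3 * (n : ℝ) ^ 2 * (4 ^ 2 * (β ^ 2 / n)) := mul_le_mul_of_nonneg_right hcard (by positivity)
    _ = _ := by
      have : (n : ℝ) ≠ 0 := by exact_mod_cast (by omega : n ≠ 0)
      field_simp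
      ring

end Vale.Agent.P146.Sup
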