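import Vale.Agent.P157.Cube2.SpinFacts
import Vale.Agent.P157.Rsb.CalcGauss

/-!
# P146, superconcentration: one step of the recursion for two correlated copies

`T2 m t a G` is the log-Laplace transform of `G` along two Gaussian increments of variance `a` with
correlation `t`, `P2 t a ψ` the plain average.  Both compose in `a`.
-/

open MeasureTheory ProbabilityTheory Real Finset
open Vale.Agent.P157.Rsb (stdG gaussSize Size)
open Vale.Agent.P157.Cube2 (γ₁ hT Pot den tE num)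

namespace Vale.Agent.P146.Sup

/-- The coordinates used by the fields of two copies. -/
noncomputable abbrev G3 : Measure (Fin 3 → ℝ) := stdG (Fin 3)

/-- The first of two standard variables with correlation `t`. -/
noncomputable def cfst (t : ℝ) (z : Fin 3 → ℝ) : ℝ := √t * z 0 + √(1 - t) * z 1

/-- The second of two standard variables with correlation `t`. -/
noncomputable def csnd (t : ℝ) (z : Fin 3 → ℝ) : ℝ := √t * z 0 + √(1 - t) * z 2

/-- A shift by correlated increments. -/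
noncomputable def sh (t a : ℝ) (x : ℝ × ℝ) (z : Fin 3 → ℝ) : ℝ × ℝ :=
  (x.1 + √a * cfst t z, x.2 + √a * csnd t z)

/-- The log-Laplace step of two copies. -/
noncomputable def T2 (m t a : ℝ) (G : ℝ × ℝ → ℝ) (x : ℝ × ℝ) : ℝ :=
  log (∫ z, exp (m * G (sh t a x z)) ∂G3) / m

/-- The plain average of two copies. -/
noncomputable def P2 (t a : ℝ) (ψ : ℝ × ℝ → ℝ) (x : ℝ × ℝ) : ℝ := ∫ z, ψ (sh t a x z) ∂G3

/-- The sum of a function at the two copies. -/
def dbl (F : ℝ → ℝ) (x : ℝ × ℝ) : ℝ := F x.1 + F x.2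

/-- Lipschitz with constant one in each copy. -/
def Lip2 (G : ℝ × ℝ → ℝ) : Prop := ∀ x y, |G x - G y| ≤ |x.1 - y.1| + |x.2 - y.2|

variable {t a b m : ℝ} {G G' : ℝ × ℝ → ℝ}

theorem Lip2.cont (h : Lip2 G) : Continuous G := by
  refine (LipschitzWith.of_dist_le_mul (K := 2) fun x y => ?_).continuous
  rw [Real.dist_eq, Prod.dist_eq, Real.dist_eq, Real.dist_eq, NNReal.coe_two, two_mul]
  exact (h x y).trans (add_le_add (le_max_left _ _) (le_max_right _ _))

theorem lip2_add {F F' : ℝ → ℝ} (hF : Pot F) (hF' : Pot F') : Lip2 fun x => F x.1 + F' x.2 := fun x y => by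
  rw [add_sub_add_comm]
  exact (abs_add_le _ _).trans (add_le_add (hF.growth y.1 x.1) (hF'.growth y.2 x.2))

theorem lip2_dbl {F : ℝ → ℝ} (hF : Pot F) : Lip2 (dbl F) := lip2_add hF hF

theorem Lip2.add_const (h : Lip2 G) (c : ℝ) : Lip2 fun x => G x + c := fun x y => by
  simpa using h x y

theorem abs_cfst_le (h1 : t ∈ Set.Icc (0 : ℝ) 1) (z : Fin 3 → ℝ) : |cfst t z| ≤ ∑ i, |z i| := by
  have a0 : √t ≤ 1 := sqrt_le_one.2 h1.2
  have a1 : √(1 - t) ≤ 1 := sqrt_le_one.2 (by linarith [h1.1])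
  refine (abs_add_le _ _).trans ?_
  rw [abs_mul, abs_mul, abs_of_nonneg (sqrt_nonneg _), abs_of_nonneg (sqrt_nonneg _), Fin.sum_univ_three]
  linarith [mul_le_of_le_one_left (abs_nonneg (z 0)) a0, mul_le_of_le_one_left (abs_nonneg (z 1)) a1,
    abs_nonneg (z 2)]

theorem abs_csnd_le (h1 : t ∈ Set.Icc (0 : ℝ) 1) (z : Fin 3 → ℝ) : |csnd t z| ≤ ∑ i, |z i| := by
  have a0 : √t ≤ 1 := sqrt_le_one.2 h1.2
  have a1 : √(1 - t) ≤ 1 := sqrt_le_one.2 (by linarith [h1.1])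
  refine (abs_add_le _ _).trans ?_
  rw [abs_mul, abs_mul, abs_of_nonneg (sqrt_nonneg _), abs_of_nonneg (sqrt_nonneg _), Fin.sum_univ_three]
  linarith [mul_le_of_le_one_left (abs_nonneg (z 0)) a0, mul_le_of_le_one_left (abs_nonneg (z 2)) a1,
    abs_nonneg (z 1)]

theorem continuous_sh (x : ℝ × ℝ) : Continuous (sh t a x) := by unfold sh cfst csnd; fun_prop

theorem Lip2.sh_le (h : Lip2 G) (h1 : t ∈ Set.Icc (0 : ℝ) 1) (x : ℝ × ℝ) (z : Fin 3 → ℝ) :
    |G (sh t a x z) - G x| ≤ 2 * √a * ∑ i, |z i| := by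
  refine (h _ _).trans ?_
  simp only [sh, add_sub_cancel_left, abs_mul, abs_of_nonneg (sqrt_nonneg a)]
  linarith [mul_le_mul_of_nonneg_left (abs_cfst_le h1 z) (sqrt_nonneg a),
    mul_le_mul_of_nonneg_left (abs_csnd_le h1 z) (sqrt_nonneg a)]

theorem Lip2.int_exp (h : Lip2 G) (h1 : t ∈ Set.Icc (0 : ℝ) 1) (m : ℝ) (x : ℝ × ℝ) :
    Integrable (fun z => exp (m * G (sh t a x z))) G3 := by
  refine (((gaussSize (Fin 3)).int (|m| * (2 * √a))).const_mul (exp (|m| * |G x|))).mono'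
    (Continuous.aestronglyMeasurable (by have := h.cont; have := continuous_sh (t := t) (a := a) x; fun_prop))
    (ae_of_all _ fun z => ?_)
  rw [Real.norm_eq_abs, Real.abs_exp, ← exp_add]
  refine exp_le_exp.2 ((le_abs_self _).trans ?_)
  rw [abs_mul, mul_assoc, ← mul_add]
  refine mul_le_mul_of_nonneg_left ?_ (abs_nonneg m)
  have h2 := abs_sub_abs_le_abs_sub (G (sh t a x z)) (G x)
  have h3 := h.sh_le (a := a) h1 x z
  simp only [gaussSize]
  linarith

theorem Lip2.den_pos (h : Lip2 G) (h1 : t ∈ Set.Icc (0 : ℝ) 1) (m : ℝ) (x : ℝ × ℝ) :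
    0 < ∫ z, exp (m * G (sh t a x z)) ∂G3 :=
  integral_exp_pos (h.int_exp h1 m x)

theorem T2_mono (hm : 0 < m) (h1 : t ∈ Set.Icc (0 : ℝ) 1) (hG : Lip2 G) (hG' : Lip2 G')
    (h : ∀ y, G y ≤ G' y) (x : ℝ × ℝ) : T2 m t a G x ≤ T2 m t a G' x :=
  div_le_div_of_nonneg_right (log_le_log (hG.den_pos h1 m x) (integral_mono (hG.int_exp h1 m x)
    (hG'.int_exp h1 m x) fun z => exp_le_exp.2 (mul_le_mul_of_nonneg_left (h _) hm.le))) hm.le

theorem T2_add_const (hm : m ≠ 0) (h1 : t ∈ Set.Icc (0 : ℝ) 1) (hG : Lip2 G) (c : ℝ) (x : ℝ × ℝ) :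
    T2 m t a (fun y => G y + c) x = T2 m t a G x + c := by
  simp only [T2, mul_add, exp_add, integral_mul_const]
  rw [log_mul (hG.den_pos h1 m x).ne' (exp_pos _).ne', log_exp, add_div, mul_div_cancel_left₀ _ hm]

theorem T2_lip (hm : 0 < m) (h1 : t ∈ Set.Icc (0 : ℝ) 1) (hG : Lip2 G) : Lip2 (T2 m t a G) := by
  intro x y
  suffices h : ∀ x y : ℝ × ℝ, T2 m t a G x ≤ T2 m t a G y + (|x.1 - y.1| + |x.2 - y.2|) by
    have h' := h y x
    rw [abs_sub_comm y.1, abs_sub_comm y.2] at h'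
    rw [abs_le]; constructor <;> linarith [h x y]
  intro x y
  set d := |x.1 - y.1| + |x.2 - y.2|
  have key : ∀ z, G (sh t a x z) ≤ G (sh t a y z) + d := fun z => by
    have := le_of_abs_le (hG (sh t a x z) (sh t a y z))
    simp only [sh, add_sub_add_right_eq_sub] at this ⊢
    linarith
  rw [← T2_add_const hm.ne' h1 hG d y]
  exact div_le_div_of_nonneg_right (log_le_log (hG.den_pos h1 m x) (integral_mono (hG.int_exp h1 m x)
    ((hG.add_const d).int_exp h1 m y) fun z => exp_le_exp.2 (mul_le_mul_of_nonneg_left (key z) hm.le))) hm.le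

theorem sh_zero (x : ℝ × ℝ) (z : Fin 3 → ℝ) : sh t 0 x z = x := by simp [sh]

theorem T2_zero (hm : m ≠ 0) (G : ℝ × ℝ → ℝ) : T2 m t 0 G = G := by
  funext x; simp [T2, sh_zero, hm]

/-! ### Composition -/

theorem stdG_mix {ι : Type} [Fintype ι] {α β : ℝ} (h : α ^ 2 + β ^ 2 = 1) :
    MeasurePreserving (fun p : (ι → ℝ) × (ι → ℝ) => fun i => α * p.1 i + β * p.2 i)
      ((stdG ι).prod (stdG ι)) (stdG ι) := by
  have h1 : (γ₁.prod γ₁).map (fun w : ℝ × ℝ => α * w.1 + β * w.2) = γ₁ := by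
    rw [show (fun w : ℝ × ℝ => α * w.1 + β * w.2)
        = (fun w : ℝ × ℝ => w.1 + w.2) ∘ Prod.map (α * ·) (β * ·) from rfl,
      ← Measure.map_map (by fun_prop) (by fun_prop),
      ← Measure.map_prod_map _ _ (by fun_prop) (by fun_prop)]
    simp only [gaussianReal_map_const_mul, mul_zero, mul_one]
    rw [show ((gaussianReal 0 _).prod (gaussianReal 0 _)).map (fun w : ℝ × ℝ => w.1 + w.2)
      = Measure.conv _ _ from rfl, gaussianReal_conv_gaussianReal]
    congr 1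
    · simp
    · ext; simpa using h
  have hm : MeasurePreserving (fun w : ℝ × ℝ => α * w.1 + β * w.2) (γ₁.prod γ₁) γ₁ := ⟨by fun_prop, h1⟩
  exact (measurePreserving_pi (fun _ : ι => γ₁.prod γ₁) (fun _ : ι => γ₁) fun _ => hm).comp
    (measurePreserving_arrowProdEquivProdArrow ℝ ℝ ι (fun _ => γ₁) fun _ => γ₁).symm

theorem sh_sh (ha : 0 ≤ a) (hb : 0 ≤ b) :
    ∃ α β : ℝ, α ^ 2 + β ^ 2 = 1 ∧ ∀ x z z', sh t b (sh t a x z) z'
      = sh t (a + b) x (fun i => α * z i + β * z' i) := by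
  rcases eq_or_lt_of_le (add_nonneg ha hb) with h | h
  · refine ⟨1, 0, by norm_num, fun x z z' => ?_⟩
    obtain rfl : a = 0 := by linarith
    obtain rfl : b = 0 := by linarith
    simp [sh]
  · refine ⟨√a / √(a + b), √b / √(a + b), ?_, fun x z z' => ?_⟩
    · rw [div_pow, div_pow, sq_sqrt ha, sq_sqrt hb, sq_sqrt h.le, ← add_div, div_self h.ne']
    · have := (sqrt_pos.2 h).ne'
      simp only [sh, cfst, csnd, Prod.mk.injEq]
      constructor <;> (field_simp; ring)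

theorem T2_T2 (hm : 0 < m) (ha : 0 ≤ a) (hb : 0 ≤ b) (h1 : t ∈ Set.Icc (0 : ℝ) 1) (hG : Lip2 G)
    (x : ℝ × ℝ) : T2 m t a (T2 m t b G) x = T2 m t (a + b) G x := by
  obtain ⟨α, β, hab, he⟩ := sh_sh (t := t) ha hb
  have hμ := stdG_mix (ι := Fin 3) hab
  have hi : Integrable (fun p : (Fin 3 → ℝ) × (Fin 3 → ℝ) =>
      exp (m * G (sh t b (sh t a x p.1) p.2))) (G3.prod G3) := by
    simp only [he]
    exact hμ.integrable_comp_of_integrable (hG.int_exp h1 m x)
  have e : ∀ z, exp (m * T2 m t b G (sh t a x z)) = ∫ z', exp (m * G (sh t b (sh t a x z) z')) ∂G3 :=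
    fun z => by rw [T2, mul_div_cancel₀ _ hm.ne', exp_log (hG.den_pos h1 m _)]
  rw [T2, T2]
  simp only [e]
  rw [integral_integral (f := fun z z' => exp (m * G (sh t b (sh t a x z) z'))) hi]
  simp only [he]
  rw [← integral_map (f := fun u => exp (m * G (sh t (a + b) x u))) hμ.measurable.aemeasurable
    (by rw [hμ.map_eq]; exact (hG.int_exp h1 m x).1), hμ.map_eq]

theorem int_bdd {ψ : ℝ × ℝ → ℝ} (hc : Continuous ψ) {B : ℝ} (hB : ∀ y, |ψ y| ≤ B) (x : ℝ × ℝ) :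
    Integrable (fun z => ψ (sh t a x z)) G3 :=
  (integrable_const B).mono' (hc.comp (continuous_sh x)).aestronglyMeasurable (ae_of_all _ fun _ => hB _)

theorem P2_bdd {ψ : ℝ × ℝ → ℝ} {B : ℝ} (hB : ∀ y, |ψ y| ≤ B) (x : ℝ × ℝ) : |P2 t a ψ x| ≤ B := by
  refine (norm_integral_le_of_norm_le_const (μ := G3) (f := fun z => ψ (sh t a x z)) (C := B)
    (ae_of_all _ fun z => hB _)).trans ?_
  rw [probReal_univ, mul_one]

theorem P2_cont {ψ : ℝ × ℝ → ℝ} (hc : Continuous ψ) {B : ℝ} (hB : ∀ y, |ψ y| ≤ B) :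
    Continuous (P2 t a ψ) := by
  refine continuous_of_dominated (bound := fun _ => B) (fun x => ?_) (fun x => ae_of_all _ fun z => hB _)
    (integrable_const B) (ae_of_all _ fun z => ?_)
  · exact (hc.comp (continuous_sh x)).aestronglyMeasurable
  · exact hc.comp (by unfold sh; fun_prop)

theorem P2_P2 (ha : 0 ≤ a) (hb : 0 ≤ b) {ψ : ℝ × ℝ → ℝ} (hc : Continuous ψ) {B : ℝ}
    (hB : ∀ y, |ψ y| ≤ B) (x : ℝ × ℝ) : P2 t a (P2 t b ψ) x = P2 t (a + b) ψ x := by
  obtain ⟨α, β, hab, he⟩ := sh_sh (t := t) ha hb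
  have hμ := stdG_mix (ι := Fin 3) hab
  have hi : Integrable (fun p : (Fin 3 → ℝ) × (Fin 3 → ℝ) => ψ (sh t b (sh t a x p.1) p.2)) (G3.prod G3) := by
    simp only [he]
    exact hμ.integrable_comp_of_integrable (int_bdd hc hB x)
  unfold P2
  rw [integral_integral (f := fun z z' => ψ (sh t b (sh t a x z) z')) hi]
  simp only [he]
  rw [← integral_map (f := fun u => ψ (sh t (a + b) x u)) hμ.measurable.aemeasurable
    (by rw [hμ.map_eq]; exact (int_bdd hc hB x).1), hμ.map_eq]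

/-! ### Independent copies -/

theorem sh_indep (x : ℝ × ℝ) (z : Fin 3 → ℝ) : sh 0 a x z = (x.1 + √a * z 1, x.2 + √a * z 2) := by
  simp [sh, cfst, csnd]

theorem T2_indep {F F' : ℝ → ℝ} (hF : Pot F) (hF' : Pot F') (x : ℝ × ℝ) :
    T2 m 0 a (fun y => F y.1 + F' y.2) x = hT m a F x.1 + hT m a F' x.2 := by
  have e : ∀ z : Fin 3 → ℝ, exp (m * (F (x.1 + √a * z 1) + F' (x.2 + √a * z 2)))
      = ∏ i, ![fun _ : ℝ => (1 : ℝ), fun y => exp (m * F (x.1 + √a * y)),
          fun y => exp (m * F' (x.2 + √a * y))] i (z i) := fun z => by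
    simp [Fin.prod_univ_three, mul_add, exp_add]
  simp only [T2, sh_indep, e, stdG]
  rw [integral_fintype_prod_eq_prod (μ := fun _ : Fin 3 => γ₁)
    (f := ![fun _ : ℝ => (1 : ℝ), fun y => exp (m * F (x.1 + √a * y)),
      fun y => exp (m * F' (x.2 + √a * y))]), Fin.prod_univ_three]
  simp only [Matrix.cons_val_zero, Matrix.cons_val_one, Matrix.cons_val, integral_const, probReal_univ,
    one_smul, one_mul]
  have p1 := P157.Cube2.den_pos (m := m) (a := a) hF x.1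
  have p2 := P157.Cube2.den_pos (m := m) (a := a) hF' x.2
  simp only [hT, den] at p1 p2 ⊢
  rw [log_mul p1.ne' p2.ne', add_div]

theorem pot_zero : Pot fun _ : ℝ => (0 : ℝ) :=
  ⟨differentiable_const 0, by rw [deriv_const']; exact continuous_const, fun x => by simp⟩

theorem pot_hT {f : ℝ → ℝ} (hf : Pot f) (hm : m ≠ 0) : Pot (hT m a f) :=
  ⟨fun h => (P157.Cube2.hasDerivAt_hT hf hm h).differentiableAt,
    by rw [P157.Cube2.deriv_hT hf hm]; exact P157.Cube2.continuous_tE hf hf.dcont hf.dle,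
    fun h => by rw [P157.Cube2.deriv_hT hf hm]; exact P157.Cube2.abs_tE_le hf hf.dcont hf.dle h⟩

theorem hT_hT (hm : 0 < m) (ha : 0 ≤ a) (hb : 0 ≤ b) {f : ℝ → ℝ} (hf : Pot f) (h : ℝ) :
    hT m a (hT m b f) h = hT m (a + b) f h := by
  have h0 : ∀ c : ℝ, hT m c (fun _ => (0 : ℝ)) = fun _ => 0 := fun c => by funext y; simp [hT, den]
  have h1 : (0 : ℝ) ∈ Set.Icc (0 : ℝ) 1 := ⟨le_rfl, zero_le_one⟩
  have e := T2_T2 hm ha hb h1 (lip2_add hf pot_zero) (h, 0)
  have e1 : T2 m 0 b (fun y => f y.1 + (fun _ : ℝ => (0 : ℝ)) y.2) = fun y => hT m b f y.1 + (0 : ℝ) := by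
    funext y; rw [T2_indep hf pot_zero, h0]
  rw [e1, T2_indep (pot_hT hf hm.ne') pot_zero, T2_indep hf pot_zero, h0, h0] at e
  simpa using e

end Vale.Agent.P146.Sup
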