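import Vale.Agent.P157.Rsb.SyncRoot
import Vale.Agent.P157.Rsb.SyncConc
import Vale.Agent.P157.Rsb.Path

/-!
# P146, superconcentration: overlaps from field energies at fixed couplings

At fixed couplings the overlaps at all branch levels are close to an arbitrary path when the field
energies are close to the means predicted by it, and an exponential moment of the deviation of one
field energy is bounded by the two values at shifted amplitudes, up to `(k + 1) ^ 2`.
-/

open MeasureTheory ProbabilityTheory Real Finset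
open Vale.Agent.P157.Rsb Vale.Agent.P157.Rsb.Lf

namespace Vale.Agent.P146.Sup

variable {k : ℕ} {Z X : Type} [MeasurableSpace Z] [MeasurableSpace X]
  {γ : Measure Z} {μ : Measure X} {w : Size γ} {H A B : (Fin k → Z) → X → ℝ}

theorem linB_add_const (hH : LinB w H) (c : ℝ) : LinB w fun z x => H z x + c := by
  obtain ⟨D, hD, hd⟩ := hH.bound
  refine ⟨hH.meas.add_const c, D + |c|, by positivity, fun z x => ?_⟩
  have h := mul_nonneg (abs_nonneg c) (w.tot_nonneg z)
  exact (abs_add_le _ _).trans (by nlinarith [hd z x])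

theorem linB_max (hA : LinB w A) (hB : LinB w B) : LinB w fun z x => max (A z x) (B z x) := by
  obtain ⟨D, hD, hd⟩ := hA.bound
  obtain ⟨D', hD', hd'⟩ := hB.bound
  refine ⟨hA.meas.max hB.meas, D + D', by positivity, fun z x => ?_⟩
  refine abs_max_le_max_abs_abs.trans (max_le ?_ ?_)
  · exact (hd z x).trans (mul_le_mul_of_nonneg_right (by linarith) (by linarith [w.tot_nonneg z]))
  · exact (hd' z x).trans (mul_le_mul_of_nonneg_right (by linarith) (by linarith [w.tot_nonneg z]))

variable [IsProbabilityMeasure γ] [IsFiniteMeasure μ] [NeZero μ]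

theorem val_add_const (hH : LinB w H) (c : ℝ) (j : ℕ) (z : Fin k → Z) :
    val γ μ (fun z x => H z x + c) j z = val γ μ H j z + c := by
  have h1 := cnd_exp_le (γ := γ) (μ := μ) hH (linB_add_const hH c) j z
  have h2 := cnd_exp_le (γ := γ) (μ := μ) (linB_add_const hH c) hH j z
  simp only [add_sub_cancel_left, sub_add_cancel_left, cnd_const hH, cnd_const (linB_add_const hH c)] at h1 h2
  linarith

/-- The recursion of a maximum is at most the maximum of the recursions, up to a term in the
number of levels. -/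
theorem nest_le_max (hH : LinB w H) (hA : LinB w A) (hB : LinB w B)
    (h : ∀ z x, exp (H z x) ≤ exp (A z x) + exp (B z x)) (j : ℕ) (z : Fin k → Z) :
    val γ μ H j z ≤ max (val γ μ A j z) (val γ μ B j z)
      + (1 + ((k - j : ℕ) : ℝ) * ((k : ℝ) + 1)) * log 2 := by
  induction j using levels_induction (k := k) generalizing z with
  | htop j hj =>
    simp only [val_of_le hj, Nat.sub_eq_zero_of_le hj, Nat.cast_zero, zero_mul, add_zero, one_mul,
      val_top]
    have iH := integrable_exp_leaf (μ := μ) hH z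
    have iA := integrable_exp_leaf (μ := μ) hA z
    have iB := integrable_exp_leaf (μ := μ) hB z
    have pH := integral_exp_pos iH
    have pA := integral_exp_pos iA
    have pB := integral_exp_pos iB
    rw [log_le_iff_le_exp pH, exp_add, exp_log (by norm_num : (0 : ℝ) < 2)]
    have h1 := integral_mono iH (iA.add iB) (h z)
    simp only [Pi.add_apply] at h1
    rw [integral_add iA iB] at h1
    have e1 := exp_le_exp.2 (le_max_left (log (∫ x, exp (A z x) ∂μ)) (log (∫ x, exp (B z x) ∂μ)))
    have e2 := exp_le_exp.2 (le_max_right (log (∫ x, exp (A z x) ∂μ)) (log (∫ x, exp (B z x) ∂μ)))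
    rw [exp_log pA] at e1
    rw [exp_log pB] at e2
    linarith
  | hstep j hj hjk ih =>
    set c := (1 + ((k - j : ℕ) : ℝ) * ((k : ℝ) + 1)) * log 2
    set m := lev k j with hm
    have hm0 : 0 < m := lev_pos hj
    obtain ⟨iH, pH⟩ := integrable_val_step (γ := γ) (μ := μ) hH (j := j) z (j - 1)
    obtain ⟨iA, pA⟩ := integrable_val_step (γ := γ) (μ := μ) hA (j := j) z (j - 1)
    obtain ⟨iB, pB⟩ := integrable_val_step (γ := γ) (μ := μ) hB (j := j) z (j - 1)
    have key : ∫ y, exp (m * val γ μ H j (put z (j - 1) y)) ∂γ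
        ≤ exp (m * c) * ((∫ y, exp (m * val γ μ A j (put z (j - 1) y)) ∂γ)
          + ∫ y, exp (m * val γ μ B j (put z (j - 1) y)) ∂γ) := by
      rw [← integral_add iA iB, ← integral_const_mul]
      refine integral_mono iH ((iA.add iB).const_mul _) fun y => ?_
      show _ ≤ exp (m * c) * (exp (m * val γ μ A j (put z (j - 1) y))
        + exp (m * val γ μ B j (put z (j - 1) y)))
      refine (exp_le_exp.2 (mul_le_mul_of_nonneg_left (ih (put z (j - 1) y)) hm0.le)).trans ?_
      rw [mul_add, exp_add, mul_comm (exp _)]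
      refine mul_le_mul_of_nonneg_left ?_ (exp_pos _).le
      rcases max_choice (val γ μ A j (put z (j - 1) y)) (val γ μ B j (put z (j - 1) y)) with e | e <;>
        rw [e] <;> first
          | exact le_add_of_nonneg_right (exp_pos _).le
          | exact le_add_of_nonneg_left (exp_pos _).le
    have hk1 : (1 : ℝ) / m ≤ (k : ℝ) + 1 := by
      rw [hm, lev, one_div_div]
      exact div_le_self (by positivity) (by exact_mod_cast hj)
    have hstep : log (∫ y, exp (m * val γ μ H j (put z (j - 1) y)) ∂γ)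
        ≤ m * (max (val γ μ A (j - 1) z) (val γ μ B (j - 1) z)) + m * c + log 2 := by
      rw [log_le_iff_le_exp pH, exp_add, exp_add, exp_log (by norm_num : (0 : ℝ) < 2)]
      refine key.trans ?_
      have eA : ∫ y, exp (m * val γ μ A j (put z (j - 1) y)) ∂γ
          ≤ exp (m * max (val γ μ A (j - 1) z) (val γ μ B (j - 1) z)) := by
        refine le_trans (le_of_eq ?_)
          (exp_le_exp.2 (mul_le_mul_of_nonneg_left (le_max_left _ _) hm0.le))
        rw [val_step hj hjk, ← hm, mul_div_cancel₀ _ hm0.ne', exp_log pA]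
      have eB : ∫ y, exp (m * val γ μ B j (put z (j - 1) y)) ∂γ
          ≤ exp (m * max (val γ μ A (j - 1) z) (val γ μ B (j - 1) z)) := by
        refine le_trans (le_of_eq ?_)
          (exp_le_exp.2 (mul_le_mul_of_nonneg_left (le_max_right _ _) hm0.le))
        rw [val_step hj hjk, ← hm, mul_div_cancel₀ _ hm0.ne', exp_log pB]
      nlinarith [exp_pos (m * c)]
    rw [val_step hj hjk z H, ← hm, div_le_iff₀ hm0]
    have hl : log 2 ≤ m * (((k : ℝ) + 1) * log 2) := by
      rw [← mul_assoc]
      refine le_mul_of_one_le_left (log_nonneg one_le_two) ?_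
      rw [div_le_iff₀ hm0] at hk1
      linarith
    have hkj : ((k - (j - 1) : ℕ) : ℝ) = ((k - j : ℕ) : ℝ) + 1 := by
      rw [show k - (j - 1) = k - j + 1 by omega]; push_cast; ring
    rw [hkj]
    refine hstep.trans ?_
    simp only [c]
    nlinarith [hl]

section LeafBounds

variable {n M k : ℕ} {f : ℝ → ℝ} {L : ℝ} (S : Leaf n) (hu : ∀ x, sdot (S.fld x) (S.fld x) = 1)
  (hm : Measurable f) (hL : ∀ u, |f u| ≤ L) {N : ℝ} (hN : 0 < N) (σ β : ℕ → ℝ)

include hu hm hL hN

/-- A deviation of one field energy costs two values at shifted amplitudes. -/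
theorem dev_cnd_le (g : Fin M → Fin n → ℝ) (a : Fin k) {h : ℝ} (hh : 0 < h) (c : ℝ) :
    cnd (gn n) S.μ (ham S f N σ β g) (devObs S N c a) 0 (fun _ _ => 0)
      ≤ max (cval S f N (setAmp σ a (σ ((a : ℕ) + 1) + h)) β g a - cval S f N σ β g a - h * c)
          (cval S f N (setAmp σ a (σ ((a : ℕ) + 1) - h)) β g a - cval S f N σ β g a + h * c) / h
        + ((k : ℝ) + 1) ^ 2 / (N * h) := by
  set s := σ ((a : ℕ) + 1)
  set H := ham (k := k) S f N σ β g with hHdef
  have hH : LinB (wn n) H := ham_linB S hm hL N σ β g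
  have hNs : N * (√N)⁻¹ = √N := by rw [← div_eq_mul_inv, div_sqrt]
  set p := N / 2 * ((s + h) ^ 2 - s ^ 2) - N * h * c with hp
  set q := N / 2 * ((s - h) ^ 2 - s ^ 2) + N * h * c with hq
  set Hp := ham (k := k) S f N (setAmp σ a (s + h)) β g
  set Hq := ham (k := k) S f N (setAmp σ a (s - h)) β g
  have hHp : LinB (wn n) Hp := ham_linB S hm hL N _ β g
  have hHq : LinB (wn n) Hq := ham_linB S hm hL N _ β g
  set T := fun z x => max (Hp z x + p) (Hq z x + q)
  have hT : LinB (wn n) T := linB_max (linB_add_const hHp p) (linB_add_const hHq q)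
  have hd : ∀ z x, T z x - H z x = N * h * devObs S N c a z x := fun z x => by
    simp only [T, Hp, Hq, ham_setAmp S f N σ β g a, hu, hHdef, devObs]
    rw [abs_eq_max_neg, mul_max_of_nonneg _ _ (by positivity : 0 ≤ N * h), ← max_sub_sub_right]
    congr 1
    · linear_combination (-h * fieldDot S a z x) * hNs
    · linear_combination (h * fieldDot S a z x) * hNs
  have h1 := cnd_exp_le (γ := gn n) (μ := S.μ) hH hT 0 fun _ _ => 0
  simp only [hd, cnd_const_mul] at h1
  have h2 := nest_le_max (γ := gn n) (μ := S.μ) hT (linB_add_const hHp p) (linB_add_const hHq q)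
    (fun z x => by
      rcases max_choice (Hp z x + p) (Hq z x + q) with e | e <;> simp only [T, e] <;> first
        | exact le_add_of_nonneg_right (exp_pos _).le
        | exact le_add_of_nonneg_left (exp_pos _).le) 0 fun _ _ => 0
  rw [val_add_const hHp, val_add_const hHq, Nat.sub_zero] at h2
  set E := cnd (gn n) S.μ H (devObs S N c a) 0 fun _ _ => 0
  have hlog : (1 + (k : ℝ) * ((k : ℝ) + 1)) * log 2 ≤ ((k : ℝ) + 1) ^ 2 := by
    have hk : (0 : ℝ) ≤ k := Nat.cast_nonneg k
    nlinarith [log_two_lt_d9, log_nonneg (one_le_two (α := ℝ))]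
  have eT : max (val (gn n) S.μ Hp 0 (fun _ _ => 0) + p) (val (gn n) S.μ Hq 0 (fun _ _ => 0) + q)
      - val (gn n) S.μ H 0 (fun _ _ => 0)
      = N * max (cval S f N (setAmp σ a (s + h)) β g a - cval S f N σ β g a - h * c)
          (cval S f N (setAmp σ a (s - h)) β g a - cval S f N σ β g a + h * c) := by
    rw [mul_max_of_nonneg _ _ hN.le, ← max_sub_sub_right]
    simp only [cval, setAmp_self, Hp, Hq, hHdef, hp, hq, s]
    congr 1 <;> field_simp <;> ring
  rw [← sub_le_iff_le_add, le_div_iff₀ hh, sub_mul, sub_le_iff_le_add]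
  refine le_of_mul_le_mul_left ?_ hN
  have e3 : N * (((k : ℝ) + 1) ^ 2 / (N * h) * h) = ((k : ℝ) + 1) ^ 2 := by field_simp
  rw [mul_add, e3]
  linarith

/-- The error against an arbitrary path at fixed couplings. -/
theorem pair_err {η : ℝ} (hη : 0 < η) (hσ : ∀ l : Fin k, η ≤ σ ((l : ℕ) + 1))
    (g : Fin M → Fin n → ℝ) {q : ℕ → ℝ} (hp : IsPath k q) :
    mass k * ∑ j ∈ Icc 0 k, cnd (gn n) S.μ (ham (k := k) S f N σ β g)
        (fun z _ => pairCnd (gn n) S.μ (ham S f N σ β g)
          (fun _ x _ y => |sdot (S.fld x) (S.fld y) - q j|) j z) 0 (fun _ _ => 0)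
      ≤ 8 / √((k : ℝ) + 1) + 3 / 2 * √((k : ℝ) + 1) * ((k : ℝ) + 1) / (η * √N)
        + 2 / η * ∑ j : Fin k, cnd (gn n) S.μ (ham (k := k) S f N σ β g)
            (devObs S N (σ ((j : ℕ) + 1) * (1 - tail k q ((j : ℕ) + 1))) j) 0 (fun _ _ => 0) := by
  set H := ham (k := k) S f N σ β g with hHdef
  have hH : LinB (wn n) H := ham_linB S hm hL N σ β g
  set r := √((k : ℝ) + 1) with hr
  have hr0 : 0 < r := Real.sqrt_pos.2 (by positivity)
  have hr1 : 1 ≤ r := Real.one_le_sqrt.2 (by linarith [show (0 : ℝ) ≤ k from Nat.cast_nonneg k])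
  have hrr : r * r = (k : ℝ) + 1 := Real.mul_self_sqrt (by positivity)
  set D := fun j => cnd (gn n) S.μ H (devAt S N σ (tail k q) k j) 0 fun _ _ => 0
  set e := fun j => cnd (gn n) S.μ H (fun z _ => pairCnd (gn n) S.μ H
    (fun _ x _ y => |sdot (S.fld x) (S.fld y) - q j|) j z) 0 fun _ _ => 0
  set m := fun l => cnd (gn n) S.μ H (fun z _ => mu2 S H l z) 0 fun _ _ => 0
  have hsum_eq : ∑ j : Fin k, cnd (gn n) S.μ H
      (devObs S N (σ ((j : ℕ) + 1) * (1 - tail k q ((j : ℕ) + 1))) j) 0 (fun _ _ => 0)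
      = ∑ j ∈ range k, D j := by
    rw [← Fin.sum_univ_eq_sum_range]
    exact sum_congr rfl fun j _ => by simp only [D, devAt, dif_pos j.2, Fin.eta]
  rw [hsum_eq]
  have hDn : ∀ j, 0 ≤ D j := fun j => cnd_nonneg (fun z x => devAt_nonneg S N σ _ j z x) 0 _
  have hψ : ∀ c : ℝ, Measurable fun p : S.X × S.X => |sdot (S.fld p.1) (S.fld p.2) - c| := fun c =>
    continuous_abs.measurable.comp ((meas_dot S).sub_const c)
  have hbd : ∀ (c : ℝ) x y, |(|sdot (S.fld x) (S.fld y) - c|)| ≤ 1 + |c| := fun c x y =>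
    (abs_abs _).trans_le ((abs_sub _ _).trans (by linarith [abs_dot_le S hu x y]))
  set cN := (3 * r / 2) * (((k : ℝ) + 1) / (η * √N)) + 1 / (2 * r)
  have hc0 : 0 ≤ cN := by positivity
  have hk1 : (0 : ℝ) ≤ ((k : ℝ) + 1) / η := by positivity
  have hb : ∀ j ∈ range k, e j ≤ (3 * r / 2 + 1) * (m (j + 1) - m j) + cN + (q (j + 1) - q j)
      + ((k : ℝ) + 1) / η * (D j + D (j + 1)) := fun j hj => by
    rw [mem_range] at hj
    have t1 : Tame (wn n) fun z (_ : S.X) =>
        cnd (gn n) S.μ H (fun z _ => mu2 S H (j + 1) z) j z := cnd_tame hH (tame_mu2 S hH _) j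
    have t2 := fun i => cnd_tame (μ := S.μ) hH (tame_devAt (k := k) S N σ (tail k q) i) j
    set c := cN + (q (j + 1) - q j) with hc
    have h := cnd_mono (μ := S.μ) hH
      (tame_pairCnd S hH (ψ := fun x y => |sdot (S.fld x) (S.fld y) - q j|) (hψ _) (hbd _) j)
      ((((t1.sub (tame_mu2 S hH j)).const_mul _).add (tame_const_fun S c)).add
        (((t2 j).add (t2 (j + 1))).const_mul _))
      (fun z _ => level_err S hu hm hL hN σ β hη hσ g hr0 q hj (hp.2.1 j hj) z) 0 fun _ _ => 0
    refine h.trans (le_of_eq ?_)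
    rw [cnd_add hH (((t1.sub (tame_mu2 S hH j)).const_mul _).add (tame_const_fun S c))
        (((t2 j).add (t2 (j + 1))).const_mul _),
      cnd_add hH ((t1.sub (tame_mu2 S hH j)).const_mul _) (tame_const_fun S c), cnd_const hH,
      cnd_const_mul, cnd_const_mul, cnd_sub hH t1 (tame_mu2 S hH j), cnd_add hH (t2 j) (t2 (j + 1)),
      cnd_tower hH (Nat.zero_le j), cnd_tower hH (Nat.zero_le j), cnd_tower hH (Nat.zero_le j), hc]
    simp only [m, D]
    ring
  have hlast : e k ≤ 2 := by
    refine (le_abs_self _).trans ((abs_root_pair_le hH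
      (ψ := fun x y => |sdot (S.fld x) (S.fld y) - q k|) (hψ _) (hbd _) k _).trans ?_)
    obtain ⟨h0, h1⟩ := path_mem hp (le_refl k)
    rw [abs_of_nonneg h0]
    linarith
  have hm1 : ∀ l, 0 ≤ m l ∧ m l ≤ 1 := fun l => by
    refine ⟨cnd_nonneg (fun z _ => sum_nonneg fun i _ => sq_nonneg _) 0 _, ?_⟩
    exact (cnd_mono hH (tame_mu2 S hH l) (tame_const_fun S 1) (fun z _ => mu2_le_one S hu hH l z) 0 _).trans
      (le_of_eq (cnd_const hH 1 0 _))
  have hsum : ∑ j ∈ Icc 0 k, e j ≤ 4 + 3 * r / 2 + (k : ℝ) * cN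
      + 2 * (((k : ℝ) + 1) / η) * ∑ j ∈ range k, D j := by
    rw [show Icc 0 k = insert k (range k) from Finset.ext fun l => by
      simp only [mem_insert, mem_range, mem_Icc]; omega, sum_insert (by simp)]
    refine (add_le_add hlast (sum_le_sum hb)).trans ?_
    rw [sum_add_distrib, sum_add_distrib, sum_add_distrib, ← mul_sum, sum_range_sub, sum_range_sub,
      sum_const, card_range, nsmul_eq_mul, ← mul_sum, sum_add_distrib]
    have h1 : (3 * r / 2 + 1) * (m k - m 0) ≤ (3 * r / 2 + 1) * 1 :=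
      mul_le_mul_of_nonneg_left (by linarith [(hm1 k).2, (hm1 0).1]) (by positivity)
    have h2 : ∑ j ∈ range k, D (j + 1) ≤ ∑ j ∈ range k, D j := by
      have ha := sum_range_succ' D k
      have hb' := sum_range_succ D k
      have hFk : D k = 0 := by
        simp only [D, devAt, dif_neg (lt_irrefl k)]
        exact cnd_const hH 0 0 _
      linarith [hDn 0]
    have h3 := mul_le_mul_of_nonneg_left h2 hk1
    rw [hp.1]
    linarith [hp.2.2]
  refine (mul_le_mul_of_nonneg_left hsum mass_pos.le).trans ?_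
  have hmass : mass k = 1 / (r * r) := by rw [mass, hrr]
  have h1 : mass k * (k : ℝ) * cN ≤ cN :=
    mul_le_of_le_one_left hc0 (by rw [mass, one_div_mul_eq_div, div_le_one (by positivity)]; linarith)
  have h3 : mass k * (2 * (((k : ℝ) + 1) / η)) = 2 / η := by unfold mass; field_simp
  have h4 : mass k * (4 + 3 * r / 2) + 1 / (2 * r) ≤ 8 / r := by
    rw [hmass]
    field_simp
    nlinarith
  have h5 : 3 / 2 * r * ((k : ℝ) + 1) / (η * √N) = (3 * r / 2) * (((k : ℝ) + 1) / (η * √N)) := by ring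
  rw [h5]
  have hcN : cN = (3 * r / 2) * (((k : ℝ) + 1) / (η * √N)) + 1 / (2 * r) := rfl
  rw [mul_add, mul_add, ← mul_assoc (mass k) (k : ℝ) cN,
    ← mul_assoc (mass k) (2 * (((k : ℝ) + 1) / η)), h3]
  linarith

end LeafBounds

end Vale.Agent.P146.Sup
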