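import Vale.Agent.P146.Sup.Pins
import Vale.Agent.P146.Sup.SyncLeaf
import Vale.Agent.P157.Rsb.Reg
import Vale.Agent.P150.Guerra

/-!
# P146, superconcentration: cavity systems as perturbed leaf systems

At fixed couplings a cavity system is a perturbed system on a leaf space whose fields are the old
spins; the path of the base is the mean of the paths at fixed couplings.
-/

open MeasureTheory ProbabilityTheory Real Finset
open Vale.Agent.P157.Rsb Vale.Agent.P157.Rsb.Lf
open Vale.Agent.P157 (cubeLaw coin patterns)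
open Vale.Agent.P150 (spin stdPi Edge abs_spin spin_mul_self)

namespace Vale.Agent.P146.Sup

instance syncCavLaw_isProb (m : ℕ) : IsProbabilityMeasure (cavLaw m) := by
  unfold cavLaw; infer_instance

variable {m k : ℕ}

/-- The field vector of the old spins. -/
noncomputable def cavFld (x : CavX m) (i : Fin m) : ℝ := spin (x.1 i) / √m

/-- The auxiliary coordinate. -/
noncomputable def cavAux (side : Bool) (x : CavX m) : ℝ := if side then spin x.2 else 1

theorem measurable_cavFld : Measurable (cavFld (m := m)) := measurable_of_countable _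

/-- The leaf space at fixed couplings. -/
noncomputable def cavLeaf (m : ℕ) (side : Bool) (A : CavE m → CavX m → ℝ) (d : ℝ) (g : CavE m → ℝ) :
    Leaf m where
  X := CavX m
  μ := cavLaw m
  pat _ _ := 0
  fld := cavFld
  aux := cavAux side
  det x := ∑ e, g e * A e x + d
  pat_meas := measurable_const
  fld_meas := measurable_cavFld
  aux_meas := measurable_of_countable _
  det_meas := measurable_of_countable _
  bdd := by
    refine ⟨1 + ∑ x : CavX m, |∑ e, g e * A e x + d|, fun x => ?_⟩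
    have h : |∑ e, g e * A e x + d| ≤ ∑ x : CavX m, |∑ e, g e * A e x + d| :=
      single_le_sum (f := fun x : CavX m => |∑ e, g e * A e x + d|) (fun _ _ => abs_nonneg _) (mem_univ x)
    have h0 := (abs_nonneg (∑ e, g e * A e x + d)).trans h
    generalize (∑ x : CavX m, |∑ e, g e * A e x + d|) = T at h h0 ⊢
    refine ⟨fun i => ?_, fun i => ?_, ?_, by linarith⟩
    · simp; linarith
    · have h1 : 1 ≤ √(m : ℝ) := Real.one_le_sqrt.2 (by exact_mod_cast i.pos)
      rw [cavFld, abs_div, abs_spin, abs_of_pos (by linarith : (0 : ℝ) < √(m : ℝ)),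
        div_le_iff₀ (by linarith)]
      nlinarith
    · unfold cavAux
      split_ifs <;> simp [abs_spin] <;> linarith

theorem cavLeaf_unit (hm : 1 ≤ m) (side : Bool) (A : CavE m → CavX m → ℝ) (d : ℝ) (g : CavE m → ℝ)
    (x : CavX m) :
    sdot ((cavLeaf m side A d g).fld x) ((cavLeaf m side A d g).fld x) = 1 := by
  have h : (0 : ℝ) < m := by exact_mod_cast hm
  simp only [sdot, cavLeaf, cavFld, div_mul_div_comm, spin_mul_self, Real.mul_self_sqrt h.le, sum_const,
    card_univ, Fintype.card_fin, nsmul_eq_mul]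
  field_simp

theorem ov_eq (x y : CavX m) : ov x y = sdot (cavFld x) (cavFld y) := by
  simp only [ov, sdot, cavFld, div_mul_div_comm, Real.mul_self_sqrt (Nat.cast_nonneg m), sum_div]

theorem abs_ov_le_one (hm : 1 ≤ m) (x y : CavX m) : |ov x y| ≤ 1 := by
  rw [ov_eq]
  exact abs_dot_le (cavLeaf m true (fun _ _ => 0) 0 (fun _ => 0))
    (cavLeaf_unit hm true (fun _ _ => 0) 0 fun _ => 0) x y

/-- No patterns. -/
def noPat (m : ℕ) : Fin 0 → Fin m → ℝ := fun a => a.elim0

theorem integral_noPat (F : (Fin 0 → Fin m → ℝ) → ℝ) : ∫ g, F g ∂patterns 0 m = F (noPat m) := by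
  have : IsProbabilityMeasure (patterns 0 m) := by unfold patterns; infer_instance
  exact (integral_congr_ae (g := fun _ => F (noPat m))
    (ae_of_all _ fun g => congrArg F (Subsingleton.elim g (noPat m)))).trans (by simp)

/-- A system of the shape of a cavity system. -/
structure Shape (S : GSys (CavE m) (FieldIdx m) (CavX m) k) (σ : ℕ → ℝ) (side : Bool) (τ : ℕ → ℝ)
    (d : ℝ) : Prop where
  fields : ∀ a i x, S.B a (.inl i) x = σ ((a : ℕ) + 1) * spin (x.1 i)
  extra : ∀ a x, S.B a (.inr ()) x = τ ((a : ℕ) + 1) * cavAux side x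
  det : ∀ x, S.H x = -(pertSq k σ) / 2 * m + d

variable {S : GSys (CavE m) (FieldIdx m) (CavX m) k} {σ τ : ℕ → ℝ} {side : Bool} {d : ℝ}

theorem Shape.ham_eq (h : Shape S σ side τ d) (hm : 1 ≤ m) (g : CavE m → ℝ) :
    S.ham g = ham (cavLeaf m side S.A d g) (fun _ => 0) m σ τ (noPat m) := by
  funext z x
  have hs : (√(m : ℝ)) ≠ 0 := (Real.sqrt_pos.2 (by exact_mod_cast hm)).ne'
  have hu := cavLeaf_unit hm side S.A d g x
  have e0 : ∀ a : Fin k, ∑ i, z a i * S.B a i x
      = σ ((a : ℕ) + 1) * √m * sdot (fun i => z a (.inl i)) (cavFld x)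
        + τ ((a : ℕ) + 1) * z a (.inr ()) * cavAux side x := fun a => by
    rw [Fintype.sum_sum_type, Fintype.sum_unique (fun u : Unit => z a (.inr u) * S.B a (.inr u) x),
      show (default : Unit) = () from rfl, h.extra]
    simp only [h.fields, sdot, cavFld, mul_sum]
    congr 1
    · exact sum_congr rfl fun i _ => by field_simp
    · ring
  simp only [GSys.ham, ham, hu, linZ, e0, h.det, pertSq]
  simp only [cavLeaf, univ_eq_empty, sum_empty, zero_add]
  ring

theorem measurable_cavHam (S : GSys (CavE m) (FieldIdx m) (CavX m) k) :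
    Measurable fun p : ((CavE m → ℝ) × (Fin k → FieldIdx m → ℝ)) × CavX m => S.ham p.1.1 p.1.2 p.2 := by
  have hA : ∀ e, Measurable fun x : CavX m => S.A e x := fun e => measurable_of_countable _
  have hB : ∀ a i, Measurable fun x : CavX m => S.B a i x := fun a i => measurable_of_countable _
  have hH : Measurable fun x : CavX m => S.H x := measurable_of_countable _
  simp only [GSys.ham, linZ]
  fun_prop

theorem Shape.linB (h : Shape S σ side τ d) (hm : 1 ≤ m) (g : CavE m → ℝ) :
    LinB (wn m) (S.ham g) := by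
  rw [h.ham_eq hm]
  exact ham_linB (cavLeaf m side S.A d g) (L := 0) measurable_const (fun _ => by simp) m σ τ (noPat m)

/-- A root mean of a bounded observable of two configurations is integrable in the couplings. -/
theorem Shape.integrable_pair (h : Shape S σ side τ d) (hm : 1 ≤ m) (j : ℕ) {ψ : CavX m → CavX m → ℝ}
    {B : ℝ} (hψ : ∀ x y, |ψ x y| ≤ B) :
    Integrable (fun g => cnd (gn m) (cavLaw m) (S.ham g)
      (fun z _ => pairCnd (gn m) (cavLaw m) (S.ham g) (fun _ x _ y => ψ x y) j z) 0 fun _ _ => 0)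
      (stdPi (CavE m)) := by
  have hψm : Measurable (Function.uncurry ψ) := measurable_of_countable _
  refine Integrable.of_bound (measurable_root_pair (γ := gn m) (μ := cavLaw m) (H := S.ham)
    (Ψ := fun _ x y => ψ x y) (measurable_cavHam S) (hψm.comp measurable_snd) j _).aestronglyMeasurable B
    (ae_of_all _ fun g => (Real.norm_eq_abs _).trans_le ?_)
  exact abs_root_pair_le (h.linB hm g) hψm hψ j _

/-! ### the cavity systems and their base -/

/-- The coefficients of the extra field. -/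
noncomputable def tauOf (β : ℝ) (side : Bool) (r : ℕ → ℝ) (θ : ℝ) (l : ℕ) : ℝ :=
  sin θ * (if side then β * √(r l - r (l - 1)) else β / √2 * √(r l ^ 2 - r (l - 1) ^ 2))

theorem shape_base (β : ℝ) (σ : ℕ → ℝ) :
    Shape (baseSys β m k σ) σ true (fun _ => 0) 0 :=
  ⟨fun _ _ _ => rfl, fun _ _ => by simp [baseSys], fun _ => by simp [baseSys]⟩

theorem shape_cav (β : ℝ) (σ : ℕ → ℝ) (side : Bool) (r : ℕ → ℝ) (θ : ℝ) :
    Shape (cavSys β m k σ side r θ) σ side (tauOf β side r θ)
      (sin θ ^ 2 * if side then β ^ 2 / 2 * (1 - r k) else β ^ 2 / 4 * (1 - r k ^ 2)) := by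
  refine ⟨fun a i x => ?_, fun a x => ?_, fun x => ?_⟩
  · simp [cavSys, GSys.path, baseSys, randPart, detPart]
  · cases side <;> simp [cavSys, GSys.path, baseSys, randPart, detPart, tauOf, cavAux] <;> ring
  · simp [cavSys, GSys.path, baseSys, randPart, detPart]

/-- The path of the base at fixed couplings. -/
noncomputable def qAt (β : ℝ) (m k : ℕ) (σ : ℕ → ℝ) (g : CavE m → ℝ) : ℕ → ℝ :=
  qOf (cavLeaf m true (baseSys β m k σ).A 0 g) (fun _ => 0) 0 k m σ (fun _ => 0)

theorem isPath_qAt (β : ℝ) (hm : 1 ≤ m) (σ : ℕ → ℝ) (g : CavE m → ℝ) :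
    IsPath k (qAt β m k σ g) :=
  isPath_qOf _ (cavLeaf_unit hm _ _ _ g) (L := 0) measurable_const (fun _ => by simp) _ σ _

theorem qAt_eq (β : ℝ) (hm : 1 ≤ m) (σ : ℕ → ℝ) (g : CavE m → ℝ) {j : ℕ} (hj : j ≠ 0) :
    qAt β m k σ g j = cnd (gn m) (cavLaw m) ((baseSys β m k σ).ham g)
      (fun z _ => pairCnd (gn m) (cavLaw m) ((baseSys β m k σ).ham g) (fun _ x _ y => ov x y) j z) 0
        fun _ _ => 0 := by
  rw [qAt, qOf, if_neg hj, gibPair, gib, integral_noPat, ← (shape_base β σ).ham_eq hm g]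
  simp only [ov_eq]
  rfl

theorem integrable_qAt (β : ℝ) (hm : 1 ≤ m) (σ : ℕ → ℝ) (j : ℕ) :
    Integrable (fun g => qAt β m k σ g j) (stdPi (CavE m)) := by
  rcases eq_or_ne j 0 with rfl | hj
  · simp [qAt, qOf]
  · simp only [qAt_eq β hm σ _ hj]
    exact (shape_base β σ).integrable_pair hm j (abs_ov_le_one hm)

theorem baseQ_eq (β : ℝ) (hm : 1 ≤ m) (σ : ℕ → ℝ) (j : ℕ) :
    baseQ β m k σ j = ∫ g, qAt β m k σ g j ∂stdPi (CavE m) := by
  rcases eq_or_ne j 0 with rfl | hj
  · simp [baseQ, qAt, qOf]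
  · simp only [baseQ, if_neg hj, gpair, qAt_eq β hm σ _ hj]

theorem isPath_baseQ (β : ℝ) (hm : 1 ≤ m) (σ : ℕ → ℝ) : IsPath k (baseQ β m k σ) := by
  refine ⟨by simp [baseQ], fun j hj => ?_, ?_⟩
  · rw [baseQ_eq β hm, baseQ_eq β hm]
    exact integral_mono (integrable_qAt β hm σ j) (integrable_qAt β hm σ (j + 1))
      fun g => (isPath_qAt β hm σ g).2.1 j hj
  · rw [baseQ_eq β hm]
    exact (integral_mono (integrable_qAt β hm σ k) (integrable_const (1 : ℝ))
      fun g => (isPath_qAt β hm σ g).2.2).trans (le_of_eq (by simp))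

/-- The mean energy of the level `a + 1` in the base. -/
noncomputable def pbar (β : ℝ) (m : ℕ) (σ : ℕ → ℝ) (a : Fin k) : ℝ :=
  σ ((a : ℕ) + 1) * (1 - Vale.Agent.P157.Rsb.tail k (baseQ β m k σ) ((a : ℕ) + 1))

/-- The mean energy at fixed couplings. -/
noncomputable def pAt (β : ℝ) (m : ℕ) (σ : ℕ → ℝ) (a : Fin k) (g : CavE m → ℝ) : ℝ :=
  eMean (cavLeaf m true (baseSys β m k σ).A 0 g) (fun _ => 0) m σ (fun _ => 0) (noPat m) a

theorem pAt_eq (β : ℝ) (hm : 1 ≤ m) (σ : ℕ → ℝ) (a : Fin k) (g : CavE m → ℝ) :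
    pAt β m σ a g = σ ((a : ℕ) + 1) * (1 - Vale.Agent.P157.Rsb.tail k (qAt β m k σ g) ((a : ℕ) + 1)) := by
  have h := eMean_avg (M := 0) (cavLeaf m true (baseSys β m k σ).A 0 g) (f := fun _ => 0)
    (cavLeaf_unit hm _ _ _ g) (L := 0) measurable_const (fun _ => by simp)
    (show (0 : ℝ) < m by exact_mod_cast hm) σ (fun _ => 0) a
  rw [integral_noPat] at h
  exact h

theorem integrable_pAt (β : ℝ) (hm : 1 ≤ m) (σ : ℕ → ℝ) (a : Fin k) :
    Integrable (pAt β m σ a) (stdPi (CavE m)) := by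
  simp only [funext (pAt_eq β hm σ a), Vale.Agent.P157.Rsb.tail]
  exact ((integrable_const _).sub
    ((integrable_finsetSum _ fun l _ => integrable_qAt β hm σ l).const_mul _)).const_mul _

theorem integral_pAt (β : ℝ) (hm : 1 ≤ m) (σ : ℕ → ℝ) (a : Fin k) :
    ∫ g, pAt β m σ a g ∂stdPi (CavE m) = pbar β m σ a := by
  have hi := ((integrable_finsetSum (Icc ((a : ℕ) + 1) k) fun l _ =>
    integrable_qAt (k := k) β hm σ l).const_mul (mass k))
  simp only [funext (pAt_eq β hm σ a), pbar, Vale.Agent.P157.Rsb.tail, baseQ_eq β hm]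
  rw [integral_const_mul, integral_sub (integrable_const _) hi, integral_const, probReal_univ, one_smul,
    integral_const_mul, integral_finsetSum _ fun l _ => integrable_qAt β hm σ l]

theorem abs_pbar_le (β : ℝ) (hm : 1 ≤ m) (σ : ℕ → ℝ) (a : Fin k) :
    |pbar β m σ a| ≤ |σ ((a : ℕ) + 1)| := by
  obtain ⟨h0, h1⟩ := tail_mem (isPath_baseQ (k := k) β hm σ) (show 1 ≤ (a : ℕ) + 1 by omega)
  rw [pbar, abs_mul]
  exact mul_le_of_le_one_right (abs_nonneg _) (abs_le.2 ⟨by linarith, by linarith⟩)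

end Vale.Agent.P146.Sup
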