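import Vale.Agent.P146.Sup.SyncShift

/-!
# P146, superconcentration: the overlap error of a cavity system

The error is bounded by increments of the mean field energy of the base in each amplitude, through
convexity of the values and their closeness to the mean value of the base.
-/

open MeasureTheory ProbabilityTheory Real Finset
open Vale.Agent.P157.Rsb Vale.Agent.P157.Rsb.Lf
open Vale.Agent.P150 (stdPi)

namespace Vale.Agent.P146.Sup

variable {m k : ℕ}

/-- The mean value of the base, without the compensation of one amplitude. -/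
noncomputable def vBase (β : ℝ) (m : ℕ) (σ : ℕ → ℝ) (a : Fin k) : ℝ :=
  gval (baseSys β m k σ) (cavLaw m) / m + σ ((a : ℕ) + 1) ^ 2 / 2

theorem vBase_tangent (β : ℝ) (hm : 1 ≤ m) (σ : ℕ → ℝ) (a : Fin k) (s t : ℝ) :
    vBase β m (setAmp σ a s) a + (t - s) * pbar β m (setAmp σ a s) a ≤ vBase β m (setAmp σ a t) a := by
  have hm0 : (0 : ℝ) < m := by exact_mod_cast hm
  have hA : ∀ e (x : CavX m),
      |(baseSys β m k σ).A e x| ≤ |β| / √((m : ℝ) + 1) := fun e x => by
    rcases e with e | e
    · exact abs_coef_le β _ _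
    · simp only [baseSys, Sum.elim_inr, abs_zero]
      positivity
  have hi : ∀ u, Integrable (vAt (baseSys β m k (setAmp σ a u))) (stdPi (CavE m)) := fun u =>
    (((shape_base (m := m) (k := k) β (setAmp σ a u)).coordLip hm fun e x => hA e x).memLp 1).integrable
      one_le_two
  have hg : ∀ g, vAt (baseSys β m k (setAmp σ a s)) g / m + s ^ 2 / 2
      + (t - s) * pAt β m (setAmp σ a s) a g ≤ vAt (baseSys β m k (setAmp σ a t)) g / m + t ^ 2 / 2 :=
    fun g => by
      have h := cval_tangent (cavLeaf m true (baseSys β m k σ).A 0 g) (f := fun _ => 0)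
        (cavLeaf_unit hm _ _ _ g) (L := 0) measurable_const (fun _ => by simp) hm0 σ (fun _ => 0) a
        (noPat m) s t
      simp only [cval, setAmp_self] at h
      simp only [vAt, (shape_base β _).ham_eq hm g]
      exact h
  have ip := (integrable_pAt β hm (setAmp σ a s) a).const_mul (t - s)
  have is : Integrable (fun g => vAt (baseSys β m k (setAmp σ a s)) g / m + s ^ 2 / 2) (stdPi (CavE m)) :=
    ((hi s).div_const (m : ℝ)).add (integrable_const (s ^ 2 / 2))
  have h := integral_mono (is.add ip) (((hi t).div_const (m : ℝ)).add (integrable_const (t ^ 2 / 2))) hg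
  simp only [Pi.add_apply] at h
  rw [integral_add is ip, integral_add ((hi s).div_const _) (integrable_const _),
    integral_add ((hi t).div_const _) (integrable_const _), integral_const_mul,
    integral_pAt β hm, integral_const, integral_const, integral_div, integral_div, probReal_univ,
    one_smul, one_smul] at h
  simp only [vBase, setAmp_self, gval_eq_vAt]
  exact h

theorem pbar_mono (β : ℝ) (hm : 1 ≤ m) (σ : ℕ → ℝ) (a : Fin k) :
    Monotone fun s => pbar β m (setAmp σ a s) a := fun s t hst => by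
  have h1 := vBase_tangent β hm σ a s t
  have h2 := vBase_tangent β hm σ a t s
  rcases eq_or_lt_of_le hst with rfl | h
  · exact le_rfl
  · exact le_of_mul_le_mul_left (show (t - s) * pbar β m (setAmp σ a s) a
      ≤ (t - s) * pbar β m (setAmp σ a t) a by linarith) (by linarith)

/-- The increment of the mean energy over an amplitude window of half-width `h`. -/
noncomputable def pInc (β : ℝ) (m : ℕ) (σ : ℕ → ℝ) (a : Fin k) (h : ℝ) : ℝ :=
  pbar β m (setAmp σ a (σ ((a : ℕ) + 1) + h)) a - pbar β m (setAmp σ a (σ ((a : ℕ) + 1) - h)) a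

/-- The overlap error through the increments of the mean energy. -/
theorem cavErr_le (hI : InterpStmt) (β : ℝ) (hm : 1 ≤ m) (σ : ℕ → ℝ) {η : ℝ} (hη : 0 < η)
    (hσ : ∀ l : Fin k, η ≤ σ ((l : ℕ) + 1)) {h : ℝ} (hh : 0 < h) (side : Bool) (θ : ℝ) :
    cavErr β m k σ side (baseQ β m k σ) θ
      ≤ 8 / √((k : ℝ) + 1) + 3 / 2 * √((k : ℝ) + 1) * ((k : ℝ) + 1) / (η * √m)
        + 2 / η * ∑ a : Fin k, (((k : ℝ) + 1) ^ 2 / (m * h) + pInc β m σ a h
            + 3 * (15 * β ^ 2 + 1) / (√m * h)) := by
  set r := baseQ β m k σ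
  have hr : IsPath k r := isPath_baseQ β hm σ
  have hm0 : (0 : ℝ) < m := by exact_mod_cast hm
  set P : ℕ → (CavE m → ℝ) → ℝ := fun j g =>
    cnd (gn m) (cavLaw m) ((cavSys β m k σ side r θ).ham g)
      (fun z _ => pairCnd (gn m) (cavLaw m) ((cavSys β m k σ side r θ).ham g)
        (fun _ x _ y => |ov x y - r j|) j z) 0 fun _ _ => 0
  have hS := fun σ' => shape_cav (m := m) (k := k) β σ' side r θ
  have hPi : ∀ j ∈ Icc 0 k, Integrable (P j) (stdPi (CavE m)) := fun j hj => by
    refine (hS σ).integrable_pair hm j (B := 2) fun x y => ?_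
    obtain ⟨h0, h1⟩ := path_mem hr (mem_Icc.1 hj).2
    rw [abs_abs]
    exact (abs_sub _ _).trans (by rw [abs_of_nonneg h0]; linarith [abs_ov_le_one hm x y])
  -- the deviation of the values at shifted amplitudes
  set Δ : Fin k → ℝ → (CavE m → ℝ) → ℝ := fun a t g =>
    |vAt (cavSys β m k (setAmp σ a t) side r θ) g - gval (baseSys β m k (setAmp σ a t)) (cavLaw m)| / m
  have hΔ : ∀ a t, Integrable (Δ a t) (stdPi (CavE m)) ∧
      ∫ g, Δ a t g ∂stdPi (CavE m) ≤ (15 * β ^ 2 + 1) / √m := fun a t => by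
    obtain ⟨hi, hb⟩ := value_dist hI β hm (setAmp σ a t) side hr θ
    refine ⟨((hi.sub (integrable_const _)).abs).div_const _, ?_⟩
    rw [integral_div]
    refine (div_le_div_of_nonneg_right hb hm0.le).trans (le_of_eq ?_)
    rw [mul_div_assoc, Real.sqrt_div_self, ← div_eq_mul_inv]
  set R : Fin k → (CavE m → ℝ) → ℝ := fun a g => ((k : ℝ) + 1) ^ 2 / (m * h) + pInc β m σ a h
    + (Δ a (σ ((a : ℕ) + 1) + h) g + Δ a (σ ((a : ℕ) + 1)) g + Δ a (σ ((a : ℕ) + 1) - h) g) / h
  have hRi : ∀ a, Integrable (R a) (stdPi (CavE m)) := fun a =>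
    (integrable_const _).add ((((hΔ a _).1.add (hΔ a _).1).add (hΔ a _).1).div_const _)
  have hR : ∀ a, ∫ g, R a g ∂stdPi (CavE m) ≤ ((k : ℝ) + 1) ^ 2 / (m * h) + pInc β m σ a h
      + 3 * (15 * β ^ 2 + 1) / (√m * h) := fun a => by
    have i3 : Integrable (fun g => Δ a (σ ((a : ℕ) + 1) + h) g + Δ a (σ ((a : ℕ) + 1)) g
        + Δ a (σ ((a : ℕ) + 1) - h) g) (stdPi (CavE m)) := ((hΔ a _).1.add (hΔ a _).1).add (hΔ a _).1
    have i2 : Integrable (fun g => Δ a (σ ((a : ℕ) + 1) + h) g + Δ a (σ ((a : ℕ) + 1)) g)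
        (stdPi (CavE m)) := (hΔ a _).1.add (hΔ a _).1
    simp only [R]
    rw [integral_add (integrable_const _) (i3.div_const _), integral_const, probReal_univ, one_smul,
      integral_div, integral_add i2 (hΔ a _).1,
      integral_add (hΔ a _).1 (hΔ a _).1, ← div_div (3 * (15 * β ^ 2 + 1))]
    gcongr
    rw [mul_div_assoc]
    linarith [(hΔ a (σ ((a : ℕ) + 1) + h)).2, (hΔ a (σ ((a : ℕ) + 1))).2,
      (hΔ a (σ ((a : ℕ) + 1) - h)).2]
  have hpt : ∀ g, mass k * ∑ j ∈ Icc 0 k, P j g
      ≤ 8 / √((k : ℝ) + 1) + 3 / 2 * √((k : ℝ) + 1) * ((k : ℝ) + 1) / (η * √m)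
        + 2 / η * ∑ a, R a g := fun g => by
    have hu := cavLeaf_unit hm side (cavSys β m k σ side r θ).A
      (sin θ ^ 2 * if side then β ^ 2 / 2 * (1 - r k) else β ^ 2 / 4 * (1 - r k ^ 2)) g
    set S := cavLeaf m side (cavSys β m k σ side r θ).A
      (sin θ ^ 2 * if side then β ^ 2 / 2 * (1 - r k) else β ^ 2 / 4 * (1 - r k ^ 2)) g
    have hp := pair_err S hu (f := fun _ => 0) (L := 0) measurable_const (fun _ => by simp) hm0 σ
      (tauOf β side r θ) hη hσ (noPat m) hr
    refine le_trans (le_of_eq ?_) (hp.trans (add_le_add le_rfl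
      (mul_le_mul_of_nonneg_left (sum_le_sum fun a _ => ?_) (show (0 : ℝ) ≤ 2 / η by positivity))))
    · simp only [P, (hS σ).ham_eq hm g, ov_eq]
      rfl
    · refine (dev_cnd_le S hu (f := fun _ => 0) (L := 0) measurable_const (fun _ => by simp) hm0 σ (tauOf β side r θ) (noPat m) a
        hh (σ ((a : ℕ) + 1) * (1 - Vale.Agent.P157.Rsb.tail k r ((a : ℕ) + 1)))).trans ?_
      set s := σ ((a : ℕ) + 1)
      have hup : setAmp σ a s = σ := Function.update_eq_self _ _
      have hcv : ∀ u, cval S (fun _ => 0) m (setAmp σ a u) (tauOf β side r θ) (noPat m) a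
          = vAt (cavSys β m k (setAmp σ a u) side r θ) g / m + u ^ 2 / 2 := fun u => by
        simp only [cval, setAmp_self, vAt, (hS _).ham_eq hm g]
        rfl
      have hdev : ∀ u, |cval S (fun _ => 0) m (setAmp σ a u) (tauOf β side r θ) (noPat m) a
          - vBase β m (setAmp σ a u) a| = Δ a u g := fun u => by
        simp only [hcv, vBase, setAmp_self, Δ]
        rw [add_sub_add_right_eq_sub, ← sub_div, abs_div, abs_of_pos hm0]
      have u1 := abs_le.1 (hdev (s + h)).le
      have u2 := abs_le.1 (hdev s).le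
      have u3 := abs_le.1 (hdev (s - h)).le
      have w1 := vBase_tangent β hm σ a (s + h) s
      have w2 := vBase_tangent β hm σ a (s - h) s
      have m1 := pbar_mono β hm σ a (show s ≤ s + h by linarith)
      have m2 := pbar_mono β hm σ a (show s - h ≤ s by linarith)
      have hc : σ ((a : ℕ) + 1) * (1 - Vale.Agent.P157.Rsb.tail k r ((a : ℕ) + 1))
          = pbar β m (setAmp σ a s) a := by rw [hup]; rfl
      have n0 : ∀ u, 0 ≤ Δ a u g := fun u => by simp only [Δ]; positivity
      have n1 := n0 (s + h)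
      have n2 := n0 s
      have n3 := n0 (s - h)
      rw [hup] at u2
      simp only [pInc, R] at m1 m2 ⊢
      rw [hc]
      simp only [hup] at w1 w2 m1 m2 ⊢
      rw [show ((k : ℝ) + 1) ^ 2 / (↑m * h) + (pbar β m (setAmp σ a (s + h)) a
          - pbar β m (setAmp σ a (s - h)) a) + (Δ a (s + h) g + Δ a s g + Δ a (s - h) g) / h
        = (h * (pbar β m (setAmp σ a (s + h)) a - pbar β m (setAmp σ a (s - h)) a)
            + (Δ a (s + h) g + Δ a s g + Δ a (s - h) g)) / h + ((k : ℝ) + 1) ^ 2 / (↑m * h) by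
        field_simp; ring]
      refine add_le_add (div_le_div_of_nonneg_right (max_le ?_ ?_) hh.le) le_rfl <;> nlinarith
  have hsum : Integrable (fun g => ∑ a, R a g) (stdPi (CavE m)) := integrable_finsetSum _ fun a _ => hRi a
  have h1 := integral_mono ((integrable_finsetSum _ hPi).const_mul (mass k))
    ((integrable_const _).add (hsum.const_mul _)) hpt
  simp only [Pi.add_apply] at h1
  rw [integral_const_mul, integral_finsetSum _ hPi, integral_add (integrable_const _) (hsum.const_mul _),
    integral_const, probReal_univ, one_smul, integral_const_mul, integral_finsetSum _ fun a _ => hRi a] at h1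
  exact h1.trans (add_le_add le_rfl (mul_le_mul_of_nonneg_left (sum_le_sum fun a _ => hR a) (by positivity)))

end Vale.Agent.P146.Sup
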