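import Vale.Agent.P146.Sup.SyncBridge
import Vale.Agent.P161.Variance

/-!
# P146, superconcentration: the value of a cavity system is near the mean value of its base

The value is coordinatewise Lipschitz in the couplings and its mean moves by a bounded amount
between the base and a cavity system.
-/

open MeasureTheory ProbabilityTheory Real Finset
open Vale.Agent.P157.Rsb Vale.Agent.P157.Rsb.Lf
open Vale.Agent.P150 (spin stdPi Edge abs_spin)

namespace Vale.Agent.P146.Sup

variable {m k : ℕ} {S : GSys (CavE m) (FieldIdx m) (CavX m) k} {σ τ : ℕ → ℝ} {side : Bool} {d : ℝ}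

/-- The value at fixed couplings. -/
noncomputable def vAt (S : GSys (CavE m) (FieldIdx m) (CavX m) k) (g : CavE m → ℝ) : ℝ :=
  val (gn m) (cavLaw m) (S.ham g) 0 fun _ _ => 0

theorem gval_eq_vAt (S : GSys (CavE m) (FieldIdx m) (CavX m) k) :
    gval S (cavLaw m) = ∫ g, vAt S g ∂stdPi (CavE m) := rfl

theorem Shape.coordLip (h : Shape S σ side τ d) (hm : 1 ≤ m) {L : ℝ} (hA : ∀ e x, |S.A e x| ≤ L) :
    P161.IsCoordLip (fun _ => L) (vAt S) := fun g g' => by
  refine val_close (h.linB hm g') (h.linB hm g) (fun z x => ?_) 0 _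
  rw [GSys.ham, GSys.ham, add_sub_add_right_eq_sub, add_sub_add_left_eq_sub, ← sum_sub_distrib]
  refine (abs_sum_le_sum_abs _ _).trans (sum_le_sum fun e _ => ?_)
  rw [← sub_mul, abs_mul, mul_comm]
  exact mul_le_mul_of_nonneg_right (hA e x) (abs_nonneg _)

theorem card_cavE_le (hm : 1 ≤ m) : (Fintype.card (CavE m) : ℝ) ≤ 3 * (m : ℝ) ^ 2 := by
  have h : Fintype.card (Edge m) ≤ m * m :=
    (Fintype.card_subtype_le _).trans (le_of_eq (by simp))
  have h2 : (Fintype.card (Edge m) : ℝ) ≤ (m : ℝ) * m := by exact_mod_cast h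
  have h3 : (1 : ℝ) ≤ m := by exact_mod_cast hm
  simp only [Fintype.card_sum, Fintype.card_fin, Nat.cast_add]
  nlinarith

theorem abs_coef_le (β : ℝ) (a b : Bool) :
    |β / √((m : ℝ) + 1) * (spin a * spin b)| ≤ |β| / √((m : ℝ) + 1) := by
  rw [abs_mul, abs_mul, abs_spin, abs_spin, abs_div, abs_of_nonneg (sqrt_nonneg _)]
  simp

theorem abs_cavA_le (β : ℝ) (hm : 1 ≤ m) (σ : ℕ → ℝ) (side : Bool) (r : ℕ → ℝ) (θ : ℝ)
    (e : CavE m) (x : CavX m) :
    |(cavSys β m k σ side r θ).A e x| ≤ |β| / √((m : ℝ) + 1) := by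
  have h1 : 1 ≤ √(m : ℝ) := Real.one_le_sqrt.2 (by exact_mod_cast hm)
  have hc : |cos θ| ≤ 1 := abs_cos_le_one θ
  have h0 : 0 ≤ |β| / √((m : ℝ) + 1) := by positivity
  rcases e with e | i | e
  · simpa [cavSys, GSys.path, baseSys, randPart, detPart] using abs_coef_le β _ _
  · simp only [cavSys, GSys.path, baseSys, randPart, detPart, Sum.elim_inr, Sum.elim_inl, zero_add,
      Pi.zero_apply, mul_zero, add_zero]
    split_ifs
    · rw [abs_mul]
      exact (mul_le_mul hc (abs_coef_le β _ _) (abs_nonneg _) zero_le_one).trans (le_of_eq (one_mul _))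
    · simpa using h0
  · simp only [cavSys, GSys.path, baseSys, randPart, detPart, Sum.elim_inr, zero_add, Pi.zero_apply,
      mul_zero, add_zero]
    split_ifs
    · simpa using h0
    · rw [abs_mul, abs_div, abs_of_nonneg (sqrt_nonneg (m : ℝ))]
      refine (mul_le_mul hc (div_le_self (abs_nonneg _) h1) (by positivity) zero_le_one).trans ?_
      rw [one_mul]
      exact abs_coef_le β _ _

/-- The value at fixed couplings is near its mean. -/
theorem Shape.concentration (h : Shape S σ side τ d) (hm : 1 ≤ m) {β : ℝ}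
    (hA : ∀ e x, |S.A e x| ≤ |β| / √((m : ℝ) + 1)) :
    ∫ g, |vAt S g - gval S (cavLaw m)| ∂stdPi (CavE m) ≤ (3 * β ^ 2 + 1 / 2) * √m := by
  set L := |β| / √((m : ℝ) + 1)
  set c := gval S (cavLaw m)
  have hLip : P161.IsCoordLip (fun _ : CavE m => L) fun g => vAt S g - c := fun g g' => by
    rw [sub_sub_sub_cancel_right]
    exact h.coordLip hm hA g g'
  have hμ : (stdPi (CavE m)) = P161.gaussPi (CavE m) 1 := rfl
  have hi : Integrable (vAt S) (stdPi (CavE m)) := by
    rw [hμ]
    exact ((h.coordLip hm hA).memLp 1).integrable one_le_two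
  have h0 : ∫ g, (vAt S g - c) ∂P161.gaussPi (CavE m) 1 = 0 := by
    rw [← hμ, integral_sub hi (integrable_const _), integral_const, probReal_univ, one_smul]
    exact sub_eq_zero.2 (gval_eq_vAt S).symm
  have hsq := P161.sq_le_of_mean_zero (fun _ => by positivity) 1 hLip h0
  rw [← hμ] at hsq
  have hm0 : (0 : ℝ) < m := by exact_mod_cast hm
  have hs : 0 < √(m : ℝ) := Real.sqrt_pos.2 hm0
  have hsum : 2 * ((1 : NNReal) : ℝ) * ∑ _e : CavE m, L ^ 2 ≤ 6 * β ^ 2 * m := by
    rw [sum_const, card_univ, nsmul_eq_mul, NNReal.coe_one, mul_one, div_pow, sq_abs,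
      Real.sq_sqrt (by positivity)]
    have hc := card_cavE_le hm
    have : β ^ 2 / ((m : ℝ) + 1) ≤ β ^ 2 / m := by gcongr; linarith
    calc 2 * ((Fintype.card (CavE m) : ℝ) * (β ^ 2 / ((m : ℝ) + 1)))
        ≤ 2 * ((3 * (m : ℝ) ^ 2) * (β ^ 2 / m)) := by gcongr
      _ = 6 * β ^ 2 * m := by field_simp; ring
  have hint : Integrable (fun g => vAt S g - c) (stdPi (CavE m)) := hi.sub (integrable_const _)
  have hint2 : Integrable (fun g => (vAt S g - c) ^ 2) (stdPi (CavE m)) := by
    rw [hμ]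
    exact (hLip.memLp 1).integrable_sq
  refine (integral_mono hint.abs ((hint2.const_mul ((√(m : ℝ))⁻¹ / 2)).add (integrable_const _))
    fun g => abs_le_half_sq (inv_pos.2 hs) (vAt S g - c)).trans ?_
  simp only [Pi.add_apply]
  rw [integral_add (hint2.const_mul _) (integrable_const _), integral_const_mul, integral_const,
    probReal_univ, one_smul]
  have h3 := mul_le_mul_of_nonneg_left (hsq.trans hsum) (by positivity : 0 ≤ (√(m : ℝ))⁻¹ / 2)
  have e1 : (√(m : ℝ))⁻¹ / 2 * (6 * β ^ 2 * m) = 3 * β ^ 2 * √m := by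
    field_simp
    rw [Real.sq_sqrt hm0.le]
    ring
  have e2 : 1 / (2 * (√(m : ℝ))⁻¹) = √m / 2 := by field_simp
  rw [e2]
  linarith

theorem Shape.abs_gcnd_le (h : Shape S σ side τ d) (hm : 1 ≤ m) {φ : CavX m → ℝ} {B : ℝ}
    (hφ : ∀ x, |φ x| ≤ B) : |gcnd S (cavLaw m) φ| ≤ B := by
  rw [gcnd, ← Real.norm_eq_abs]
  refine (norm_integral_le_of_norm_le_const (μ := stdPi (CavE m)) (C := B)
    (ae_of_all _ fun g => (Real.norm_eq_abs _).trans_le ?_)).trans (le_of_eq (by simp))
  exact cnd_abs_le (φ := fun (_ : Fin k → FieldIdx m → ℝ) x => φ x) (h.linB hm g)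
    ((measurable_of_countable φ).comp measurable_snd) (fun _ x => hφ x) 0 _

theorem Shape.abs_gpair_le (h : Shape S σ side τ d) (hm : 1 ≤ m) (j : ℕ)
    {ψ : CavX m → CavX m → ℝ} {B : ℝ} (hψ : ∀ x y, |ψ x y| ≤ B) :
    |gpair S (cavLaw m) j ψ| ≤ B := by
  rw [gpair, ← Real.norm_eq_abs]
  refine (norm_integral_le_of_norm_le_const (μ := stdPi (CavE m)) (C := B)
    (ae_of_all _ fun g => (Real.norm_eq_abs _).trans_le ?_)).trans (le_of_eq (by simp))
  exact abs_root_pair_le (h.linB hm g) (measurable_of_countable _) hψ j _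

/-- The empty system. -/
noncomputable def nilSys (m k : ℕ) : GSys (CavE m) (FieldIdx m) (CavX m) k := ⟨0, 0, 0⟩

/-- The one-site terms present at `θ`. -/
noncomputable def shiftEnd (β : ℝ) (m k : ℕ) (side : Bool) (r : ℕ → ℝ) (θ : ℝ) :
    GSys (CavE m) (FieldIdx m) (CavX m) k where
  A e x := cos θ * (randPart β m k side).A e x
  B a i x := sin θ * (detPart β m k side r).B a i x
  H x := sin θ ^ 2 * (detPart β m k side r).H x

theorem orth_shift (β : ℝ) (σ : ℕ → ℝ) (side : Bool) (r : ℕ → ℝ) (θ : ℝ) :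
    Orth (baseSys β m k σ) (nilSys m k) (shiftEnd β m k side r θ) := by
  refine ⟨fun e x y => ?_, fun a i x y => ?_⟩
  · rcases e with e | e <;> simp [baseSys, nilSys, shiftEnd, randPart]
  · rcases i with i | i <;> simp [baseSys, nilSys, shiftEnd, detPart]

theorem shape_shiftPath (β : ℝ) (σ : ℕ → ℝ) (side : Bool) (r : ℕ → ℝ) (θ φ : ℝ) :
    Shape ((baseSys β m k σ).path (nilSys m k) (shiftEnd β m k side r θ) φ) σ side
      (fun l => sin φ * tauOf β side r θ l)
      (sin φ ^ 2 * (sin θ ^ 2 * if side then β ^ 2 / 2 * (1 - r k) else β ^ 2 / 4 * (1 - r k ^ 2))) := by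
  refine ⟨fun a i x => ?_, fun a x => ?_, fun x => ?_⟩
  · simp [GSys.path, baseSys, nilSys, shiftEnd, detPart]
  · cases side <;> simp [GSys.path, baseSys, nilSys, shiftEnd, detPart, tauOf, cavAux] <;> ring
  · simp [GSys.path, baseSys, nilSys, shiftEnd, detPart]

theorem kern_nil (j : ℕ) (x y : CavX m) : kern (nilSys m k) j x y = 0 := by
  simp [kern, nilSys, lowKer]

theorem abs_kern_shift_le (β : ℝ) (hm : 1 ≤ m) (side : Bool) {r : ℕ → ℝ} (hr : IsPath k r) (θ : ℝ)
    (j : ℕ) (x y : CavX m) : |kern (shiftEnd β m k side r θ) j x y| ≤ 2 * β ^ 2 := by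
  have hm0 : (0 : ℝ) < m := by exact_mod_cast hm
  have hm1 : (0 : ℝ) < (m : ℝ) + 1 := by positivity
  have hc : cos θ ^ 2 ≤ 1 := cos_sq_le_one θ
  have hs : sin θ ^ 2 ≤ 1 := sin_sq_le_one θ
  have hcard : (Fintype.card (Edge m) : ℝ) ≤ (m : ℝ) * m := by
    exact_mod_cast (Fintype.card_subtype_le _).trans (le_of_eq (by simp))
  have hrand : |∑ e, (shiftEnd β m k side r θ).A e x * (shiftEnd β m k side r θ).A e y| ≤ β ^ 2 := by
    have hsum : ∀ (c : ℝ) (a b : Bool) (a' b' : Bool),
        |cos θ * (c * (spin a * spin b)) * (cos θ * (c * (spin a' * spin b')))| ≤ c ^ 2 := fun c a b a' b' => by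
      simp only [abs_mul, abs_spin, mul_one]
      rw [show |cos θ| * |c| * (|cos θ| * |c|) = cos θ ^ 2 * c ^ 2 by rw [← sq_abs (cos θ), ← sq_abs c]; ring]
      exact mul_le_of_le_one_left (sq_nonneg _) hc
    cases side
    · simp only [shiftEnd, randPart, Fintype.sum_sum_type, Sum.elim_inl, Sum.elim_inr, Pi.zero_apply,
        Bool.false_eq_true, if_false, mul_zero, sum_const_zero, zero_add]
      refine (abs_sum_le_sum_abs _ _).trans ((sum_le_sum fun e _ => ?_).trans (?_ :
        ∑ _e : Edge m, (β / √((m : ℝ) + 1) / √m) ^ 2 ≤ β ^ 2))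
      · simp only [div_eq_mul_inv, mul_right_comm (β * (√((m : ℝ) + 1))⁻¹) _ (√(m : ℝ))⁻¹]
        exact hsum _ _ _ _ _
      · rw [sum_const, card_univ, nsmul_eq_mul, div_pow, div_pow, Real.sq_sqrt hm1.le, Real.sq_sqrt hm0.le,
          div_div, ← mul_div_assoc, div_le_iff₀ (by positivity)]
        have := mul_le_mul_of_nonneg_right hcard (sq_nonneg β)
        nlinarith [mul_nonneg hm0.le (sq_nonneg β)]
    · simp only [shiftEnd, randPart, Fintype.sum_sum_type, Sum.elim_inl, Sum.elim_inr, Pi.zero_apply,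
        if_true, mul_zero, sum_const_zero, zero_add, add_zero]
      refine (abs_sum_le_sum_abs _ _).trans ((sum_le_sum fun e _ => hsum _ _ _ _ _).trans ?_)
      rw [sum_const, card_univ, Fintype.card_fin, nsmul_eq_mul, div_pow, Real.sq_sqrt hm1.le,
        ← mul_div_assoc, div_le_iff₀ hm1]
      nlinarith [sq_nonneg β]
  have hdet : |lowKer (shiftEnd β m k side r θ).B (shiftEnd β m k side r θ).B j x y| ≤ β ^ 2 := by
    set F : ℕ → ℝ := fun a => if side then β ^ 2 * r a else β ^ 2 / 2 * r a ^ 2 with hF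
    refine (abs_sum_le_sum_abs _ _).trans ((sum_le_sum fun a _ => ?_).trans (?_ :
      ∑ a : Fin k, (F ((a : ℕ) + 1) - F a) ≤ β ^ 2))
    · have hd : 0 ≤ r ((a : ℕ) + 1) - r a := sub_nonneg.2 (hr.2.1 a a.2)
      have hd2 : 0 ≤ r ((a : ℕ) + 1) ^ 2 - r a ^ 2 :=
        sub_nonneg.2 (pow_le_pow_left₀ (path_mem hr a.2.le).1 (hr.2.1 a a.2) 2)
      split_ifs
      · rw [Fintype.sum_sum_type]
        cases side
        · simp only [shiftEnd, detPart, Sum.elim_inl, Sum.elim_inr, Pi.zero_apply, mul_zero,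
            sum_const_zero, zero_add, Bool.false_eq_true, if_false, hF, Fintype.sum_unique, abs_mul,
            abs_of_nonneg (sqrt_nonneg _)]
          calc _ = sin θ ^ 2 * (β ^ 2 / 2 * (r ((a : ℕ) + 1) ^ 2 - r a ^ 2)) := by
                rw [← sq_abs (sin θ), abs_div, abs_of_nonneg (sqrt_nonneg 2)]
                field_simp
                rw [Real.sq_sqrt hd2, Real.sq_sqrt zero_le_two, sq_abs β]
                ring
            _ ≤ _ := by
                rw [← mul_sub]
                exact mul_le_of_le_one_left (by positivity) hs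
        · simp only [shiftEnd, detPart, Sum.elim_inl, Sum.elim_inr, Pi.zero_apply, mul_zero,
            sum_const_zero, zero_add, if_true, hF, Fintype.sum_unique, abs_mul, abs_spin, mul_one,
            abs_of_nonneg (sqrt_nonneg _)]
          calc _ = sin θ ^ 2 * (β ^ 2 * (r ((a : ℕ) + 1) - r a)) := by
                rw [← sq_abs (sin θ), ← sq_abs β]
                linear_combination (|sin θ| ^ 2 * |β| ^ 2) * Real.mul_self_sqrt hd
            _ ≤ _ := by
                rw [← mul_sub]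
                exact mul_le_of_le_one_left (by positivity) hs
      · rw [abs_zero]
        simp only [hF]
        cases side <;> simp only [Bool.false_eq_true, if_false, if_true] <;> rw [← mul_sub] <;> positivity
    · rw [Fin.sum_univ_eq_sum_range fun a => F (a + 1) - F a, sum_range_sub]
      obtain ⟨h0, h1⟩ := path_mem hr (le_refl k)
      simp only [hF, hr.1]
      cases side <;> simp <;> nlinarith [sq_nonneg β, mul_le_mul_of_nonneg_left h1 (sq_nonneg β),
        mul_le_mul_of_nonneg_left (pow_le_one₀ (n := 2) h0 h1) (sq_nonneg β)]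
  rw [kern]
  exact (abs_add_le _ _).trans (by linarith)

theorem abs_bracket_shift_le (β : ℝ) (hm : 1 ≤ m) (σ : ℕ → ℝ) (side : Bool) {r : ℕ → ℝ}
    (hr : IsPath k r) (θ φ : ℝ) :
    |bracket (cavLaw m) (baseSys β m k σ) (nilSys m k) (shiftEnd β m k side r θ) φ| ≤ 3 * β ^ 2 := by
  have hS := shape_shiftPath (m := m) (k := k) β σ side r θ φ
  obtain ⟨h0, h1⟩ := path_mem hr (le_refl k)
  have hH : ∀ x : CavX m, |(shiftEnd β m k side r θ).H x| ≤ β ^ 2 / 2 := fun x => by
    simp only [shiftEnd, detPart]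
    rw [abs_mul, abs_of_nonneg (sq_nonneg (sin θ))]
    refine (mul_le_of_le_one_left (abs_nonneg _) (sin_sq_le_one θ)).trans ?_
    have h2 : r k ^ 2 ≤ 1 := pow_le_one₀ h0 h1
    split_ifs <;> rw [abs_le] <;> constructor <;>
      nlinarith [sq_nonneg β, mul_nonneg (sq_nonneg β) (sub_nonneg.2 h1),
        mul_nonneg (sq_nonneg β) (sub_nonneg.2 h2), mul_nonneg (sq_nonneg β) h0]
  have g1 : |gcnd ((baseSys β m k σ).path (nilSys m k) (shiftEnd β m k side r θ) φ) (cavLaw m)
      fun x => (kern (shiftEnd β m k side r θ) k x x - kern (nilSys m k) k x x) / 2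
        + (shiftEnd β m k side r θ).H x - (nilSys m k).H x| ≤ 3 / 2 * β ^ 2 := by
    refine hS.abs_gcnd_le hm fun x => ?_
    rw [kern_nil, sub_zero, show (nilSys m k).H x = 0 from rfl, sub_zero]
    have a1 := abs_le.1 (abs_kern_shift_le β hm side hr θ k x x)
    have a2 := abs_le.1 (hH x)
    exact abs_le.2 ⟨by linarith, by linarith⟩
  have g2 : |∑ j ∈ Icc 0 k, gpair ((baseSys β m k σ).path (nilSys m k) (shiftEnd β m k side r θ) φ)
      (cavLaw m) j (fun x y => kern (shiftEnd β m k side r θ) j x y - kern (nilSys m k) j x y)|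
      ≤ ((k : ℝ) + 1) * (2 * β ^ 2) := by
    refine (abs_sum_le_sum_abs _ _).trans ((sum_le_card_nsmul _ _ (2 * β ^ 2) fun j _ =>
      hS.abs_gpair_le hm j fun x y => ?_).trans (le_of_eq ?_))
    · rw [kern_nil, sub_zero]
      exact abs_kern_shift_le β hm side hr θ j x y
    · rw [nsmul_eq_mul, Nat.card_Icc]
      push_cast
      ring
  have g3 := mul_le_mul_of_nonneg_left g2 (show 0 ≤ mass k / 2 by unfold mass; positivity)
  rw [show mass k / 2 * (((k : ℝ) + 1) * (2 * β ^ 2)) = β ^ 2 by unfold mass; field_simp] at g3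
  rw [bracket]
  refine (abs_sub _ _).trans ?_
  rw [abs_mul, abs_of_nonneg (show 0 ≤ mass k / 2 by unfold mass; positivity)]
  nlinarith [sq_nonneg β]

/-- The mean value moves by a bounded amount from the base to a cavity system. -/
theorem gval_shift (hI : InterpStmt) (β : ℝ) (hm : 1 ≤ m) (σ : ℕ → ℝ) (side : Bool) {r : ℕ → ℝ}
    (hr : IsPath k r) (θ : ℝ) :
    |gval (cavSys β m k σ side r θ) (cavLaw m) - gval (baseSys β m k σ) (cavLaw m)| ≤ 12 * β ^ 2 := by
  have hd := hI (CavE m) (FieldIdx m) (CavX m) (cavLaw m) k (baseSys β m k σ) (nilSys m k)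
    (shiftEnd β m k side r θ) (orth_shift β σ side r θ)
  have h := Convex.norm_image_sub_le_of_norm_hasDerivWithin_le (C := 6 * β ^ 2)
    (fun s _ => (hd s).hasDerivWithinAt) (fun s _ => by
      rw [Real.norm_eq_abs, abs_mul]
      have h2 : |2 * sin s * cos s| ≤ 2 := by
        rw [abs_mul, abs_mul, abs_two]
        nlinarith [abs_sin_le_one s, abs_cos_le_one s, abs_nonneg (sin s), abs_nonneg (cos s)]
      exact (mul_le_mul h2 (abs_bracket_shift_le β hm σ side hr θ s) (abs_nonneg _) (by norm_num)).trans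
        (le_of_eq (by ring))) convex_univ (Set.mem_univ 0) (Set.mem_univ (π / 2))
  have e1 : (baseSys β m k σ).path (nilSys m k) (shiftEnd β m k side r θ) (π / 2)
      = cavSys β m k σ side r θ := by
    simp [GSys.path, cavSys, baseSys, nilSys, shiftEnd, randPart, detPart]
  have e0 : (baseSys β m k σ).path (nilSys m k) (shiftEnd β m k side r θ) 0 = baseSys β m k σ := by
    simp [GSys.path, baseSys, nilSys]
  simp only [e1, e0, sub_zero, Real.norm_eq_abs] at h
  refine h.trans ?_
  rw [abs_of_pos (by positivity : 0 < π / 2)]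
  nlinarith [pi_le_four, sq_nonneg β]

/-- The value of a cavity system at fixed couplings against the mean value of the base. -/
theorem value_dist (hI : InterpStmt) (β : ℝ) (hm : 1 ≤ m) (σ : ℕ → ℝ) (side : Bool) {r : ℕ → ℝ}
    (hr : IsPath k r) (θ : ℝ) :
    Integrable (vAt (cavSys β m k σ side r θ)) (stdPi (CavE m)) ∧
    ∫ g, |vAt (cavSys β m k σ side r θ) g - gval (baseSys β m k σ) (cavLaw m)| ∂stdPi (CavE m)
      ≤ (15 * β ^ 2 + 1) * √m := by
  have hS := shape_cav (m := m) (k := k) β σ side r θ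
  have hA := abs_cavA_le (k := k) β hm σ side r θ
  have hi : Integrable (vAt (cavSys β m k σ side r θ)) (stdPi (CavE m)) :=
    ((hS.coordLip hm hA).memLp 1).integrable one_le_two
  refine ⟨hi, ?_⟩
  refine (integral_mono (hi.sub (integrable_const _)).abs
    ((hi.sub (integrable_const (gval (cavSys β m k σ side r θ) (cavLaw m)))).abs.add
      (integrable_const (|gval (cavSys β m k σ side r θ) (cavLaw m) - gval (baseSys β m k σ) (cavLaw m)|)))
    fun g => abs_sub_le _ _ _).trans ?_
  simp only [Pi.add_apply, Pi.sub_apply]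
  have hj : Integrable (fun g => |vAt (cavSys β m k σ side r θ) g
      - gval (cavSys β m k σ side r θ) (cavLaw m)|) (stdPi (CavE m)) :=
    (hi.sub (integrable_const _)).abs
  rw [integral_add hj (integrable_const _), integral_const, probReal_univ, one_smul]
  have h1 := hS.concentration hm hA
  have h2 := gval_shift hI β hm σ side hr θ
  have h3 : 1 ≤ √(m : ℝ) := Real.one_le_sqrt.2 (by exact_mod_cast hm)
  nlinarith [sq_nonneg β]

end Vale.Agent.P146.Sup
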