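import Vale.Agent.P146.Sup.Pins
import Vale.Agent.P146.Goe.Poincare
import Vale.Agent.P150.Conc
import Vale.Agent.P150.Guerra

/-!
# P146, superconcentration: the variance through the overlap of two correlated copies

The couplings are `√t a + √(1 - t) b`.  The mean over `b` has squared gradient the overlap of two
copies with common part `a`; given `a` the free energy is Lipschitz in `b`.
-/

open MeasureTheory ProbabilityTheory Real Finset
open Vale.Agent.P150 (Edge spin pairA press avg stdPi)

namespace Vale.Agent.P146.Sup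

variable {n : ℕ}

/-- The coefficient of every coupling. -/
noncomputable def cf (β : ℝ) (n : ℕ) : Edge n → ℝ := fun _ => β / √n

/-- The couplings with common part `a`. -/
noncomputable def mix (t : ℝ) (a b : Edge n → ℝ) : Edge n → ℝ := √t • a + √(1 - t) • b

theorem freeEnergy_eq (β : ℝ) (g : Edge n → ℝ) : freeEnergy n β g = press (pairA n) (cf β n) g := by
  unfold freeEnergy press P150.expo P150.energy cf pairA
  refine congrArg log (sum_congr rfl fun x _ => ?_)
  rw [mul_div_assoc', mul_sum, sum_div]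
  exact congrArg exp (sum_congr rfl fun e _ => by ring)

theorem avg_eq (β : ℝ) (g : Edge n → ℝ) (e : Edge n) :
    avg (pairA n) (cf β n) g e = ∑ x, P150.gibbs n β g x * pairA n x e := by
  have h : ∀ x, exp (β * P150.energy n g x) = exp (P150.expo (pairA n) (cf β n) g x) := fun x => by
    unfold P150.expo P150.energy cf pairA
    rw [mul_div_assoc', mul_sum, sum_div]
    exact congrArg exp (sum_congr rfl fun e _ => by ring)
  simp only [avg, P150.gibbs, h, sum_div]
  exact sum_congr rfl fun x _ => by ring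

theorem gibbs_nonneg (β : ℝ) (g : Edge n → ℝ) (x : Fin n → Bool) : 0 ≤ P150.gibbs n β g x :=
  div_nonneg (exp_pos _).le (sum_nonneg fun _ _ => (exp_pos _).le)

theorem sum_gibbs (β : ℝ) (g : Edge n → ℝ) : ∑ x, P150.gibbs n β g x = 1 := by
  simp only [P150.gibbs, ← sum_div]
  exact div_self (sum_pos (fun _ _ => exp_pos _) univ_nonempty).ne'

theorem continuous_gibbs (β : ℝ) (x : Fin n → Bool) : Continuous fun g => P150.gibbs n β g x := by
  unfold P150.gibbs P150.energy
  exact Continuous.div (by fun_prop) (by fun_prop) fun g => (sum_pos (fun _ _ => exp_pos _) univ_nonempty).ne'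

theorem continuous_avg (β : ℝ) (e : Edge n) : Continuous fun g => avg (pairA n) (cf β n) g e := by
  simp only [avg_eq]
  exact continuous_finsetSum _ fun x _ => (continuous_gibbs β x).mul continuous_const

theorem abs_avg (β : ℝ) (g : Edge n → ℝ) (e : Edge n) : |avg (pairA n) (cf β n) g e| ≤ 1 :=
  P150.abs_avg_le (P150.pairA_sq n) _ g e

theorem continuous_press (β : ℝ) : Continuous fun g : Edge n → ℝ => press (pairA n) (cf β n) g := by
  unfold press P150.expo
  exact Continuous.log (by fun_prop) fun g => (sum_pos (fun _ _ => exp_pos _) univ_nonempty).ne'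

theorem press_lip (β : ℝ) (g g' : Edge n → ℝ) :
    |press (pairA n) (cf β n) g - press (pairA n) (cf β n) g'| ≤ |β / √n| * ∑ e, |g e - g' e| :=
  P150.press_le_of_dist (P150.pairA_sq n) _ g g'

theorem mix_lip_right (β t : ℝ) (a b b' : Edge n → ℝ) :
    |press (pairA n) (cf β n) (mix t a b) - press (pairA n) (cf β n) (mix t a b')|
      ≤ |β / √n| * √(1 - t) * ∑ e, |b e - b' e| := by
  refine (press_lip β _ _).trans (le_of_eq ?_)
  rw [mul_assoc, mul_sum univ (fun e => |b e - b' e|) √(1 - t)]
  refine congrArg _ (sum_congr rfl fun e _ => ?_)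
  simp only [mix, Pi.add_apply, Pi.smul_apply, smul_eq_mul, add_sub_add_left_eq_sub, ← mul_sub, abs_mul,
    abs_of_nonneg (sqrt_nonneg _)]

theorem memLp_press_mix (β t : ℝ) (a : Edge n → ℝ) :
    MemLp (fun b => press (pairA n) (cf β n) (mix t a b)) 2 (stdPi (Edge n)) :=
  P150.memLp_lipschitz ((continuous_press β).comp (by unfold mix; fun_prop)).measurable (mix_lip_right β t a)

/-- The mean over the private part. -/
noncomputable def smooth (β t : ℝ) (a : Edge n → ℝ) : ℝ :=
  ∫ b, press (pairA n) (cf β n) (mix t a b) ∂stdPi (Edge n)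

/-- Its gradient. -/
noncomputable def smoothD (β t : ℝ) (a : Edge n → ℝ) (e : Edge n) : ℝ :=
  √t * (β / √n) * ∫ b, avg (pairA n) (cf β n) (mix t a b) e ∂stdPi (Edge n)

theorem integrable_avg_mix (β t : ℝ) (a : Edge n → ℝ) (e : Edge n) :
    Integrable (fun b => avg (pairA n) (cf β n) (mix t a b) e) (stdPi (Edge n)) :=
  Integrable.of_bound ((continuous_avg β e).comp (by unfold mix; fun_prop)).aestronglyMeasurable 1
    (ae_of_all _ fun b => by simpa using abs_avg β (mix t a b) e)

theorem continuous_smoothD (β t : ℝ) (e : Edge n) : Continuous fun a => smoothD β t a e := by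
  unfold smoothD
  refine continuous_const.mul (continuous_of_dominated (bound := fun _ => 1) (fun a => ?_)
    (fun a => ae_of_all _ fun b => by simpa using abs_avg β (mix t a b) e) (integrable_const _)
    (ae_of_all _ fun b => (continuous_avg β e).comp (by unfold mix; fun_prop)))
  exact ((continuous_avg β e).comp (by unfold mix; fun_prop)).aestronglyMeasurable

theorem grow_smoothD (β t : ℝ) (e : Edge n) : Goe.Grow fun a => smoothD β t a e := by
  refine ⟨(continuous_smoothD β t e).measurable, |√t * (β / √n)|, 0, abs_nonneg _, fun a => ?_⟩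
  simp only [smoothD]
  rw [abs_mul, pow_zero]
  refine mul_le_mul_of_nonneg_left ?_ (abs_nonneg _)
  simpa using norm_integral_le_of_norm_le_const (μ := stdPi (Edge n))
    (f := fun b => avg (pairA n) (cf β n) (mix t a b) e) (C := 1)
    (ae_of_all _ fun b => by simpa using abs_avg β (mix t a b) e)

theorem smooth_lip (β t : ℝ) (a a' : Edge n → ℝ) :
    |smooth β t a - smooth β t a'| ≤ |β / √n| * √t * ∑ e, |a e - a' e| := by
  unfold smooth
  rw [← integral_sub ((memLp_press_mix β t a).integrable one_le_two)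
    ((memLp_press_mix β t a').integrable one_le_two)]
  have h := norm_integral_le_of_norm_le_const (μ := stdPi (Edge n))
    (f := fun b => press (pairA n) (cf β n) (mix t a b) - press (pairA n) (cf β n) (mix t a' b))
    (C := |β / √n| * √t * ∑ e, |a e - a' e|) (ae_of_all _ fun b => by
      refine (press_lip β _ _).trans (le_of_eq ?_)
      rw [mul_assoc, mul_sum univ (fun e => |a e - a' e|) √t]
      refine congrArg _ (sum_congr rfl fun e _ => ?_)
      simp only [mix, Pi.add_apply, Pi.smul_apply, smul_eq_mul, add_sub_add_right_eq_sub, ← mul_sub,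
        abs_mul, abs_of_nonneg (sqrt_nonneg _)])
  simpa using h

theorem grow_smooth (β t : ℝ) : Goe.Grow (smooth (n := n) β t) := by
  refine ⟨?_, |smooth (n := n) β t 0| + |β / √n| * √t * Fintype.card (Edge n), 1, by positivity,
    fun a => ?_⟩
  · have h : StronglyMeasurable (Function.uncurry fun (a b : Edge n → ℝ) =>
        press (pairA n) (cf β n) (mix t a b)) :=
      ((continuous_press β).comp (by unfold mix; fun_prop :
        Continuous fun p : (Edge n → ℝ) × (Edge n → ℝ) => mix t p.1 p.2)).stronglyMeasurable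
    exact h.integral_prod_right.measurable
  have h := smooth_lip β t a 0
  have hs : ∑ e, |a e - (0 : Edge n → ℝ) e| ≤ Fintype.card (Edge n) * Goe.wt a := by
    simpa using sum_le_card_nsmul univ (fun e => |a e|) (Goe.wt a) fun e _ => Goe.abs_le_wt a e
  rw [pow_one, add_mul]
  have h1 := mul_le_mul_of_nonneg_left hs (by positivity : 0 ≤ |β / √n| * √t)
  nlinarith [abs_sub_abs_le_abs_sub (smooth β t a) (smooth (n := n) β t 0), Goe.one_le_wt a,
    abs_nonneg (smooth (n := n) β t 0)]

theorem hasGrad_smooth (β t : ℝ) : Goe.HasGrad (smooth (n := n) β t) (smoothD β t) := by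
  intro c c' u hc
  set x₀ := c u
  let L : (Fin n → Bool) → (Edge n → ℝ) →L[ℝ] ℝ := fun x =>
    ∑ e : Edge n, (√t * (β / √n) * pairA n x e) • ContinuousLinearMap.proj e
  have hL : ∀ x v, L x v = ∑ e, √t * (β / √n) * pairA n x e * v e := fun x v => by
    simp [L]
  let F' : (Edge n → ℝ) → (Edge n → ℝ) →L[ℝ] ℝ := fun b =>
    ∑ x, P150.gibbs n β (mix t x₀ b) x • L x
  have hexpo : ∀ x a b, P150.expo (pairA n) (cf β n) (mix t a b) x
      = L x a + P150.expo (pairA n) (cf β n) (√(1 - t) • b) x := fun x a b => by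
    rw [hL, P150.expo, P150.expo, ← sum_add_distrib]
    refine sum_congr rfl fun e _ => ?_
    simp only [mix, cf, Pi.add_apply, Pi.smul_apply, smul_eq_mul]; ring
  have hd : ∀ b, HasFDerivAt (fun a => press (pairA n) (cf β n) (mix t a b)) (F' b) x₀ := fun b => by
    have hpos : ∀ a, 0 < ∑ x, exp (P150.expo (pairA n) (cf β n) (mix t a b) x) := fun a =>
      sum_pos (fun _ _ => exp_pos _) univ_nonempty
    have he : ∀ x, HasFDerivAt (fun a => exp (P150.expo (pairA n) (cf β n) (mix t a b) x))
        (exp (P150.expo (pairA n) (cf β n) (mix t x₀ b) x) • L x) x₀ := fun x => by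
      simp only [hexpo]
      exact ((L x).hasFDerivAt.add_const _).exp
    have h := (HasFDerivAt.fun_sum (u := univ) fun x _ => he x).log (hpos x₀).ne'
    refine h.congr_fderiv ?_
    simp only [F', Finset.smul_sum, smul_smul]
    refine sum_congr rfl fun x _ => congrArg (· • L x) ?_
    have e : ∀ y, exp (β * P150.energy n (mix t x₀ b) y)
        = exp (P150.expo (pairA n) (cf β n) (mix t x₀ b) y) := fun y => by
      unfold P150.expo P150.energy cf pairA
      rw [mul_div_assoc', mul_sum, sum_div]
      exact congrArg exp (sum_congr rfl fun e _ => by ring)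
    simp only [P150.gibbs, e, inv_mul_eq_div]
  have hF'm : Continuous F' := continuous_finsetSum _ fun x _ =>
    ((continuous_gibbs β x).comp (by unfold mix; fun_prop)).smul continuous_const
  obtain ⟨hi, hder⟩ := hasFDerivAt_integral_of_dominated_loc_of_lip' (μ := stdPi (Edge n))
    (F := fun a b => press (pairA n) (cf β n) (mix t a b)) (F' := F') (x₀ := x₀)
    (bound := fun _ => |β / √n| * √t * Fintype.card (Edge n)) Filter.univ_mem
    (fun a _ => (memLp_press_mix β t a).1) ((memLp_press_mix β t x₀).integrable one_le_two)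
    hF'm.aestronglyMeasurable
    (ae_of_all _ fun b a _ => by
      refine (press_lip β _ _).trans ?_
      rw [mul_assoc |β / √n|, mul_assoc |β / √n|]
      refine mul_le_mul_of_nonneg_left ?_ (abs_nonneg _)
      refine (sum_le_sum (g := fun _ => √t * ‖a - x₀‖) fun e _ => ?_).trans (le_of_eq (by simp; ring))
      simp only [mix, Pi.add_apply, Pi.smul_apply, smul_eq_mul, add_sub_add_right_eq_sub, ← mul_sub,
        abs_mul, abs_of_nonneg (sqrt_nonneg _)]
      exact mul_le_mul_of_nonneg_left (norm_le_pi_norm (a - x₀) e) (sqrt_nonneg _))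
    (integrable_const _) (ae_of_all _ hd)
  have hcd : HasDerivAt c (c' u) u := hasDerivAt_pi.2 hc
  refine (hder.comp_hasDerivAt u hcd).congr_deriv ?_
  rw [ContinuousLinearMap.integral_apply hi]
  simp only [F', _root_.sum_apply, smul_apply, hL, smul_eq_mul, mul_sum]
  have e1 : ∀ b, ∑ x, ∑ e, P150.gibbs n β (mix t x₀ b) x * (√t * (β / √n) * pairA n x e * c' u e)
      = ∑ e, √t * (β / √n) * c' u e * avg (pairA n) (cf β n) (mix t x₀ b) e := fun b => by
    rw [sum_comm]
    refine sum_congr rfl fun e _ => ?_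
    rw [avg_eq, mul_sum]
    exact sum_congr rfl fun x _ => by ring
  simp only [e1]
  rw [integral_finsetSum _ fun e _ => (integrable_avg_mix β t x₀ e).const_mul _]
  refine sum_congr rfl fun e _ => ?_
  rw [integral_const_mul, smoothD]; ring

theorem sum_avg_mul_le (β : ℝ) (g g' : Edge n → ℝ) :
    ∑ e, avg (pairA n) (cf β n) g e * avg (pairA n) (cf β n) g' e
      ≤ (n : ℝ) ^ 2 / 2 * ∑ x, ∑ y, P150.gibbs n β g x * P150.gibbs n β g' y * ovr x y ^ 2 := by
  have h : ∀ x y : Fin n → Bool, 2 * ∑ e, pairA n x e * pairA n y e = ((n : ℝ) * ovr x y) ^ 2 - n := fun x y => by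
    have hs := P150.sum_edge (fun i j => spin (x i) * spin (y i) * (spin (x j) * spin (y j))) fun i j => by ring
    have e1 : (n : ℝ) * ovr x y = ∑ i, spin (x i) * spin (y i) := by
      rcases Nat.eq_zero_or_pos n with rfl | hn
      · simp
      rw [ovr, mul_div_cancel₀ _ (by exact_mod_cast hn.ne')]
    have e2 : ∀ a b : Bool, spin a * spin b * (spin a * spin b) = 1 := fun a b => by
      cases a <;> cases b <;> simp [spin]
    rw [e1, sq, sum_mul_sum]
    simp only [e2] at hs
    simp only [sum_const, card_univ, Fintype.card_fin, nsmul_eq_mul, mul_one] at hs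
    rw [← hs]
    exact congrArg _ (sum_congr rfl fun e _ => by simp only [pairA]; ring)
  simp only [avg_eq, sum_mul_sum]
  rw [sum_comm, mul_sum]
  refine sum_le_sum fun x _ => ?_
  rw [sum_comm, mul_sum]
  refine sum_le_sum fun y _ => ?_
  have e : ∑ e, P150.gibbs n β g x * pairA n x e * (P150.gibbs n β g' y * pairA n y e)
      = P150.gibbs n β g x * P150.gibbs n β g' y * ∑ e, pairA n x e * pairA n y e := by
    rw [mul_sum]; exact sum_congr rfl fun e _ => by ring
  rw [e, mul_left_comm]
  refine mul_le_mul_of_nonneg_left ?_ (mul_nonneg (gibbs_nonneg β g x) (gibbs_nonneg β g' y))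
  nlinarith [h x y, n.cast_nonneg (α := ℝ)]

/-- The weight of the squared overlap of two copies. -/
noncomputable def wtSq (β : ℝ) (g g' : Edge n → ℝ) : ℝ :=
  ∑ x, ∑ y, P150.gibbs n β g x * P150.gibbs n β g' y * ovr x y ^ 2

theorem continuous_wtSq (β : ℝ) :
    Continuous fun p : (Edge n → ℝ) × (Edge n → ℝ) => wtSq β p.1 p.2 :=
  continuous_finsetSum _ fun x _ => continuous_finsetSum _ fun y _ =>
    (((continuous_gibbs β x).comp continuous_fst).mul ((continuous_gibbs β y).comp continuous_snd)).mul
      continuous_const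

theorem abs_wtSq_le (β : ℝ) (hn : 1 ≤ n) (g g' : Edge n → ℝ) : |wtSq β g g'| ≤ 1 := by
  have h0 : ∀ x y, 0 ≤ P150.gibbs n β g x * P150.gibbs n β g' y * ovr x y ^ 2 := fun x y =>
    mul_nonneg (mul_nonneg (gibbs_nonneg β g x) (gibbs_nonneg β g' y)) (sq_nonneg _)
  rw [wtSq, abs_of_nonneg (sum_nonneg fun x _ => sum_nonneg fun y _ => h0 x y)]
  calc ∑ x, ∑ y, P150.gibbs n β g x * P150.gibbs n β g' y * ovr x y ^ 2
      ≤ ∑ x, ∑ y, P150.gibbs n β g x * P150.gibbs n β g' y := by
        refine sum_le_sum fun x _ => sum_le_sum fun y _ => mul_le_of_le_one_right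
          (mul_nonneg (gibbs_nonneg β g x) (gibbs_nonneg β g' y)) ((sq_le_one_iff_abs_le_one _).2 ?_)
        rw [ovr, abs_div, Nat.abs_cast, div_le_one (by exact_mod_cast hn : (0 : ℝ) < n)]
        refine (abs_sum_le_sum_abs _ _).trans (le_of_eq ?_)
        simp [abs_mul, P150.abs_spin]
    _ = 1 := by simp [← sum_mul_sum, sum_gibbs]

/-- The weight of the squared overlap of two copies with common part `z.1`. -/
noncomputable def wtMix (β t : ℝ) (z : (Edge n → ℝ) × ((Edge n → ℝ) × (Edge n → ℝ))) : ℝ :=
  wtSq β (mix t z.1 z.2.1) (mix t z.1 z.2.2)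

theorem continuous_mix (t : ℝ) :
    Continuous fun p : (Edge n → ℝ) × (Edge n → ℝ) => mix t p.1 p.2 := by
  unfold mix; fun_prop

theorem continuous_wtMix (β t : ℝ) : Continuous (wtMix (n := n) β t) := by
  have h1 : Continuous fun z : (Edge n → ℝ) × ((Edge n → ℝ) × (Edge n → ℝ)) => mix t z.1 z.2.1 :=
    (continuous_mix t).comp₂ continuous_fst (continuous_fst.comp continuous_snd)
  have h2 : Continuous fun z : (Edge n → ℝ) × ((Edge n → ℝ) × (Edge n → ℝ)) => mix t z.1 z.2.2 :=
    (continuous_mix t).comp₂ continuous_fst (continuous_snd.comp continuous_snd)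
  unfold wtMix wtSq
  exact continuous_finsetSum _ fun x _ => continuous_finsetSum _ fun y _ =>
    (((continuous_gibbs β x).comp h1).mul ((continuous_gibbs β y).comp h2)).mul continuous_const

theorem pairMean_eq (β t : ℝ) : pairMean β n t (fun u => u ^ 2)
    = ∫ z, wtMix β t z ∂(stdPi (Edge n)).prod ((stdPi (Edge n)).prod (stdPi (Edge n))) := by
  have h1 := measurePreserving_sumPiEquivProdPi fun _ : PairE n => P150.std
  have h2 := measurePreserving_sumPiEquivProdPi fun _ : Edge n ⊕ Edge n => P150.std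
  have hφ := ((MeasurePreserving.id (stdPi (Edge n))).prod h2).comp h1
  exact (hφ.integral_comp ((MeasurableEquiv.sumPiEquivProdPi _).trans
    (MeasurableEquiv.prodCongr (MeasurableEquiv.refl _) (MeasurableEquiv.sumPiEquivProdPi _))).measurableEmbedding
    (wtMix β t))

theorem sum_grad_le (β t : ℝ) (ht : 0 ≤ t) (hn : 1 ≤ n) :
    ∑ e, ∫ a, smoothD β t a e ^ 2 ∂stdPi (Edge n)
      ≤ t * β ^ 2 * n / 2 * pairMean β n t fun u => u ^ 2 := by
  set P := stdPi (Edge n)
  rw [pairMean_eq]
  have hc : ∀ (e : Edge n), Continuous fun z : (Edge n → ℝ) × ((Edge n → ℝ) × (Edge n → ℝ)) =>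
      avg (pairA n) (cf β n) (mix t z.1 z.2.1) e * avg (pairA n) (cf β n) (mix t z.1 z.2.2) e := fun e =>
    ((continuous_avg β e).comp (by unfold mix; fun_prop)).mul
      ((continuous_avg β e).comp (by unfold mix; fun_prop))
  have hb : ∀ e z, ‖avg (pairA n) (cf β n) (mix t (z : (Edge n → ℝ) × ((Edge n → ℝ) × (Edge n → ℝ))).1 z.2.1) e
      * avg (pairA n) (cf β n) (mix t z.1 z.2.2) e‖ ≤ 1 := fun e z => by
    rw [norm_eq_abs, abs_mul]
    exact mul_le_one₀ (abs_avg β _ e) (abs_nonneg _) (abs_avg β _ e)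
  have hi : ∀ e, Integrable (fun z : (Edge n → ℝ) × ((Edge n → ℝ) × (Edge n → ℝ)) =>
      avg (pairA n) (cf β n) (mix t z.1 z.2.1) e * avg (pairA n) (cf β n) (mix t z.1 z.2.2) e)
      (P.prod (P.prod P)) := fun e =>
    Integrable.of_bound (hc e).aestronglyMeasurable 1 (ae_of_all _ (hb e))
  have he : ∀ e, ∫ a, smoothD β t a e ^ 2 ∂P = t * (β ^ 2 / n) * ∫ z,
      avg (pairA n) (cf β n) (mix t z.1 z.2.1) e * avg (pairA n) (cf β n) (mix t z.1 z.2.2) e
        ∂P.prod (P.prod P) := fun e => by
    rw [integral_prod _ (hi e), ← integral_const_mul]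
    refine integral_congr_ae (ae_of_all _ fun a => ?_)
    simp only [smoothD]
    rw [integral_prod_mul (fun b => avg (pairA n) (cf β n) (mix t a b) e)
      (fun b => avg (pairA n) (cf β n) (mix t a b) e), mul_pow, mul_pow, div_pow, sq_sqrt ht,
      sq_sqrt (Nat.cast_nonneg n), ← sq]
  rw [sum_congr rfl fun e _ => he e, ← mul_sum, ← integral_finsetSum _ fun e _ => hi e]
  have hWi : Integrable (fun z => (n : ℝ) ^ 2 / 2 * wtMix β t z) (P.prod (P.prod P)) :=
    (Integrable.of_bound (continuous_wtMix β t).aestronglyMeasurable 1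
      (ae_of_all _ fun z => by simpa [wtMix] using abs_wtSq_le β hn (mix t z.1 z.2.1) (mix t z.1 z.2.2))).const_mul _
  refine (mul_le_mul_of_nonneg_left (integral_mono (integrable_finsetSum _ fun e _ => hi e) hWi
    fun z => sum_avg_mul_le β _ _) (by positivity)).trans (le_of_eq ?_)
  rw [integral_const_mul]
  have : (n : ℝ) ≠ 0 := by exact_mod_cast (by omega : n ≠ 0)
  simp only [P]
  field_simp

theorem varStmt : VarStmt := by
  intro β n t hn ht0 ht1
  set P := stdPi (Edge n)
  set f := fun g => press (pairA n) (cf β n) g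
  have hF : freeEnergy n β = f := funext (freeEnergy_eq β)
  have hfm : Measurable f := (continuous_press β).measurable
  set M := ∫ g, f g ∂P with hM
  have hvar : freeVar n β = ∫ g, (f g - M) ^ 2 ∂P := by
    rw [freeVar, hF]
    exact variance_eq_integral hfm.aemeasurable
  have hmp : MeasurePreserving (fun p : (Edge n → ℝ) × (Edge n → ℝ) => mix t p.1 p.2) (P.prod P) P :=
    measurePreserving_fst.comp (P166.measurePreserving_pair (√t) (√(1 - t))
      (by rw [sq_sqrt ht0, sq_sqrt (by linarith)]; ring))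
  have hL := P150.memLp_lipschitz hfm (press_lip β)
  have hi : Integrable (fun g => (f g - M) ^ 2) P := (hL.sub (memLp_const M)).integrable_sq
  have hi1 : Integrable f P := hL.integrable one_le_two
  have hMs : ∫ a, smooth β t a ∂P = M := by
    have h : Integrable (fun p : (Edge n → ℝ) × (Edge n → ℝ) => f (mix t p.1 p.2)) (P.prod P) :=
      hmp.integrable_comp_of_integrable hi1
    calc ∫ a, smooth β t a ∂P = ∫ p, f (mix t p.1 p.2) ∂P.prod P := by rw [integral_prod _ h]; rfl
      _ = ∫ g, f g ∂Measure.map (fun p => mix t p.1 p.2) (P.prod P) :=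
          (integral_map hmp.measurable.aemeasurable hfm.aestronglyMeasurable).symm
      _ = M := by rw [hmp.map_eq]
  have h2 : Integrable (fun p : (Edge n → ℝ) × (Edge n → ℝ) => (f (mix t p.1 p.2) - M) ^ 2) (P.prod P) :=
    hmp.integrable_comp_of_integrable hi
  have hcard : (Fintype.card (Edge n) : ℝ) ≤ (n : ℝ) ^ 2 := by
    have := Fintype.card_subtype_le fun p : Fin n × Fin n => p.1 < p.2
    simp only [Fintype.card_prod, Fintype.card_fin] at this
    rw [sq]; exact_mod_cast this
  have hin : ∀ a, ∫ b, (f (mix t a b) - M) ^ 2 ∂P ≤ β ^ 2 * n * (1 - t) + (smooth β t a - M) ^ 2 := fun a => by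
    rw [P150.sq_decomp (memLp_press_mix β t a) M]
    refine add_le_add ((P150.variance_lipschitz_le (hfm.comp (by unfold mix; fun_prop :
      Measurable fun b => mix t a b)) (mix_lip_right β t a)).trans ?_) le_rfl
    rw [mul_pow, sq_abs, sq_sqrt (by linarith), div_pow, sq_sqrt (Nat.cast_nonneg n)]
    calc (Fintype.card (Edge n) : ℝ) * (β ^ 2 / n * (1 - t)) ≤ (n : ℝ) ^ 2 * (β ^ 2 / n * (1 - t)) :=
          mul_le_mul_of_nonneg_right hcard (mul_nonneg (by positivity) (by linarith))
      _ = _ := by have : (n : ℝ) ≠ 0 := by exact_mod_cast (by omega : n ≠ 0)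
                  field_simp
  have hgr := Goe.var_le_grad (grow_smooth (n := n) β t) (grow_smoothD β t) (continuous_smoothD β t)
    (hasGrad_smooth β t)
  rw [hMs] at hgr
  have hs2 : Integrable (fun a => (smooth β t a - M) ^ 2) P :=
    (((grow_smooth β t).sub (Goe.grow_const M)).sq).integrable
  have key : freeVar n β ≤ β ^ 2 * n * (1 - t) + ∫ a, (smooth β t a - M) ^ 2 ∂P := by
    have e : ∫ g, (f g - M) ^ 2 ∂P = ∫ a, ∫ b, (f (mix t a b) - M) ^ 2 ∂P ∂P := by
      calc ∫ g, (f g - M) ^ 2 ∂P = ∫ g, (f g - M) ^ 2 ∂Measure.map (fun p => mix t p.1 p.2) (P.prod P) := by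
            rw [hmp.map_eq]
        _ = _ := by rw [integral_map hmp.measurable.aemeasurable
              ((hfm.sub_const M).pow_const 2).aestronglyMeasurable, integral_prod _ h2]
    rw [hvar, e]
    refine (integral_mono h2.integral_prod_left ((integrable_const _).add hs2) hin).trans (le_of_eq ?_)
    simp only [Pi.add_apply]
    rw [integral_add (integrable_const _) hs2]
    simp
  have hpm : 0 ≤ pairMean β n t fun u => u ^ 2 := integral_nonneg fun g => sum_nonneg fun x _ =>
    sum_nonneg fun y _ => mul_nonneg (mul_nonneg (gibbs_nonneg β _ x) (gibbs_nonneg β _ y)) (sq_nonneg _)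
  have h3 := (hgr.trans (mul_le_mul_of_nonneg_left (sum_grad_le β t ht0 hn) (by norm_num)))
  have h4 : t * β ^ 2 * n / 2 * pairMean β n t (fun u => u ^ 2)
      ≤ β ^ 2 * n / 2 * pairMean β n t fun u => u ^ 2 := by
    refine mul_le_mul_of_nonneg_right ?_ hpm
    have : 0 ≤ β ^ 2 * (n : ℝ) := by positivity
    nlinarith
  have h5 : 0 ≤ β ^ 2 * (n : ℝ) * (1 - t) := mul_nonneg (by positivity) (by linarith)
  nlinarith [key, h3, h4, mul_nonneg (mul_nonneg (sq_nonneg β) (n.cast_nonneg (α := ℝ))) hpm]

end Vale.Agent.P146.Sup
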